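import Vale.Agent.P252.Cert.PDCoef

/-!
# Assembling leaves: scaling, rotating, changing a diagonal
-/

namespace Vale.Agent.P252.General.Cert5.Trees

open Vale.Agent.P100T.PosCheck Vale.Agent.P252.PolyPSD

variable {m : ℕ} {M : Fin m → Fin m → Ex}

/-- A triangle with the three vertices multiplied by `g₀`, `g₁`, `g₂`. -/
def smulTri (g₀ g₁ g₂ : ℕ) (V : Tri) : Tri :=
  ⟨(g₀ * V.p0.1, g₀ * V.p0.2.1, g₀ * V.p0.2.2), (g₁ * V.p1.1, g₁ * V.p1.2.1, g₁ * V.p1.2.2),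
    (g₂ * V.p2.1, g₂ * V.p2.2.1, g₂ * V.p2.2.2)⟩

/-- Scaling the vertices does not change the cone. -/
theorem posOn_smul (g₀ g₁ g₂ : ℕ) {V W : Tri} (hV : V = smulTri g₀ g₁ g₂ W) (h : PosOn M W) :
    PosOn M V := by
  subst hV
  intro a b c ha hb hc ξ
  have e : (smulTri g₀ g₁ g₂ W).pt a b c = W.pt (g₀ * a) (g₁ * b) (g₂ * c) := by
    simp only [Tri.pt, smulTri, Prod.mk.injEq]
    push_cast
    refine ⟨?_, ?_, ?_⟩ <;> ring
  rw [e]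
  exact h _ _ _ (by positivity) (by positivity) (by positivity) ξ

/-- The vertices may be rotated. -/
theorem posOn_cyc {p q r : ℤ × ℤ × ℤ} (h : PosOn M ⟨q, r, p⟩) : PosOn M ⟨p, q, r⟩ :=
  posOn_rot 1 h

/-- In a parallelogram `p₀ p₁ p₂ p₃` the two halves at the diagonal `p₁ p₃` cover the half
`p₀ p₁ p₂`. -/
theorem posOn_flip {p₀ p₁ p₂ p₃ : ℤ × ℤ × ℤ}
    (he : p₀.1 + p₂.1 = p₁.1 + p₃.1 ∧ p₀.2.1 + p₂.2.1 = p₁.2.1 + p₃.2.1 ∧
      p₀.2.2 + p₂.2.2 = p₁.2.2 + p₃.2.2)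
    (h₁ : PosOn M ⟨p₀, p₁, p₃⟩) (h₂ : PosOn M ⟨p₁, p₂, p₃⟩) : PosOn M ⟨p₀, p₁, p₂⟩ := by
  intro a b c ha hb hc ξ
  obtain ⟨e1, e2, e3⟩ := he
  replace e1 : (p₀.1 : ℝ) + p₂.1 = p₁.1 + p₃.1 := by exact_mod_cast e1
  replace e2 : (p₀.2.1 : ℝ) + p₂.2.1 = p₁.2.1 + p₃.2.1 := by exact_mod_cast e2
  replace e3 : (p₀.2.2 : ℝ) + p₂.2.2 = p₁.2.2 + p₃.2.2 := by exact_mod_cast e3
  rcases le_total c a with hca | hca
  · have h := h₁ (a - c) (b + c) c (by linarith) (by linarith) hc ξ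
    have e : Tri.pt ⟨p₀, p₁, p₃⟩ (a - c) (b + c) c = Tri.pt ⟨p₀, p₁, p₂⟩ a b c := by
      simp only [Tri.pt, Prod.mk.injEq]
      exact ⟨by linear_combination (-c) * e1, by linear_combination (-c) * e2,
        by linear_combination (-c) * e3⟩
    rwa [e] at h
  · have h := h₂ (b + a) (c - a) a (by linarith) (by linarith) ha ξ
    have e : Tri.pt ⟨p₁, p₂, p₃⟩ (b + a) (c - a) a = Tri.pt ⟨p₀, p₁, p₂⟩ a b c := by
      simp only [Tri.pt, Prod.mk.injEq]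
      exact ⟨by linear_combination (-a) * e1, by linear_combination (-a) * e2,
        by linear_combination (-a) * e3⟩
    rwa [e] at h

end Vale.Agent.P252.General.Cert5.Trees
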