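import Vale.Agent.P252.Cert.PDCoef
import Vale.Agent.P252.Rigidity.General.Cert5.Flat.I0

/-! Leaves 11..21 of block I0, generated. -/

namespace Vale.Agent.P252.General.Cert5.Trees

open Vale.Agent.P252.PolyPSD Vale.Agent.P252.PDCoef

theorem leafI0_11 : checkLeaf 9 nbI0 offI0 16 MI0
    ⟨((-3), 5, 8), ((-7), 9, 16), ((-3), 3, 8)⟩ = true := by decide +kernel

theorem leafI0_12 : checkLeaf 9 nbI0 offI0 16 MI0
    ⟨((-7), 9, 16), ((-1), 1, 2), ((-3), 3, 8)⟩ = true := by decide +kernel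

theorem leafI0_13 : checkLeaf 9 nbI0 offI0 16 MI0
    ⟨((-3), 3, 8), ((-1), 1, 4), ((-3), 5, 8)⟩ = true := by decide +kernel

theorem leafI0_14 : checkLeaf 9 nbI0 offI0 16 MI0
    ⟨(0, 1, 2), ((-1), 9, 16), ((-3), 15, 32)⟩ = true := by decide +kernel

theorem leafI0_15 : checkLeaf 9 nbI0 offI0 16 MI0
    ⟨((-1), 9, 16), ((-1), 5, 8), ((-3), 15, 32)⟩ = true := by decide +kernel

theorem leafI0_16 : checkLeaf 9 nbI0 offI0 16 MI0
    ⟨((-3), 15, 32), ((-5), 25, 64), (0, 1, 2)⟩ = true := by decide +kernel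

theorem leafI0_17 : checkLeaf 9 nbI0 offI0 16 MI0
    ⟨((-5), 25, 64), ((-1), 5, 16), (0, 1, 2)⟩ = true := by decide +kernel

theorem leafI0_18 : checkLeaf 9 nbI0 offI0 16 MI0
    ⟨((-1), 5, 32), ((-1), 21, 64), ((-1), 5, 16)⟩ = true := by decide +kernel

theorem leafI0_19 : checkLeaf 9 nbI0 offI0 16 MI0
    ⟨((-1), 21, 64), (0, 1, 2), ((-1), 5, 16)⟩ = true := by decide +kernel

theorem leafI0_20 : checkLeaf 9 nbI0 offI0 16 MI0
    ⟨(0, 0, 1), (0, 1, 4), ((-1), 5, 32)⟩ = true := by decide +kernel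

theorem leafI0_21 : checkLeaf 9 nbI0 offI0 16 MI0
    ⟨(0, 1, 4), (0, 1, 2), ((-1), 5, 32)⟩ = true := by decide +kernel

end Vale.Agent.P252.General.Cert5.Trees
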