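import Vale.Agent.P252.Cert.PDCoef
import Vale.Agent.P252.Rigidity.General.Cert5.Flat.I0

/-! Leaves 110..120 of block I0, generated. -/

namespace Vale.Agent.P252.General.Cert5.Trees

open Vale.Agent.P252.PolyPSD Vale.Agent.P252.PDCoef

theorem leafI0_110 : checkLeaf 9 nbI0 offI0 16 MI0
    ⟨((-8), 11, 16), ((-2), 3, 4), ((-5), 6, 8)⟩ = true := by decide +kernel

theorem leafI0_111 : checkLeaf 9 nbI0 offI0 16 MI0
    ⟨((-2), 3, 4), ((-1), 2, 2), ((-3), 4, 4)⟩ = true := by decide +kernel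

theorem leafI0_112 : checkLeaf 9 nbI0 offI0 16 MI0
    ⟨((-1), 1, 1), ((-3), 3, 4), ((-3), 4, 4)⟩ = true := by decide +kernel

theorem leafI0_113 : checkLeaf 9 nbI0 offI0 16 MI0
    ⟨((-3), 3, 4), ((-1), 1, 2), ((-3), 4, 4)⟩ = true := by decide +kernel

theorem leafI0_114 : checkLeaf 9 nbI0 offI0 16 MI0
    ⟨(2, 5, 8), (2, 9, 16), (2, 7, 16)⟩ = true := by decide +kernel

theorem leafI0_115 : checkLeaf 9 nbI0 offI0 16 MI0
    ⟨(2, 9, 16), (2, 17, 32), (2, 7, 16)⟩ = true := by decide +kernel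

theorem leafI0_116 : checkLeaf 9 nbI0 offI0 16 MI0
    ⟨(2, 17, 32), (0, 1, 2), (2, 7, 16)⟩ = true := by decide +kernel

theorem leafI0_117 : checkLeaf 9 nbI0 offI0 16 MI0
    ⟨(2, 5, 8), (6, 17, 32), (2, 3, 8)⟩ = true := by decide +kernel

theorem leafI0_118 : checkLeaf 9 nbI0 offI0 16 MI0
    ⟨(2, 7, 16), (6, 13, 32), (6, 17, 32)⟩ = true := by decide +kernel

theorem leafI0_119 : checkLeaf 9 nbI0 offI0 16 MI0
    ⟨(6, 13, 32), (2, 3, 8), (6, 17, 32)⟩ = true := by decide +kernel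

theorem leafI0_120 : checkLeaf 9 nbI0 offI0 16 MI0
    ⟨(2, 3, 8), (6, 5, 16), (6, 7, 16)⟩ = true := by decide +kernel

end Vale.Agent.P252.General.Cert5.Trees
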