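import Vale.Agent.P252.Cert.PDCoef
import Vale.Agent.P252.Rigidity.General.Cert5.Flat.I0

/-! Leaves 121..131 of block I0, generated. -/

namespace Vale.Agent.P252.General.Cert5.Trees

open Vale.Agent.P252.PolyPSD Vale.Agent.P252.PDCoef

theorem leafI0_121 : checkLeaf 9 nbI0 offI0 16 MI0
    ⟨(6, 5, 16), (2, 1, 4), (6, 7, 16)⟩ = true := by decide +kernel

theorem leafI0_122 : checkLeaf 9 nbI0 offI0 16 MI0
    ⟨(2, 3, 8), (10, 13, 32), (10, 17, 32)⟩ = true := by decide +kernel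

theorem leafI0_123 : checkLeaf 9 nbI0 offI0 16 MI0
    ⟨(10, 13, 32), (6, 7, 16), (10, 17, 32)⟩ = true := by decide +kernel

theorem leafI0_124 : checkLeaf 9 nbI0 offI0 16 MI0
    ⟨(10, 17, 32), (2, 5, 8), (2, 3, 8)⟩ = true := by decide +kernel

theorem leafI0_125 : checkLeaf 9 nbI0 offI0 16 MI0
    ⟨(2, 13, 16), (2, 21, 32), (2, 9, 16)⟩ = true := by decide +kernel

theorem leafI0_126 : checkLeaf 9 nbI0 offI0 16 MI0
    ⟨(0, 1, 2), (2, 17, 32), (2, 21, 32)⟩ = true := by decide +kernel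

theorem leafI0_127 : checkLeaf 9 nbI0 offI0 16 MI0
    ⟨(2, 17, 32), (2, 9, 16), (2, 21, 32)⟩ = true := by decide +kernel

theorem leafI0_128 : checkLeaf 9 nbI0 offI0 16 MI0
    ⟨(2, 9, 16), (2, 5, 8), (2, 13, 16)⟩ = true := by decide +kernel

theorem leafI0_129 : checkLeaf 9 nbI0 offI0 16 MI0
    ⟨(0, 1, 1), (0, 3, 4), (2, 13, 16)⟩ = true := by decide +kernel

theorem leafI0_130 : checkLeaf 9 nbI0 offI0 16 MI0
    ⟨(0, 1, 2), (2, 21, 32), (0, 3, 4)⟩ = true := by decide +kernel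

theorem leafI0_131 : checkLeaf 9 nbI0 offI0 16 MI0
    ⟨(2, 21, 32), (2, 13, 16), (0, 3, 4)⟩ = true := by decide +kernel

end Vale.Agent.P252.General.Cert5.Trees
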