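import Vale.Agent.P252.Cert.PDCoef
import Vale.Agent.P252.Rigidity.General.Cert5.Flat.I0

/-! Leaves 132..142 of block I0, generated. -/

namespace Vale.Agent.P252.General.Cert5.Trees

open Vale.Agent.P252.PolyPSD Vale.Agent.P252.PDCoef

theorem leafI0_132 : checkLeaf 9 nbI0 offI0 16 MI0
    ⟨(10, 3, 16), (22, 7, 32), (5, 2, 8)⟩ = true := by decide +kernel

theorem leafI0_133 : checkLeaf 9 nbI0 offI0 16 MI0
    ⟨(3, 1, 4), (11, 4, 16), (22, 7, 32)⟩ = true := by decide +kernel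

theorem leafI0_134 : checkLeaf 9 nbI0 offI0 16 MI0
    ⟨(11, 4, 16), (5, 2, 8), (22, 7, 32)⟩ = true := by decide +kernel

theorem leafI0_135 : checkLeaf 9 nbI0 offI0 16 MI0
    ⟨(5, 2, 8), (2, 1, 4), (10, 3, 16)⟩ = true := by decide +kernel

theorem leafI0_136 : checkLeaf 9 nbI0 offI0 16 MI0
    ⟨(3, 1, 4), (22, 7, 32), (6, 1, 8)⟩ = true := by decide +kernel

theorem leafI0_137 : checkLeaf 9 nbI0 offI0 16 MI0
    ⟨(22, 7, 32), (10, 3, 16), (6, 1, 8)⟩ = true := by decide +kernel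

theorem leafI0_138 : checkLeaf 9 nbI0 offI0 16 MI0
    ⟨(6, 1, 8), (14, 1, 16), (3, 1, 4)⟩ = true := by decide +kernel

theorem leafI0_139 : checkLeaf 9 nbI0 offI0 16 MI0
    ⟨(1, 0, 1), (7, 1, 8), (14, 1, 16)⟩ = true := by decide +kernel

theorem leafI0_140 : checkLeaf 9 nbI0 offI0 16 MI0
    ⟨(7, 1, 8), (3, 1, 4), (14, 1, 16)⟩ = true := by decide +kernel

theorem leafI0_141 : checkLeaf 9 nbI0 offI0 16 MI0
    ⟨(2, 1, 4), (5, 2, 8), (5, 3, 8)⟩ = true := by decide +kernel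

theorem leafI0_142 : checkLeaf 9 nbI0 offI0 16 MI0
    ⟨(5, 2, 8), (11, 4, 16), (11, 5, 16)⟩ = true := by decide +kernel

end Vale.Agent.P252.General.Cert5.Trees
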