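import Vale.Agent.P252.Cert.PDCoef
import Vale.Agent.P252.Rigidity.General.Cert5.Flat.I0

/-! Leaves 143..153 of block I0, generated. -/

namespace Vale.Agent.P252.General.Cert5.Trees

open Vale.Agent.P252.PolyPSD Vale.Agent.P252.PDCoef

theorem leafI0_143 : checkLeaf 9 nbI0 offI0 16 MI0
    ⟨(11, 4, 16), (3, 1, 4), (11, 5, 16)⟩ = true := by decide +kernel

theorem leafI0_144 : checkLeaf 9 nbI0 offI0 16 MI0
    ⟨(11, 5, 16), (5, 3, 8), (5, 2, 8)⟩ = true := by decide +kernel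

theorem leafI0_145 : checkLeaf 9 nbI0 offI0 16 MI0
    ⟨(5, 3, 8), (1, 1, 2), (2, 1, 4)⟩ = true := by decide +kernel

theorem leafI0_146 : checkLeaf 9 nbI0 offI0 16 MI0
    ⟨(10, 19, 32), (22, 39, 64), (11, 20, 32)⟩ = true := by decide +kernel

theorem leafI0_147 : checkLeaf 9 nbI0 offI0 16 MI0
    ⟨(22, 39, 64), (3, 5, 8), (11, 20, 32)⟩ = true := by decide +kernel

theorem leafI0_148 : checkLeaf 9 nbI0 offI0 16 MI0
    ⟨(11, 20, 32), (5, 10, 16), (10, 19, 32)⟩ = true := by decide +kernel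

theorem leafI0_149 : checkLeaf 9 nbI0 offI0 16 MI0
    ⟨(5, 10, 16), (2, 5, 8), (10, 19, 32)⟩ = true := by decide +kernel

theorem leafI0_150 : checkLeaf 9 nbI0 offI0 16 MI0
    ⟨(3, 5, 8), (22, 39, 64), (22, 37, 64)⟩ = true := by decide +kernel

theorem leafI0_151 : checkLeaf 9 nbI0 offI0 16 MI0
    ⟨(22, 39, 64), (10, 19, 32), (22, 37, 64)⟩ = true := by decide +kernel

theorem leafI0_152 : checkLeaf 9 nbI0 offI0 16 MI0
    ⟨(22, 37, 64), (6, 9, 16), (3, 5, 8)⟩ = true := by decide +kernel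

theorem leafI0_153 : checkLeaf 9 nbI0 offI0 16 MI0
    ⟨(6, 9, 16), (1, 1, 2), (3, 5, 8)⟩ = true := by decide +kernel

end Vale.Agent.P252.General.Cert5.Trees
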