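import Vale.Agent.P252.Cert.PDCoef
import Vale.Agent.P252.Rigidity.General.Cert5.Flat.I0

/-! Leaves 154..164 of block I0, generated. -/

namespace Vale.Agent.P252.General.Cert5.Trees

open Vale.Agent.P252.PolyPSD Vale.Agent.P252.PDCoef

theorem leafI0_154 : checkLeaf 9 nbI0 offI0 16 MI0
    ⟨(2, 5, 8), (5, 10, 16), (5, 11, 16)⟩ = true := by decide +kernel

theorem leafI0_155 : checkLeaf 9 nbI0 offI0 16 MI0
    ⟨(5, 10, 16), (11, 20, 32), (11, 21, 32)⟩ = true := by decide +kernel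

theorem leafI0_156 : checkLeaf 9 nbI0 offI0 16 MI0
    ⟨(11, 20, 32), (3, 5, 8), (11, 21, 32)⟩ = true := by decide +kernel

theorem leafI0_157 : checkLeaf 9 nbI0 offI0 16 MI0
    ⟨(11, 21, 32), (5, 11, 16), (5, 10, 16)⟩ = true := by decide +kernel

theorem leafI0_158 : checkLeaf 9 nbI0 offI0 16 MI0
    ⟨(5, 11, 16), (1, 3, 4), (2, 5, 8)⟩ = true := by decide +kernel

theorem leafI0_159 : checkLeaf 9 nbI0 offI0 16 MI0
    ⟨(1, 3, 4), (1, 7, 8), (2, 13, 16)⟩ = true := by decide +kernel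

theorem leafI0_160 : checkLeaf 9 nbI0 offI0 16 MI0
    ⟨(1, 7, 8), (0, 1, 1), (2, 13, 16)⟩ = true := by decide +kernel

theorem leafI0_161 : checkLeaf 9 nbI0 offI0 16 MI0
    ⟨(2, 13, 16), (2, 5, 8), (1, 3, 4)⟩ = true := by decide +kernel

theorem leafI0_162 : checkLeaf 9 nbI0 offI0 16 MI0
    ⟨(1, 1, 2), (6, 9, 16), (6, 7, 16)⟩ = true := by decide +kernel

theorem leafI0_163 : checkLeaf 9 nbI0 offI0 16 MI0
    ⟨(6, 9, 16), (22, 37, 64), (10, 17, 32)⟩ = true := by decide +kernel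

theorem leafI0_164 : checkLeaf 9 nbI0 offI0 16 MI0
    ⟨(22, 37, 64), (10, 19, 32), (10, 17, 32)⟩ = true := by decide +kernel

end Vale.Agent.P252.General.Cert5.Trees
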