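import Vale.Agent.P252.Cert.PDCoef
import Vale.Agent.P252.Rigidity.General.Cert5.Flat.I0

/-! Leaves 165..175 of block I0, generated. -/

namespace Vale.Agent.P252.General.Cert5.Trees

open Vale.Agent.P252.PolyPSD Vale.Agent.P252.PDCoef

theorem leafI0_165 : checkLeaf 9 nbI0 offI0 16 MI0
    ⟨(10, 19, 32), (2, 5, 8), (10, 17, 32)⟩ = true := by decide +kernel

theorem leafI0_166 : checkLeaf 9 nbI0 offI0 16 MI0
    ⟨(10, 17, 32), (6, 7, 16), (6, 9, 16)⟩ = true := by decide +kernel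

theorem leafI0_167 : checkLeaf 9 nbI0 offI0 16 MI0
    ⟨(6, 7, 16), (2, 1, 4), (1, 1, 2)⟩ = true := by decide +kernel

theorem leafI0_168 : checkLeaf 9 nbI0 offI0 16 MI0
    ⟨(1, 0, 4), (3, 1, 8), (6, 3, 16)⟩ = true := by decide +kernel

theorem leafI0_169 : checkLeaf 9 nbI0 offI0 16 MI0
    ⟨(3, 1, 8), (2, 1, 4), (6, 3, 16)⟩ = true := by decide +kernel

theorem leafI0_170 : checkLeaf 9 nbI0 offI0 16 MI0
    ⟨(6, 3, 16), (2, 1, 8), (1, 0, 4)⟩ = true := by decide +kernel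

theorem leafI0_171 : checkLeaf 9 nbI0 offI0 16 MI0
    ⟨(2, 1, 8), (2, 1, 16), (1, 0, 8)⟩ = true := by decide +kernel

theorem leafI0_172 : checkLeaf 9 nbI0 offI0 16 MI0
    ⟨(2, 1, 16), (6, 3, 64), (6, 1, 64)⟩ = true := by decide +kernel

theorem leafI0_173 : checkLeaf 9 nbI0 offI0 16 MI0
    ⟨(6, 3, 64), (2, 1, 32), (6, 1, 64)⟩ = true := by decide +kernel

theorem leafI0_174 : checkLeaf 9 nbI0 offI0 16 MI0
    ⟨(6, 1, 64), (1, 0, 8), (2, 1, 16)⟩ = true := by decide +kernel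

theorem leafI0_175 : checkLeaf 9 nbI0 offI0 16 MI0
    ⟨(0, 0, 1), (1, 0, 16), (2, 1, 32)⟩ = true := by decide +kernel

end Vale.Agent.P252.General.Cert5.Trees
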