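import Vale.Agent.P252.Cert.PDCoef
import Vale.Agent.P252.Rigidity.General.Cert5.Flat.I0

/-! Leaves 187..197 of block I0, generated. -/

namespace Vale.Agent.P252.General.Cert5.Trees

open Vale.Agent.P252.PolyPSD Vale.Agent.P252.PDCoef

theorem leafI0_187 : checkLeaf 9 nbI0 offI0 16 MI0
    ⟨(10, 1, 16), (18, 1, 32), (5, 0, 8)⟩ = true := by decide +kernel

theorem leafI0_188 : checkLeaf 9 nbI0 offI0 16 MI0
    ⟨(1, 0, 2), (9, 0, 16), (18, 1, 32)⟩ = true := by decide +kernel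

theorem leafI0_189 : checkLeaf 9 nbI0 offI0 16 MI0
    ⟨(9, 0, 16), (5, 0, 8), (18, 1, 32)⟩ = true := by decide +kernel

theorem leafI0_190 : checkLeaf 9 nbI0 offI0 16 MI0
    ⟨(5, 0, 8), (3, 0, 4), (10, 1, 16)⟩ = true := by decide +kernel

theorem leafI0_191 : checkLeaf 9 nbI0 offI0 16 MI0
    ⟨(14, 1, 16), (26, 1, 32), (13, 0, 16)⟩ = true := by decide +kernel

theorem leafI0_192 : checkLeaf 9 nbI0 offI0 16 MI0
    ⟨(26, 1, 32), (3, 0, 4), (13, 0, 16)⟩ = true := by decide +kernel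

theorem leafI0_193 : checkLeaf 9 nbI0 offI0 16 MI0
    ⟨(13, 0, 16), (7, 0, 8), (14, 1, 16)⟩ = true := by decide +kernel

theorem leafI0_194 : checkLeaf 9 nbI0 offI0 16 MI0
    ⟨(7, 0, 8), (1, 0, 1), (14, 1, 16)⟩ = true := by decide +kernel

theorem leafI0_195 : checkLeaf 9 nbI0 offI0 16 MI0
    ⟨(3, 0, 4), (26, 1, 32), (6, 1, 8)⟩ = true := by decide +kernel

theorem leafI0_196 : checkLeaf 9 nbI0 offI0 16 MI0
    ⟨(26, 1, 32), (14, 1, 16), (6, 1, 8)⟩ = true := by decide +kernel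

theorem leafI0_197 : checkLeaf 9 nbI0 offI0 16 MI0
    ⟨(10, 3, 16), (18, 3, 32), (18, 1, 32)⟩ = true := by decide +kernel

end Vale.Agent.P252.General.Cert5.Trees
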