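import Vale.Agent.P252.Cert.PDCoef
import Vale.Agent.P252.Rigidity.General.Cert5.Flat.I0

/-! Leaves 198..208 of block I0, generated. -/

namespace Vale.Agent.P252.General.Cert5.Trees

open Vale.Agent.P252.PolyPSD Vale.Agent.P252.PDCoef

theorem leafI0_198 : checkLeaf 9 nbI0 offI0 16 MI0
    ⟨(18, 3, 32), (1, 0, 2), (18, 1, 32)⟩ = true := by decide +kernel

theorem leafI0_199 : checkLeaf 9 nbI0 offI0 16 MI0
    ⟨(18, 1, 32), (10, 1, 16), (10, 3, 16)⟩ = true := by decide +kernel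

theorem leafI0_200 : checkLeaf 9 nbI0 offI0 16 MI0
    ⟨(10, 1, 16), (6, 1, 8), (10, 3, 16)⟩ = true := by decide +kernel

theorem leafI0_201 : checkLeaf 9 nbI0 offI0 16 MI0
    ⟨(1, 0, 2), (18, 3, 32), (2, 1, 4)⟩ = true := by decide +kernel

theorem leafI0_202 : checkLeaf 9 nbI0 offI0 16 MI0
    ⟨(18, 3, 32), (10, 3, 16), (2, 1, 4)⟩ = true := by decide +kernel

theorem leafI0_203 : checkLeaf 9 nbI0 offI0 16 MI0
    ⟨(14, 19, 128), (30, 59, 256), (6, 15, 64)⟩ = true := by decide +kernel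

theorem leafI0_204 : checkLeaf 9 nbI0 offI0 16 MI0
    ⟨(30, 59, 256), (2, 5, 16), (6, 15, 64)⟩ = true := by decide +kernel

theorem leafI0_205 : checkLeaf 9 nbI0 offI0 16 MI0
    ⟨(14, 19, 128), (2, 1, 16), (2, 5, 16)⟩ = true := by decide +kernel

theorem leafI0_206 : checkLeaf 9 nbI0 offI0 16 MI0
    ⟨(2, 5, 32), (6, 7, 64), (6, 15, 64)⟩ = true := by decide +kernel

theorem leafI0_207 : checkLeaf 9 nbI0 offI0 16 MI0
    ⟨(2, 1, 16), (14, 19, 128), (6, 7, 64)⟩ = true := by decide +kernel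

theorem leafI0_208 : checkLeaf 9 nbI0 offI0 16 MI0
    ⟨(14, 19, 128), (6, 15, 64), (6, 7, 64)⟩ = true := by decide +kernel

end Vale.Agent.P252.General.Cert5.Trees
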