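import Vale.Agent.P252.Cert.PDCoef
import Vale.Agent.P252.Rigidity.General.Cert5.Flat.I0

/-! Leaves 209..219 of block I0, generated. -/

namespace Vale.Agent.P252.General.Cert5.Trees

open Vale.Agent.P252.PolyPSD Vale.Agent.P252.PDCoef

theorem leafI0_209 : checkLeaf 9 nbI0 offI0 16 MI0
    ⟨(0, 0, 1), (2, 1, 32), (2, 5, 32)⟩ = true := by decide +kernel

theorem leafI0_210 : checkLeaf 9 nbI0 offI0 16 MI0
    ⟨(2, 1, 32), (6, 3, 64), (6, 7, 64)⟩ = true := by decide +kernel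

theorem leafI0_211 : checkLeaf 9 nbI0 offI0 16 MI0
    ⟨(6, 3, 64), (2, 1, 16), (6, 7, 64)⟩ = true := by decide +kernel

theorem leafI0_212 : checkLeaf 9 nbI0 offI0 16 MI0
    ⟨(6, 7, 64), (2, 5, 32), (2, 1, 32)⟩ = true := by decide +kernel

theorem leafI0_213 : checkLeaf 9 nbI0 offI0 16 MI0
    ⟨(2, 1, 16), (2, 1, 8), (2, 5, 16)⟩ = true := by decide +kernel

theorem leafI0_214 : checkLeaf 9 nbI0 offI0 16 MI0
    ⟨(0, 1, 2), (0, 1, 4), (2, 5, 32)⟩ = true := by decide +kernel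

theorem leafI0_215 : checkLeaf 9 nbI0 offI0 16 MI0
    ⟨(0, 1, 4), (0, 0, 1), (2, 5, 32)⟩ = true := by decide +kernel

theorem leafI0_216 : checkLeaf 9 nbI0 offI0 16 MI0
    ⟨(0, 1, 2), (2, 21, 64), (2, 5, 16)⟩ = true := by decide +kernel

theorem leafI0_217 : checkLeaf 9 nbI0 offI0 16 MI0
    ⟨(2, 5, 32), (6, 15, 64), (2, 21, 64)⟩ = true := by decide +kernel

theorem leafI0_218 : checkLeaf 9 nbI0 offI0 16 MI0
    ⟨(6, 15, 64), (2, 5, 16), (2, 21, 64)⟩ = true := by decide +kernel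

theorem leafI0_219 : checkLeaf 9 nbI0 offI0 16 MI0
    ⟨(2, 1, 8), (6, 3, 16), (6, 5, 16)⟩ = true := by decide +kernel

end Vale.Agent.P252.General.Cert5.Trees
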