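import Vale.Agent.P252.Cert.PDCoef
import Vale.Agent.P252.Rigidity.General.Cert5.Flat.I0

/-! Leaves 22..32 of block I0, generated. -/

namespace Vale.Agent.P252.General.Cert5.Trees

open Vale.Agent.P252.PolyPSD Vale.Agent.P252.PDCoef

theorem leafI0_22 : checkLeaf 9 nbI0 offI0 16 MI0
    ⟨(0, 3, 4), ((-1), 11, 16), ((-1), 9, 16)⟩ = true := by decide +kernel

theorem leafI0_23 : checkLeaf 9 nbI0 offI0 16 MI0
    ⟨((-1), 11, 16), ((-1), 5, 8), ((-1), 9, 16)⟩ = true := by decide +kernel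

theorem leafI0_24 : checkLeaf 9 nbI0 offI0 16 MI0
    ⟨((-1), 9, 16), (0, 1, 2), (0, 3, 4)⟩ = true := by decide +kernel

theorem leafI0_25 : checkLeaf 9 nbI0 offI0 16 MI0
    ⟨(0, 1, 1), ((-1), 13, 16), (0, 3, 4)⟩ = true := by decide +kernel

theorem leafI0_26 : checkLeaf 9 nbI0 offI0 16 MI0
    ⟨((-1), 5, 8), ((-1), 11, 16), ((-1), 13, 16)⟩ = true := by decide +kernel

theorem leafI0_27 : checkLeaf 9 nbI0 offI0 16 MI0
    ⟨((-1), 11, 16), (0, 3, 4), ((-1), 13, 16)⟩ = true := by decide +kernel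

theorem leafI0_28 : checkLeaf 9 nbI0 offI0 16 MI0
    ⟨((-1), 1, 4), ((-1), 1, 8), ((-1), 5, 16)⟩ = true := by decide +kernel

theorem leafI0_29 : checkLeaf 9 nbI0 offI0 16 MI0
    ⟨(0, 0, 1), ((-1), 5, 32), ((-1), 1, 8)⟩ = true := by decide +kernel

theorem leafI0_30 : checkLeaf 9 nbI0 offI0 16 MI0
    ⟨((-1), 5, 32), ((-1), 5, 16), ((-1), 1, 8)⟩ = true := by decide +kernel

theorem leafI0_31 : checkLeaf 9 nbI0 offI0 16 MI0
    ⟨((-1), 1, 4), ((-5), 9, 32), ((-3), 15, 32)⟩ = true := by decide +kernel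

theorem leafI0_32 : checkLeaf 9 nbI0 offI0 16 MI0
    ⟨((-3), 15, 32), ((-1), 3, 8), ((-1), 5, 16)⟩ = true := by decide +kernel

end Vale.Agent.P252.General.Cert5.Trees
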