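import Vale.Agent.P252.Cert.PDCoef
import Vale.Agent.P252.Rigidity.General.Cert5.Flat.I0

/-! Leaves 220..230 of block I0, generated. -/

namespace Vale.Agent.P252.General.Cert5.Trees

open Vale.Agent.P252.PolyPSD Vale.Agent.P252.PDCoef

theorem leafI0_220 : checkLeaf 9 nbI0 offI0 16 MI0
    ⟨(6, 3, 16), (2, 1, 4), (6, 5, 16)⟩ = true := by decide +kernel

theorem leafI0_221 : checkLeaf 9 nbI0 offI0 16 MI0
    ⟨(6, 5, 16), (2, 3, 8), (2, 1, 8)⟩ = true := by decide +kernel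

theorem leafI0_222 : checkLeaf 9 nbI0 offI0 16 MI0
    ⟨(2, 5, 16), (6, 11, 32), (2, 7, 16)⟩ = true := by decide +kernel

theorem leafI0_223 : checkLeaf 9 nbI0 offI0 16 MI0
    ⟨(2, 3, 8), (6, 13, 32), (6, 11, 32)⟩ = true := by decide +kernel

theorem leafI0_224 : checkLeaf 9 nbI0 offI0 16 MI0
    ⟨(6, 13, 32), (2, 7, 16), (6, 11, 32)⟩ = true := by decide +kernel

theorem leafI0_225 : checkLeaf 9 nbI0 offI0 16 MI0
    ⟨(2, 7, 16), (0, 1, 2), (2, 5, 16)⟩ = true := by decide +kernel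

theorem leafI0_226 : checkLeaf 9 nbI0 offI0 16 MI0
    ⟨(2, 3, 8), (6, 11, 32), (6, 7, 32)⟩ = true := by decide +kernel

theorem leafI0_227 : checkLeaf 9 nbI0 offI0 16 MI0
    ⟨(6, 11, 32), (2, 5, 16), (6, 7, 32)⟩ = true := by decide +kernel

theorem leafI0_228 : checkLeaf 9 nbI0 offI0 16 MI0
    ⟨(6, 7, 32), (2, 1, 8), (2, 3, 8)⟩ = true := by decide +kernel

theorem leafI0_229 : checkLeaf 9 nbI0 offI0 16 MI0
    ⟨(9, 13, 16), (17, 21, 32), (3, 3, 4)⟩ = true := by decide +kernel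

theorem leafI0_230 : checkLeaf 9 nbI0 offI0 16 MI0
    ⟨(17, 21, 32), (1, 1, 2), (3, 3, 4)⟩ = true := by decide +kernel

end Vale.Agent.P252.General.Cert5.Trees
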