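import Vale.Agent.P252.Cert.PDCoef
import Vale.Agent.P252.Rigidity.General.Cert5.Flat.I0

/-! Leaves 231..241 of block I0, generated. -/

namespace Vale.Agent.P252.General.Cert5.Trees

open Vale.Agent.P252.PolyPSD Vale.Agent.P252.PDCoef

theorem leafI0_231 : checkLeaf 9 nbI0 offI0 16 MI0
    ⟨(9, 13, 16), (15, 27, 32), (7, 11, 16)⟩ = true := by decide +kernel

theorem leafI0_232 : checkLeaf 9 nbI0 offI0 16 MI0
    ⟨(15, 27, 32), (3, 7, 8), (7, 11, 16)⟩ = true := by decide +kernel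

theorem leafI0_233 : checkLeaf 9 nbI0 offI0 16 MI0
    ⟨(7, 11, 16), (15, 19, 32), (17, 21, 32)⟩ = true := by decide +kernel

theorem leafI0_234 : checkLeaf 9 nbI0 offI0 16 MI0
    ⟨(15, 19, 32), (1, 1, 2), (17, 21, 32)⟩ = true := by decide +kernel

theorem leafI0_235 : checkLeaf 9 nbI0 offI0 16 MI0
    ⟨(17, 21, 32), (9, 13, 16), (7, 11, 16)⟩ = true := by decide +kernel

theorem leafI0_236 : checkLeaf 9 nbI0 offI0 16 MI0
    ⟨(3, 7, 8), (3, 15, 16), (1, 3, 4)⟩ = true := by decide +kernel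

theorem leafI0_237 : checkLeaf 9 nbI0 offI0 16 MI0
    ⟨(0, 1, 1), (1, 7, 8), (3, 15, 16)⟩ = true := by decide +kernel

theorem leafI0_238 : checkLeaf 9 nbI0 offI0 16 MI0
    ⟨(1, 7, 8), (1, 3, 4), (3, 15, 16)⟩ = true := by decide +kernel

theorem leafI0_239 : checkLeaf 9 nbI0 offI0 16 MI0
    ⟨(1, 3, 4), (5, 11, 16), (3, 7, 8)⟩ = true := by decide +kernel

theorem leafI0_240 : checkLeaf 9 nbI0 offI0 16 MI0
    ⟨(5, 11, 16), (11, 21, 32), (3, 6, 8)⟩ = true := by decide +kernel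

theorem leafI0_241 : checkLeaf 9 nbI0 offI0 16 MI0
    ⟨(11, 21, 32), (3, 5, 8), (3, 6, 8)⟩ = true := by decide +kernel

end Vale.Agent.P252.General.Cert5.Trees
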