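import Vale.Agent.P252.Cert.PDCoef
import Vale.Agent.P252.Rigidity.General.Cert5.Flat.I0

/-! Leaves 242..252 of block I0, generated. -/

namespace Vale.Agent.P252.General.Cert5.Trees

open Vale.Agent.P252.PolyPSD Vale.Agent.P252.PDCoef

theorem leafI0_242 : checkLeaf 9 nbI0 offI0 16 MI0
    ⟨(3, 6, 8), (3, 7, 8), (5, 11, 16)⟩ = true := by decide +kernel

theorem leafI0_243 : checkLeaf 9 nbI0 offI0 16 MI0
    ⟨(1, 1, 2), (15, 19, 32), (3, 5, 8)⟩ = true := by decide +kernel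

theorem leafI0_244 : checkLeaf 9 nbI0 offI0 16 MI0
    ⟨(15, 19, 32), (7, 11, 16), (3, 5, 8)⟩ = true := by decide +kernel

theorem leafI0_245 : checkLeaf 9 nbI0 offI0 16 MI0
    ⟨(7, 11, 16), (3, 7, 8), (3, 5, 8)⟩ = true := by decide +kernel

theorem leafI0_246 : checkLeaf 9 nbI0 offI0 16 MI0
    ⟨(1, 1, 1), (3, 4, 4), (5, 7, 8)⟩ = true := by decide +kernel

theorem leafI0_247 : checkLeaf 9 nbI0 offI0 16 MI0
    ⟨(3, 4, 4), (5, 8, 8), (5, 7, 8)⟩ = true := by decide +kernel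

theorem leafI0_248 : checkLeaf 9 nbI0 offI0 16 MI0
    ⟨(5, 8, 8), (1, 2, 2), (5, 7, 8)⟩ = true := by decide +kernel

theorem leafI0_249 : checkLeaf 9 nbI0 offI0 16 MI0
    ⟨(5, 7, 8), (3, 3, 4), (1, 1, 1)⟩ = true := by decide +kernel

theorem leafI0_250 : checkLeaf 9 nbI0 offI0 16 MI0
    ⟨(1, 2, 2), (3, 8, 8), (3, 7, 8)⟩ = true := by decide +kernel

theorem leafI0_251 : checkLeaf 9 nbI0 offI0 16 MI0
    ⟨(3, 8, 8), (1, 4, 4), (3, 7, 8)⟩ = true := by decide +kernel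

theorem leafI0_252 : checkLeaf 9 nbI0 offI0 16 MI0
    ⟨(1, 4, 4), (1, 8, 8), (3, 15, 16)⟩ = true := by decide +kernel

end Vale.Agent.P252.General.Cert5.Trees
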