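import Vale.Agent.P252.Cert.PDCoef
import Vale.Agent.P252.Rigidity.General.Cert5.Flat.I0

/-! Leaves 253..263 of block I0, generated. -/

namespace Vale.Agent.P252.General.Cert5.Trees

open Vale.Agent.P252.PolyPSD Vale.Agent.P252.PDCoef

theorem leafI0_253 : checkLeaf 9 nbI0 offI0 16 MI0
    ⟨(1, 8, 8), (0, 1, 1), (3, 15, 16)⟩ = true := by decide +kernel

theorem leafI0_254 : checkLeaf 9 nbI0 offI0 16 MI0
    ⟨(3, 15, 16), (3, 7, 8), (1, 4, 4)⟩ = true := by decide +kernel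

theorem leafI0_255 : checkLeaf 9 nbI0 offI0 16 MI0
    ⟨(3, 7, 8), (15, 27, 32), (1, 2, 2)⟩ = true := by decide +kernel

theorem leafI0_256 : checkLeaf 9 nbI0 offI0 16 MI0
    ⟨(15, 27, 32), (9, 13, 16), (1, 2, 2)⟩ = true := by decide +kernel

theorem leafI0_257 : checkLeaf 9 nbI0 offI0 16 MI0
    ⟨(3, 3, 4), (5, 7, 8), (9, 13, 16)⟩ = true := by decide +kernel

theorem leafI0_258 : checkLeaf 9 nbI0 offI0 16 MI0
    ⟨(5, 7, 8), (1, 2, 2), (9, 13, 16)⟩ = true := by decide +kernel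

theorem leafI0_259 : checkLeaf 9 nbI0 offI0 16 MI0
    ⟨(5, 3, 8), (3, 2, 4), (11, 9, 16)⟩ = true := by decide +kernel

theorem leafI0_260 : checkLeaf 9 nbI0 offI0 16 MI0
    ⟨(3, 2, 4), (7, 5, 8), (11, 9, 16)⟩ = true := by decide +kernel

theorem leafI0_261 : checkLeaf 9 nbI0 offI0 16 MI0
    ⟨(11, 9, 16), (1, 1, 2), (5, 3, 8)⟩ = true := by decide +kernel

theorem leafI0_262 : checkLeaf 9 nbI0 offI0 16 MI0
    ⟨(5, 3, 8), (11, 5, 16), (13, 7, 16)⟩ = true := by decide +kernel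

theorem leafI0_263 : checkLeaf 9 nbI0 offI0 16 MI0
    ⟨(11, 5, 16), (3, 1, 4), (13, 7, 16)⟩ = true := by decide +kernel

end Vale.Agent.P252.General.Cert5.Trees
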