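import Vale.Agent.P252.Cert.PDCoef
import Vale.Agent.P252.Rigidity.General.Cert5.Flat.I0

/-! Leaves 275..283 of block I0, generated. -/

namespace Vale.Agent.P252.General.Cert5.Trees

open Vale.Agent.P252.PolyPSD Vale.Agent.P252.PDCoef

theorem leafI0_275 : checkLeaf 9 nbI0 offI0 16 MI0
    ⟨(7, 5, 8), (15, 9, 16), (8, 5, 8)⟩ = true := by decide +kernel

theorem leafI0_276 : checkLeaf 9 nbI0 offI0 16 MI0
    ⟨(15, 9, 16), (2, 1, 2), (8, 5, 8)⟩ = true := by decide +kernel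

theorem leafI0_277 : checkLeaf 9 nbI0 offI0 16 MI0
    ⟨(8, 5, 8), (4, 3, 4), (7, 5, 8)⟩ = true := by decide +kernel

theorem leafI0_278 : checkLeaf 9 nbI0 offI0 16 MI0
    ⟨(1, 1, 1), (15, 13, 16), (4, 3, 4)⟩ = true := by decide +kernel

theorem leafI0_279 : checkLeaf 9 nbI0 offI0 16 MI0
    ⟨(15, 13, 16), (7, 5, 8), (4, 3, 4)⟩ = true := by decide +kernel

theorem leafI0_280 : checkLeaf 9 nbI0 offI0 16 MI0
    ⟨(13, 7, 16), (29, 15, 32), (15, 9, 16)⟩ = true := by decide +kernel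

theorem leafI0_281 : checkLeaf 9 nbI0 offI0 16 MI0
    ⟨(29, 15, 32), (2, 1, 2), (15, 9, 16)⟩ = true := by decide +kernel

theorem leafI0_282 : checkLeaf 9 nbI0 offI0 16 MI0
    ⟨(15, 9, 16), (7, 5, 8), (13, 7, 16)⟩ = true := by decide +kernel

theorem leafI0_283 : checkLeaf 9 nbI0 offI0 16 MI0
    ⟨(13, 7, 16), (3, 1, 4), (2, 1, 2)⟩ = true := by decide +kernel

end Vale.Agent.P252.General.Cert5.Trees
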