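import Vale.Agent.P252.Cert.PDCoef
import Vale.Agent.P252.Rigidity.General.Cert5.Flat.I0

/-! Leaves 33..43 of block I0, generated. -/

namespace Vale.Agent.P252.General.Cert5.Trees

open Vale.Agent.P252.PolyPSD Vale.Agent.P252.PDCoef

theorem leafI0_33 : checkLeaf 9 nbI0 offI0 16 MI0
    ⟨((-1), 3, 8), ((-5), 9, 32), ((-1), 5, 16)⟩ = true := by decide +kernel

theorem leafI0_34 : checkLeaf 9 nbI0 offI0 16 MI0
    ⟨((-1), 5, 8), ((-3), 7, 16), ((-3), 15, 32)⟩ = true := by decide +kernel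

theorem leafI0_35 : checkLeaf 9 nbI0 offI0 16 MI0
    ⟨((-3), 7, 16), ((-1), 1, 4), ((-3), 15, 32)⟩ = true := by decide +kernel

theorem leafI0_36 : checkLeaf 9 nbI0 offI0 16 MI0
    ⟨((-1), 1, 2), ((-5), 3, 8), ((-1), 0, 2)⟩ = true := by decide +kernel

theorem leafI0_37 : checkLeaf 9 nbI0 offI0 16 MI0
    ⟨((-5), 3, 8), ((-3), 1, 4), ((-1), 0, 2)⟩ = true := by decide +kernel

theorem leafI0_38 : checkLeaf 9 nbI0 offI0 16 MI0
    ⟨((-3), 1, 4), ((-1), 0, 1), ((-1), 0, 2)⟩ = true := by decide +kernel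

theorem leafI0_39 : checkLeaf 9 nbI0 offI0 16 MI0
    ⟨((-3), 1, 8), ((-5), 1, 16), ((-1), 1, 4)⟩ = true := by decide +kernel

theorem leafI0_40 : checkLeaf 9 nbI0 offI0 16 MI0
    ⟨((-1), 1, 4), ((-9), 5, 32), ((-1), 0, 4)⟩ = true := by decide +kernel

theorem leafI0_41 : checkLeaf 9 nbI0 offI0 16 MI0
    ⟨((-5), 1, 16), ((-9), 1, 32), ((-17), 5, 64)⟩ = true := by decide +kernel

theorem leafI0_42 : checkLeaf 9 nbI0 offI0 16 MI0
    ⟨((-9), 1, 32), ((-1), 0, 4), ((-17), 5, 64)⟩ = true := by decide +kernel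

theorem leafI0_43 : checkLeaf 9 nbI0 offI0 16 MI0
    ⟨((-17), 5, 64), ((-9), 5, 32), ((-5), 1, 16)⟩ = true := by decide +kernel

end Vale.Agent.P252.General.Cert5.Trees
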