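import Vale.Agent.P252.Cert.PDCoef
import Vale.Agent.P252.Rigidity.General.Cert5.Flat.I0

/-! Leaves 44..54 of block I0, generated. -/

namespace Vale.Agent.P252.General.Cert5.Trees

open Vale.Agent.P252.PolyPSD Vale.Agent.P252.PDCoef

theorem leafI0_44 : checkLeaf 9 nbI0 offI0 16 MI0
    ⟨((-1), 0, 2), ((-3), 0, 8), ((-3), 1, 8)⟩ = true := by decide +kernel

theorem leafI0_45 : checkLeaf 9 nbI0 offI0 16 MI0
    ⟨((-3), 0, 8), ((-5), 0, 16), ((-5), 1, 16)⟩ = true := by decide +kernel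

theorem leafI0_46 : checkLeaf 9 nbI0 offI0 16 MI0
    ⟨((-5), 0, 16), ((-19), 0, 64), ((-9), 1, 32)⟩ = true := by decide +kernel

theorem leafI0_47 : checkLeaf 9 nbI0 offI0 16 MI0
    ⟨((-9), 1, 32), ((-37), 2, 128), ((-9), 0, 32)⟩ = true := by decide +kernel

theorem leafI0_48 : checkLeaf 9 nbI0 offI0 16 MI0
    ⟨((-19), 0, 64), ((-37), 0, 128), ((-37), 2, 128)⟩ = true := by decide +kernel

theorem leafI0_49 : checkLeaf 9 nbI0 offI0 16 MI0
    ⟨((-37), 0, 128), ((-9), 0, 32), ((-37), 2, 128)⟩ = true := by decide +kernel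

theorem leafI0_50 : checkLeaf 9 nbI0 offI0 16 MI0
    ⟨((-9), 0, 32), ((-1), 0, 4), ((-9), 1, 32)⟩ = true := by decide +kernel

theorem leafI0_51 : checkLeaf 9 nbI0 offI0 16 MI0
    ⟨((-9), 1, 32), ((-5), 1, 16), ((-5), 0, 16)⟩ = true := by decide +kernel

theorem leafI0_52 : checkLeaf 9 nbI0 offI0 16 MI0
    ⟨((-5), 1, 16), ((-3), 1, 8), ((-3), 0, 8)⟩ = true := by decide +kernel

theorem leafI0_53 : checkLeaf 9 nbI0 offI0 16 MI0
    ⟨((-1), 0, 4), (0, 0, 1), ((-1), 1, 4)⟩ = true := by decide +kernel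

theorem leafI0_54 : checkLeaf 9 nbI0 offI0 16 MI0
    ⟨((-1), 0, 2), ((-3), 1, 8), ((-1), 1, 2)⟩ = true := by decide +kernel

end Vale.Agent.P252.General.Cert5.Trees
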