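import Vale.Agent.P252.Cert.PDCoef
import Vale.Agent.P252.Rigidity.General.Cert5.Flat.I0

/-! Leaves 55..65 of block I0, generated. -/

namespace Vale.Agent.P252.General.Cert5.Trees

open Vale.Agent.P252.PolyPSD Vale.Agent.P252.PDCoef

theorem leafI0_55 : checkLeaf 9 nbI0 offI0 16 MI0
    ⟨((-3), 1, 8), ((-1), 1, 4), ((-1), 1, 2)⟩ = true := by decide +kernel

theorem leafI0_56 : checkLeaf 9 nbI0 offI0 16 MI0
    ⟨((-13), 7, 16), ((-29), 15, 32), ((-7), 3, 8)⟩ = true := by decide +kernel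

theorem leafI0_57 : checkLeaf 9 nbI0 offI0 16 MI0
    ⟨((-29), 15, 32), ((-2), 1, 2), ((-7), 3, 8)⟩ = true := by decide +kernel

theorem leafI0_58 : checkLeaf 9 nbI0 offI0 16 MI0
    ⟨((-7), 3, 8), ((-3), 1, 4), ((-13), 7, 16)⟩ = true := by decide +kernel

theorem leafI0_59 : checkLeaf 9 nbI0 offI0 16 MI0
    ⟨((-13), 7, 16), ((-7), 5, 8), ((-2), 1, 2)⟩ = true := by decide +kernel

theorem leafI0_60 : checkLeaf 9 nbI0 offI0 16 MI0
    ⟨((-7), 5, 8), ((-1), 1, 1), ((-2), 1, 2)⟩ = true := by decide +kernel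

theorem leafI0_61 : checkLeaf 9 nbI0 offI0 16 MI0
    ⟨((-14), 5, 16), ((-30), 13, 32), ((-8), 3, 8)⟩ = true := by decide +kernel

theorem leafI0_62 : checkLeaf 9 nbI0 offI0 16 MI0
    ⟨((-30), 13, 32), ((-2), 1, 2), ((-8), 3, 8)⟩ = true := by decide +kernel

theorem leafI0_63 : checkLeaf 9 nbI0 offI0 16 MI0
    ⟨((-3), 1, 4), ((-7), 3, 8), ((-14), 5, 16)⟩ = true := by decide +kernel

theorem leafI0_64 : checkLeaf 9 nbI0 offI0 16 MI0
    ⟨((-2), 1, 2), ((-30), 13, 32), ((-7), 3, 8)⟩ = true := by decide +kernel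

theorem leafI0_65 : checkLeaf 9 nbI0 offI0 16 MI0
    ⟨((-30), 13, 32), ((-14), 5, 16), ((-7), 3, 8)⟩ = true := by decide +kernel

end Vale.Agent.P252.General.Cert5.Trees
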