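import Vale.Agent.P252.Cert.PDCoef
import Vale.Agent.P252.Rigidity.General.Cert5.Flat.I0

/-! Leaves 66..76 of block I0, generated. -/

namespace Vale.Agent.P252.General.Cert5.Trees

open Vale.Agent.P252.PolyPSD Vale.Agent.P252.PDCoef

theorem leafI0_66 : checkLeaf 9 nbI0 offI0 16 MI0
    ⟨((-3), 1, 4), ((-14), 5, 16), ((-4), 1, 4)⟩ = true := by decide +kernel

theorem leafI0_67 : checkLeaf 9 nbI0 offI0 16 MI0
    ⟨((-14), 5, 16), ((-8), 3, 8), ((-4), 1, 4)⟩ = true := by decide +kernel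

theorem leafI0_68 : checkLeaf 9 nbI0 offI0 16 MI0
    ⟨((-4), 1, 4), ((-1), 0, 1), ((-3), 1, 4)⟩ = true := by decide +kernel

theorem leafI0_69 : checkLeaf 9 nbI0 offI0 16 MI0
    ⟨((-7), 5, 8), ((-11), 9, 16), ((-3), 3, 4)⟩ = true := by decide +kernel

theorem leafI0_70 : checkLeaf 9 nbI0 offI0 16 MI0
    ⟨((-11), 9, 16), ((-1), 1, 2), ((-3), 3, 4)⟩ = true := by decide +kernel

theorem leafI0_71 : checkLeaf 9 nbI0 offI0 16 MI0
    ⟨((-3), 3, 4), ((-1), 1, 1), ((-7), 5, 8)⟩ = true := by decide +kernel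

theorem leafI0_72 : checkLeaf 9 nbI0 offI0 16 MI0
    ⟨((-7), 5, 8), ((-13), 7, 16), ((-5), 3, 8)⟩ = true := by decide +kernel

theorem leafI0_73 : checkLeaf 9 nbI0 offI0 16 MI0
    ⟨((-13), 7, 16), ((-3), 1, 4), ((-5), 3, 8)⟩ = true := by decide +kernel

theorem leafI0_74 : checkLeaf 9 nbI0 offI0 16 MI0
    ⟨((-1), 1, 2), ((-11), 9, 16), ((-5), 3, 8)⟩ = true := by decide +kernel

theorem leafI0_75 : checkLeaf 9 nbI0 offI0 16 MI0
    ⟨((-11), 9, 16), ((-7), 5, 8), ((-5), 3, 8)⟩ = true := by decide +kernel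

theorem leafI0_76 : checkLeaf 9 nbI0 offI0 16 MI0
    ⟨((-2), 3, 4), ((-7), 11, 16), ((-7), 13, 16)⟩ = true := by decide +kernel

end Vale.Agent.P252.General.Cert5.Trees
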