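import Vale.Agent.P252.Cert.PDCoef
import Vale.Agent.P252.Rigidity.General.Cert5.Flat.I0

/-! Leaves 77..87 of block I0, generated. -/

namespace Vale.Agent.P252.General.Cert5.Trees

open Vale.Agent.P252.PolyPSD Vale.Agent.P252.PDCoef

theorem leafI0_77 : checkLeaf 9 nbI0 offI0 16 MI0
    ⟨((-7), 11, 16), ((-3), 5, 8), ((-7), 13, 16)⟩ = true := by decide +kernel

theorem leafI0_78 : checkLeaf 9 nbI0 offI0 16 MI0
    ⟨((-7), 13, 16), ((-1), 2, 2), ((-2), 3, 4)⟩ = true := by decide +kernel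

theorem leafI0_79 : checkLeaf 9 nbI0 offI0 16 MI0
    ⟨((-7), 9, 16), ((-15), 21, 32), ((-8), 11, 16)⟩ = true := by decide +kernel

theorem leafI0_80 : checkLeaf 9 nbI0 offI0 16 MI0
    ⟨((-15), 21, 32), ((-2), 3, 4), ((-8), 11, 16)⟩ = true := by decide +kernel

theorem leafI0_81 : checkLeaf 9 nbI0 offI0 16 MI0
    ⟨((-8), 11, 16), ((-4), 5, 8), ((-7), 9, 16)⟩ = true := by decide +kernel

theorem leafI0_82 : checkLeaf 9 nbI0 offI0 16 MI0
    ⟨((-4), 5, 8), ((-1), 1, 2), ((-7), 9, 16)⟩ = true := by decide +kernel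

theorem leafI0_83 : checkLeaf 9 nbI0 offI0 16 MI0
    ⟨((-3), 5, 8), ((-7), 11, 16), ((-7), 9, 16)⟩ = true := by decide +kernel

theorem leafI0_84 : checkLeaf 9 nbI0 offI0 16 MI0
    ⟨((-2), 3, 4), ((-15), 21, 32), ((-7), 11, 16)⟩ = true := by decide +kernel

theorem leafI0_85 : checkLeaf 9 nbI0 offI0 16 MI0
    ⟨((-15), 21, 32), ((-7), 9, 16), ((-7), 11, 16)⟩ = true := by decide +kernel

theorem leafI0_86 : checkLeaf 9 nbI0 offI0 16 MI0
    ⟨((-1), 3, 4), ((-3), 7, 8), ((-3), 5, 8)⟩ = true := by decide +kernel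

theorem leafI0_87 : checkLeaf 9 nbI0 offI0 16 MI0
    ⟨((-3), 7, 8), ((-1), 2, 2), ((-3), 5, 8)⟩ = true := by decide +kernel

end Vale.Agent.P252.General.Cert5.Trees
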