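import Vale.Agent.P252.Cert.PDCoef
import Vale.Agent.P252.Rigidity.General.Cert5.Flat.I0

/-! Leaves 99..109 of block I0, generated. -/

namespace Vale.Agent.P252.General.Cert5.Trees

open Vale.Agent.P252.PolyPSD Vale.Agent.P252.PDCoef

theorem leafI0_99 : checkLeaf 9 nbI0 offI0 16 MI0
    ⟨((-3), 15, 16), ((-1), 7, 8), ((-1), 8, 8)⟩ = true := by decide +kernel

theorem leafI0_100 : checkLeaf 9 nbI0 offI0 16 MI0
    ⟨((-3), 7, 8), ((-5), 15, 16), ((-5), 16, 16)⟩ = true := by decide +kernel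

theorem leafI0_101 : checkLeaf 9 nbI0 offI0 16 MI0
    ⟨((-5), 15, 16), ((-1), 4, 4), ((-5), 16, 16)⟩ = true := by decide +kernel

theorem leafI0_102 : checkLeaf 9 nbI0 offI0 16 MI0
    ⟨((-5), 16, 16), ((-3), 8, 8), ((-3), 7, 8)⟩ = true := by decide +kernel

theorem leafI0_103 : checkLeaf 9 nbI0 offI0 16 MI0
    ⟨((-3), 8, 8), ((-1), 2, 2), ((-3), 7, 8)⟩ = true := by decide +kernel

theorem leafI0_104 : checkLeaf 9 nbI0 offI0 16 MI0
    ⟨((-1), 3, 4), ((-2), 7, 8), ((-5), 15, 16)⟩ = true := by decide +kernel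

theorem leafI0_105 : checkLeaf 9 nbI0 offI0 16 MI0
    ⟨((-2), 7, 8), ((-1), 4, 4), ((-5), 15, 16)⟩ = true := by decide +kernel

theorem leafI0_106 : checkLeaf 9 nbI0 offI0 16 MI0
    ⟨((-5), 15, 16), ((-3), 7, 8), ((-1), 3, 4)⟩ = true := by decide +kernel

theorem leafI0_107 : checkLeaf 9 nbI0 offI0 16 MI0
    ⟨((-3), 4, 4), ((-5), 6, 8), ((-2), 3, 4)⟩ = true := by decide +kernel

theorem leafI0_108 : checkLeaf 9 nbI0 offI0 16 MI0
    ⟨((-1), 1, 2), ((-4), 5, 8), ((-5), 6, 8)⟩ = true := by decide +kernel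

theorem leafI0_109 : checkLeaf 9 nbI0 offI0 16 MI0
    ⟨((-4), 5, 8), ((-8), 11, 16), ((-5), 6, 8)⟩ = true := by decide +kernel

end Vale.Agent.P252.General.Cert5.Trees
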