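import Vale.Agent.P252.Rigidity.General.Cert5.Trees.I0_0
import Vale.Agent.P252.Rigidity.General.Cert5.Trees.I0_1
import Vale.Agent.P252.Rigidity.General.Cert5.Trees.I0_2
import Vale.Agent.P252.Rigidity.General.Cert5.Trees.I0_3
import Vale.Agent.P252.Rigidity.General.Cert5.Trees.I0_4
import Vale.Agent.P252.Rigidity.General.Cert5.Trees.I0_5
import Vale.Agent.P252.Rigidity.General.Cert5.Trees.I0_6
import Vale.Agent.P252.Rigidity.General.Cert5.Trees.I0_7
import Vale.Agent.P252.Rigidity.General.Cert5.Trees.I0_8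
import Vale.Agent.P252.Rigidity.General.Cert5.Trees.I0_9
import Vale.Agent.P252.Rigidity.General.Cert5.Trees.I0_10
import Vale.Agent.P252.Rigidity.General.Cert5.Trees.I0_11
import Vale.Agent.P252.Rigidity.General.Cert5.Trees.I0_12
import Vale.Agent.P252.Rigidity.General.Cert5.Trees.I0_13
import Vale.Agent.P252.Rigidity.General.Cert5.Trees.I0_14
import Vale.Agent.P252.Rigidity.General.Cert5.Trees.I0_15
import Vale.Agent.P252.Rigidity.General.Cert5.Trees.I0_16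
import Vale.Agent.P252.Rigidity.General.Cert5.Trees.I0_17
import Vale.Agent.P252.Rigidity.General.Cert5.Trees.I0_18
import Vale.Agent.P252.Rigidity.General.Cert5.Trees.I0_19
import Vale.Agent.P252.Rigidity.General.Cert5.Trees.I0_20
import Vale.Agent.P252.Rigidity.General.Cert5.Trees.I0_21
import Vale.Agent.P252.Rigidity.General.Cert5.Trees.I0_22
import Vale.Agent.P252.Rigidity.General.Cert5.Trees.I0_23
import Vale.Agent.P252.Rigidity.General.Cert5.Trees.I0_24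
import Vale.Agent.P252.Rigidity.General.Cert5.Trees.I0_25
import Vale.Agent.P252.Rigidity.General.Cert5.Trees.Glue

/-! Block I0 assembled from its leaves, generated. -/

namespace Vale.Agent.P252.General.Cert5.Trees

open Vale.Agent.P252.PolyPSD Vale.Agent.P252.PDCoef

theorem okI0 : blockOK 9 nbI0 offI0 16 MI0 = true := by decide +kernel

theorem nodeI0_0 : PosOn (matEx 9 offI0 16 MI0)
    ⟨((-16384), 16384, 65536), ((-8192), 40960, 65536), ((-16384), 49152, 65536)⟩ :=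
  posOn_node 0 (A := ⟨((-16384), 16384, 65536), ((-12288), 28672, 65536), ((-16384), 49152, 65536)⟩) (B := ⟨((-12288), 28672, 65536), ((-8192), 40960, 65536), ((-16384), 49152, 65536)⟩) ⟨by decide +kernel, rfl, rfl⟩
    (h₁ := (posOn_smul 16384 4096 16384 rfl (posOn_of_leaf okI0 leafI0_0)))
    (h₂ := (posOn_smul 4096 8192 16384 rfl (posOn_of_leaf okI0 leafI0_1)))

theorem nodeI0_1 : PosOn (matEx 9 offI0 16 MI0)
    ⟨((-4096), 53248, 65536), ((-10240), 51200, 65536), ((-8192), 40960, 65536)⟩ :=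
  posOn_node 2 (A := ⟨((-8192), 40960, 65536), ((-6144), 47104, 65536), ((-10240), 51200, 65536)⟩) (B := ⟨((-6144), 47104, 65536), ((-4096), 53248, 65536), ((-10240), 51200, 65536)⟩) ⟨by decide +kernel, rfl, rfl⟩
    (h₁ := (posOn_smul 8192 2048 2048 rfl (posOn_of_leaf okI0 leafI0_2)))
    (h₂ := (posOn_smul 2048 4096 2048 rfl (posOn_of_leaf okI0 leafI0_3)))

theorem nodeI0_2 : PosOn (matEx 9 offI0 16 MI0)
    ⟨((-10240), 51200, 65536), ((-16384), 49152, 65536), ((-8192), 40960, 65536)⟩ :=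
  posOn_node 1 (A := ⟨((-16384), 49152, 65536), ((-12288), 45056, 65536), ((-10240), 51200, 65536)⟩) (B := ⟨((-12288), 45056, 65536), ((-8192), 40960, 65536), ((-10240), 51200, 65536)⟩) ⟨by decide +kernel, rfl, rfl⟩
    (h₁ := (posOn_smul 16384 4096 2048 rfl (posOn_of_leaf okI0 leafI0_4)))
    (h₂ := (posOn_smul 4096 8192 2048 rfl (posOn_of_leaf okI0 leafI0_5)))

theorem nodeI0_3 : PosOn (matEx 9 offI0 16 MI0)
    ⟨((-8192), 40960, 65536), ((-4096), 53248, 65536), ((-16384), 49152, 65536)⟩ :=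
  posOn_node 1 (A := ⟨((-4096), 53248, 65536), ((-10240), 51200, 65536), ((-8192), 40960, 65536)⟩) (B := ⟨((-10240), 51200, 65536), ((-16384), 49152, 65536), ((-8192), 40960, 65536)⟩) ⟨by decide +kernel, rfl, rfl⟩
    (h₁ := nodeI0_1)
    (h₂ := nodeI0_2)

theorem nodeI0_4 : PosOn (matEx 9 offI0 16 MI0)
    ⟨((-16384), 49152, 65536), ((-10240), 51200, 65536), ((-8192), 57344, 65536)⟩ :=
  posOn_node 2 (A := ⟨((-8192), 57344, 65536), ((-12288), 53248, 65536), ((-10240), 51200, 65536)⟩) (B := ⟨((-12288), 53248, 65536), ((-16384), 49152, 65536), ((-10240), 51200, 65536)⟩) ⟨by decide +kernel, rfl, rfl⟩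
    (h₁ := (posOn_smul 8192 4096 2048 rfl (posOn_of_leaf okI0 leafI0_7)))
    (h₂ := (posOn_smul 4096 16384 2048 rfl (posOn_of_leaf okI0 leafI0_8)))

theorem nodeI0_5 : PosOn (matEx 9 offI0 16 MI0)
    ⟨((-8192), 57344, 65536), ((-16384), 49152, 65536), ((-4096), 53248, 65536)⟩ :=
  posOn_node 1 (A := ⟨((-16384), 49152, 65536), ((-10240), 51200, 65536), ((-8192), 57344, 65536)⟩) (B := ⟨((-10240), 51200, 65536), ((-4096), 53248, 65536), ((-8192), 57344, 65536)⟩) ⟨by decide +kernel, rfl, rfl⟩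
    (h₁ := nodeI0_4)
    (h₂ := (posOn_smul 2048 4096 8192 rfl (posOn_of_leaf okI0 leafI0_9)))

theorem nodeI0_6 : PosOn (matEx 9 offI0 16 MI0)
    ⟨((-4096), 53248, 65536), (0, 65536, 65536), ((-16384), 49152, 65536)⟩ :=
  posOn_node 1 (A := ⟨(0, 65536, 65536), ((-8192), 57344, 65536), ((-4096), 53248, 65536)⟩) (B := ⟨((-8192), 57344, 65536), ((-16384), 49152, 65536), ((-4096), 53248, 65536)⟩) ⟨by decide +kernel, rfl, rfl⟩
    (h₁ := (posOn_smul 65536 8192 4096 rfl (posOn_of_leaf okI0 leafI0_6)))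
    (h₂ := nodeI0_5)

theorem nodeI0_7 : PosOn (matEx 9 offI0 16 MI0)
    ⟨((-8192), 40960, 65536), (0, 65536, 65536), ((-16384), 49152, 65536)⟩ :=
  posOn_node 0 (A := ⟨((-8192), 40960, 65536), ((-4096), 53248, 65536), ((-16384), 49152, 65536)⟩) (B := ⟨((-4096), 53248, 65536), (0, 65536, 65536), ((-16384), 49152, 65536)⟩) ⟨by decide +kernel, rfl, rfl⟩
    (h₁ := nodeI0_3)
    (h₂ := nodeI0_6)

theorem nodeI0_8 : PosOn (matEx 9 offI0 16 MI0)
    ⟨(0, 65536, 65536), ((-16384), 49152, 65536), ((-16384), 16384, 65536)⟩ :=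
  posOn_node 2 (A := ⟨((-16384), 16384, 65536), ((-8192), 40960, 65536), ((-16384), 49152, 65536)⟩) (B := ⟨((-8192), 40960, 65536), (0, 65536, 65536), ((-16384), 49152, 65536)⟩) ⟨by decide +kernel, rfl, rfl⟩
    (h₁ := nodeI0_0)
    (h₂ := nodeI0_7)

theorem nodeI0_9 : PosOn (matEx 9 offI0 16 MI0)
    ⟨((-32768), 32768, 65536), ((-24576), 24576, 65536), ((-24576), 40960, 65536)⟩ :=
  posOn_node 2 (A := ⟨((-24576), 40960, 65536), ((-28672), 36864, 65536), ((-24576), 24576, 65536)⟩) (B := ⟨((-28672), 36864, 65536), ((-32768), 32768, 65536), ((-24576), 24576, 65536)⟩) ⟨by decide +kernel, rfl, rfl⟩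
    (h₁ := (posOn_smul 8192 4096 8192 rfl (posOn_of_leaf okI0 leafI0_11)))
    (h₂ := (posOn_smul 4096 32768 8192 rfl (posOn_of_leaf okI0 leafI0_12)))

theorem nodeI0_10 : PosOn (matEx 9 offI0 16 MI0)
    ⟨((-24576), 40960, 65536), ((-32768), 32768, 65536), ((-16384), 16384, 65536)⟩ :=
  posOn_node 1 (A := ⟨((-32768), 32768, 65536), ((-24576), 24576, 65536), ((-24576), 40960, 65536)⟩) (B := ⟨((-24576), 24576, 65536), ((-16384), 16384, 65536), ((-24576), 40960, 65536)⟩) ⟨by decide +kernel, rfl, rfl⟩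
    (h₁ := nodeI0_9)
    (h₂ := (posOn_smul 8192 16384 8192 rfl (posOn_of_leaf okI0 leafI0_13)))

theorem nodeI0_11 : PosOn (matEx 9 offI0 16 MI0)
    ⟨((-16384), 49152, 65536), ((-32768), 32768, 65536), ((-16384), 16384, 65536)⟩ :=
  posOn_node 0 (A := ⟨((-16384), 49152, 65536), ((-24576), 40960, 65536), ((-16384), 16384, 65536)⟩) (B := ⟨((-24576), 40960, 65536), ((-32768), 32768, 65536), ((-16384), 16384, 65536)⟩) ⟨by decide +kernel, rfl, rfl⟩
    (h₁ := (posOn_smul 16384 8192 16384 rfl (posOn_of_leaf okI0 leafI0_10)))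
    (h₂ := nodeI0_10)

theorem nodeI0_12 : PosOn (matEx 9 offI0 16 MI0)
    ⟨((-32768), 32768, 65536), ((-16384), 16384, 65536), (0, 65536, 65536)⟩ :=
  posOn_node 2 (A := ⟨(0, 65536, 65536), ((-16384), 49152, 65536), ((-16384), 16384, 65536)⟩) (B := ⟨((-16384), 49152, 65536), ((-32768), 32768, 65536), ((-16384), 16384, 65536)⟩) ⟨by decide +kernel, rfl, rfl⟩
    (h₁ := nodeI0_8)
    (h₂ := nodeI0_11)

theorem nodeI0_13 : PosOn (matEx 9 offI0 16 MI0)
    ⟨((-8192), 40960, 65536), ((-6144), 30720, 65536), (0, 32768, 65536)⟩ :=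
  posOn_node 2 (A := ⟨(0, 32768, 65536), ((-4096), 36864, 65536), ((-6144), 30720, 65536)⟩) (B := ⟨((-4096), 36864, 65536), ((-8192), 40960, 65536), ((-6144), 30720, 65536)⟩) ⟨by decide +kernel, rfl, rfl⟩
    (h₁ := (posOn_smul 32768 4096 2048 rfl (posOn_of_leaf okI0 leafI0_14)))
    (h₂ := (posOn_smul 4096 8192 2048 rfl (posOn_of_leaf okI0 leafI0_15)))

theorem nodeI0_14 : PosOn (matEx 9 offI0 16 MI0)
    ⟨((-6144), 30720, 65536), ((-4096), 20480, 65536), (0, 32768, 65536)⟩ :=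
  posOn_node 0 (A := ⟨((-6144), 30720, 65536), ((-5120), 25600, 65536), (0, 32768, 65536)⟩) (B := ⟨((-5120), 25600, 65536), ((-4096), 20480, 65536), (0, 32768, 65536)⟩) ⟨by decide +kernel, rfl, rfl⟩
    (h₁ := (posOn_smul 2048 1024 32768 rfl (posOn_of_leaf okI0 leafI0_16)))
    (h₂ := (posOn_smul 1024 4096 32768 rfl (posOn_of_leaf okI0 leafI0_17)))

theorem nodeI0_15 : PosOn (matEx 9 offI0 16 MI0)
    ⟨((-8192), 40960, 65536), ((-4096), 20480, 65536), (0, 32768, 65536)⟩ :=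
  posOn_node 0 (A := ⟨((-8192), 40960, 65536), ((-6144), 30720, 65536), (0, 32768, 65536)⟩) (B := ⟨((-6144), 30720, 65536), ((-4096), 20480, 65536), (0, 32768, 65536)⟩) ⟨by decide +kernel, rfl, rfl⟩
    (h₁ := nodeI0_13)
    (h₂ := nodeI0_14)

theorem nodeI0_16 : PosOn (matEx 9 offI0 16 MI0)
    ⟨((-4096), 20480, 65536), ((-2048), 10240, 65536), (0, 32768, 65536)⟩ :=
  posOn_node 1 (A := ⟨((-2048), 10240, 65536), ((-1024), 21504, 65536), ((-4096), 20480, 65536)⟩) (B := ⟨((-1024), 21504, 65536), (0, 32768, 65536), ((-4096), 20480, 65536)⟩) ⟨by decide +kernel, rfl, rfl⟩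
    (h₁ := (posOn_smul 2048 1024 4096 rfl (posOn_of_leaf okI0 leafI0_18)))
    (h₂ := (posOn_smul 1024 32768 4096 rfl (posOn_of_leaf okI0 leafI0_19)))

theorem nodeI0_17 : PosOn (matEx 9 offI0 16 MI0)
    ⟨((-2048), 10240, 65536), (0, 0, 65536), (0, 32768, 65536)⟩ :=
  posOn_node 1 (A := ⟨(0, 0, 65536), (0, 16384, 65536), ((-2048), 10240, 65536)⟩) (B := ⟨(0, 16384, 65536), (0, 32768, 65536), ((-2048), 10240, 65536)⟩) ⟨by decide +kernel, rfl, rfl⟩
    (h₁ := (posOn_smul 65536 16384 2048 rfl (posOn_of_leaf okI0 leafI0_20)))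
    (h₂ := (posOn_smul 16384 32768 2048 rfl (posOn_of_leaf okI0 leafI0_21)))

theorem nodeI0_18 : PosOn (matEx 9 offI0 16 MI0)
    ⟨((-4096), 20480, 65536), (0, 0, 65536), (0, 32768, 65536)⟩ :=
  posOn_node 0 (A := ⟨((-4096), 20480, 65536), ((-2048), 10240, 65536), (0, 32768, 65536)⟩) (B := ⟨((-2048), 10240, 65536), (0, 0, 65536), (0, 32768, 65536)⟩) ⟨by decide +kernel, rfl, rfl⟩
    (h₁ := nodeI0_16)
    (h₂ := nodeI0_17)

theorem nodeI0_19 : PosOn (matEx 9 offI0 16 MI0)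
    ⟨(0, 0, 65536), (0, 32768, 65536), ((-8192), 40960, 65536)⟩ :=
  posOn_node 2 (A := ⟨((-8192), 40960, 65536), ((-4096), 20480, 65536), (0, 32768, 65536)⟩) (B := ⟨((-4096), 20480, 65536), (0, 0, 65536), (0, 32768, 65536)⟩) ⟨by decide +kernel, rfl, rfl⟩
    (h₁ := nodeI0_15)
    (h₂ := nodeI0_18)

theorem nodeI0_20 : PosOn (matEx 9 offI0 16 MI0)
    ⟨((-8192), 40960, 65536), ((-4096), 36864, 65536), (0, 49152, 65536)⟩ :=
  posOn_node 2 (A := ⟨(0, 49152, 65536), ((-4096), 45056, 65536), ((-4096), 36864, 65536)⟩) (B := ⟨((-4096), 45056, 65536), ((-8192), 40960, 65536), ((-4096), 36864, 65536)⟩) ⟨by decide +kernel, rfl, rfl⟩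
    (h₁ := (posOn_smul 16384 4096 4096 rfl (posOn_of_leaf okI0 leafI0_22)))
    (h₂ := (posOn_smul 4096 8192 4096 rfl (posOn_of_leaf okI0 leafI0_23)))

theorem nodeI0_21 : PosOn (matEx 9 offI0 16 MI0)
    ⟨(0, 32768, 65536), (0, 49152, 65536), ((-8192), 40960, 65536)⟩ :=
  posOn_node 2 (A := ⟨((-8192), 40960, 65536), ((-4096), 36864, 65536), (0, 49152, 65536)⟩) (B := ⟨((-4096), 36864, 65536), (0, 32768, 65536), (0, 49152, 65536)⟩) ⟨by decide +kernel, rfl, rfl⟩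
    (h₁ := nodeI0_20)
    (h₂ := (posOn_smul 4096 32768 16384 rfl (posOn_of_leaf okI0 leafI0_24)))

theorem nodeI0_22 : PosOn (matEx 9 offI0 16 MI0)
    ⟨((-4096), 53248, 65536), ((-8192), 40960, 65536), (0, 49152, 65536)⟩ :=
  posOn_node 1 (A := ⟨((-8192), 40960, 65536), ((-4096), 45056, 65536), ((-4096), 53248, 65536)⟩) (B := ⟨((-4096), 45056, 65536), (0, 49152, 65536), ((-4096), 53248, 65536)⟩) ⟨by decide +kernel, rfl, rfl⟩
    (h₁ := (posOn_smul 8192 4096 4096 rfl (posOn_of_leaf okI0 leafI0_26)))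
    (h₂ := (posOn_smul 4096 16384 4096 rfl (posOn_of_leaf okI0 leafI0_27)))

theorem nodeI0_23 : PosOn (matEx 9 offI0 16 MI0)
    ⟨(0, 49152, 65536), (0, 65536, 65536), ((-8192), 40960, 65536)⟩ :=
  posOn_node 1 (A := ⟨(0, 65536, 65536), ((-4096), 53248, 65536), (0, 49152, 65536)⟩) (B := ⟨((-4096), 53248, 65536), ((-8192), 40960, 65536), (0, 49152, 65536)⟩) ⟨by decide +kernel, rfl, rfl⟩
    (h₁ := (posOn_smul 65536 4096 16384 rfl (posOn_of_leaf okI0 leafI0_25)))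
    (h₂ := nodeI0_22)

theorem nodeI0_24 : PosOn (matEx 9 offI0 16 MI0)
    ⟨(0, 32768, 65536), (0, 65536, 65536), ((-8192), 40960, 65536)⟩ :=
  posOn_node 0 (A := ⟨(0, 32768, 65536), (0, 49152, 65536), ((-8192), 40960, 65536)⟩) (B := ⟨(0, 49152, 65536), (0, 65536, 65536), ((-8192), 40960, 65536)⟩) ⟨by decide +kernel, rfl, rfl⟩
    (h₁ := nodeI0_21)
    (h₂ := nodeI0_23)

theorem nodeI0_25 : PosOn (matEx 9 offI0 16 MI0)
    ⟨(0, 65536, 65536), ((-8192), 40960, 65536), (0, 0, 65536)⟩ :=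
  posOn_node 2 (A := ⟨(0, 0, 65536), (0, 32768, 65536), ((-8192), 40960, 65536)⟩) (B := ⟨(0, 32768, 65536), (0, 65536, 65536), ((-8192), 40960, 65536)⟩) ⟨by decide +kernel, rfl, rfl⟩
    (h₁ := nodeI0_19)
    (h₂ := nodeI0_24)

theorem nodeI0_26 : PosOn (matEx 9 offI0 16 MI0)
    ⟨((-8192), 8192, 65536), (0, 0, 65536), ((-4096), 20480, 65536)⟩ :=
  posOn_node 1 (A := ⟨(0, 0, 65536), ((-2048), 10240, 65536), ((-8192), 8192, 65536)⟩) (B := ⟨((-2048), 10240, 65536), ((-4096), 20480, 65536), ((-8192), 8192, 65536)⟩) ⟨by decide +kernel, rfl, rfl⟩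
    (h₁ := (posOn_smul 65536 2048 8192 rfl (posOn_of_leaf okI0 leafI0_29)))
    (h₂ := (posOn_smul 2048 4096 8192 rfl (posOn_of_leaf okI0 leafI0_30)))

theorem nodeI0_27 : PosOn (matEx 9 offI0 16 MI0)
    ⟨(0, 0, 65536), ((-4096), 20480, 65536), ((-16384), 16384, 65536)⟩ :=
  posOn_node 2 (A := ⟨((-16384), 16384, 65536), ((-8192), 8192, 65536), ((-4096), 20480, 65536)⟩) (B := ⟨((-8192), 8192, 65536), (0, 0, 65536), ((-4096), 20480, 65536)⟩) ⟨by decide +kernel, rfl, rfl⟩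
    (h₁ := (posOn_smul 16384 8192 4096 rfl (posOn_of_leaf okI0 leafI0_28)))
    (h₂ := nodeI0_26)

theorem nodeI0_28 : PosOn (matEx 9 offI0 16 MI0)
    ⟨((-10240), 18432, 65536), ((-4096), 20480, 65536), ((-6144), 30720, 65536)⟩ :=
  posOn_node 2 (A := ⟨((-6144), 30720, 65536), ((-8192), 24576, 65536), ((-4096), 20480, 65536)⟩) (B := ⟨((-8192), 24576, 65536), ((-10240), 18432, 65536), ((-4096), 20480, 65536)⟩) ⟨by decide +kernel, rfl, rfl⟩
    (h₁ := (posOn_smul 2048 8192 4096 rfl (posOn_of_leaf okI0 leafI0_32)))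
    (h₂ := (posOn_smul 8192 2048 4096 rfl (posOn_of_leaf okI0 leafI0_33)))

theorem nodeI0_29 : PosOn (matEx 9 offI0 16 MI0)
    ⟨((-4096), 20480, 65536), ((-6144), 30720, 65536), ((-16384), 16384, 65536)⟩ :=
  posOn_node 2 (A := ⟨((-16384), 16384, 65536), ((-10240), 18432, 65536), ((-6144), 30720, 65536)⟩) (B := ⟨((-10240), 18432, 65536), ((-4096), 20480, 65536), ((-6144), 30720, 65536)⟩) ⟨by decide +kernel, rfl, rfl⟩
    (h₁ := (posOn_smul 16384 2048 2048 rfl (posOn_of_leaf okI0 leafI0_31)))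
    (h₂ := nodeI0_28)

theorem nodeI0_30 : PosOn (matEx 9 offI0 16 MI0)
    ⟨((-6144), 30720, 65536), ((-8192), 40960, 65536), ((-16384), 16384, 65536)⟩ :=
  posOn_node 1 (A := ⟨((-8192), 40960, 65536), ((-12288), 28672, 65536), ((-6144), 30720, 65536)⟩) (B := ⟨((-12288), 28672, 65536), ((-16384), 16384, 65536), ((-6144), 30720, 65536)⟩) ⟨by decide +kernel, rfl, rfl⟩
    (h₁ := (posOn_smul 8192 4096 2048 rfl (posOn_of_leaf okI0 leafI0_34)))
    (h₂ := (posOn_smul 4096 16384 2048 rfl (posOn_of_leaf okI0 leafI0_35)))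

theorem nodeI0_31 : PosOn (matEx 9 offI0 16 MI0)
    ⟨((-4096), 20480, 65536), ((-8192), 40960, 65536), ((-16384), 16384, 65536)⟩ :=
  posOn_node 0 (A := ⟨((-4096), 20480, 65536), ((-6144), 30720, 65536), ((-16384), 16384, 65536)⟩) (B := ⟨((-6144), 30720, 65536), ((-8192), 40960, 65536), ((-16384), 16384, 65536)⟩) ⟨by decide +kernel, rfl, rfl⟩
    (h₁ := nodeI0_29)
    (h₂ := nodeI0_30)

theorem nodeI0_32 : PosOn (matEx 9 offI0 16 MI0)
    ⟨((-8192), 40960, 65536), ((-16384), 16384, 65536), (0, 0, 65536)⟩ :=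
  posOn_node 2 (A := ⟨(0, 0, 65536), ((-4096), 20480, 65536), ((-16384), 16384, 65536)⟩) (B := ⟨((-4096), 20480, 65536), ((-8192), 40960, 65536), ((-16384), 16384, 65536)⟩) ⟨by decide +kernel, rfl, rfl⟩
    (h₁ := nodeI0_27)
    (h₂ := nodeI0_31)

theorem nodeI0_33 : PosOn (matEx 9 offI0 16 MI0)
    ⟨((-16384), 16384, 65536), (0, 0, 65536), (0, 65536, 65536)⟩ :=
  posOn_node 2 (A := ⟨(0, 65536, 65536), ((-8192), 40960, 65536), (0, 0, 65536)⟩) (B := ⟨((-8192), 40960, 65536), ((-16384), 16384, 65536), (0, 0, 65536)⟩) ⟨by decide +kernel, rfl, rfl⟩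
    (h₁ := nodeI0_25)
    (h₂ := nodeI0_32)

theorem nodeI0_34 : PosOn (matEx 9 offI0 16 MI0)
    ⟨(0, 65536, 65536), ((-32768), 32768, 65536), (0, 0, 65536)⟩ :=
  posOn_node 1 (A := ⟨((-32768), 32768, 65536), ((-16384), 16384, 65536), (0, 65536, 65536)⟩) (B := ⟨((-16384), 16384, 65536), (0, 0, 65536), (0, 65536, 65536)⟩) ⟨by decide +kernel, rfl, rfl⟩
    (h₁ := nodeI0_12)
    (h₂ := nodeI0_33)

theorem nodeI0_35 : PosOn (matEx 9 offI0 16 MI0)
    ⟨((-32768), 32768, 65536), ((-49152), 16384, 65536), ((-32768), 0, 65536)⟩ :=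
  posOn_node 0 (A := ⟨((-32768), 32768, 65536), ((-40960), 24576, 65536), ((-32768), 0, 65536)⟩) (B := ⟨((-40960), 24576, 65536), ((-49152), 16384, 65536), ((-32768), 0, 65536)⟩) ⟨by decide +kernel, rfl, rfl⟩
    (h₁ := (posOn_smul 32768 8192 32768 rfl (posOn_of_leaf okI0 leafI0_36)))
    (h₂ := (posOn_smul 8192 16384 32768 rfl (posOn_of_leaf okI0 leafI0_37)))

theorem nodeI0_36 : PosOn (matEx 9 offI0 16 MI0)
    ⟨((-65536), 0, 65536), ((-32768), 0, 65536), ((-32768), 32768, 65536)⟩ :=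
  posOn_node 2 (A := ⟨((-32768), 32768, 65536), ((-49152), 16384, 65536), ((-32768), 0, 65536)⟩) (B := ⟨((-49152), 16384, 65536), ((-65536), 0, 65536), ((-32768), 0, 65536)⟩) ⟨by decide +kernel, rfl, rfl⟩
    (h₁ := nodeI0_35)
    (h₂ := (posOn_smul 16384 65536 32768 rfl (posOn_of_leaf okI0 leafI0_38)))

theorem nodeI0_37 : PosOn (matEx 9 offI0 16 MI0)
    ⟨((-16384), 0, 65536), ((-17408), 5120, 65536), ((-20480), 4096, 65536)⟩ :=
  posOn_node 2 (A := ⟨((-20480), 4096, 65536), ((-18432), 2048, 65536), ((-17408), 5120, 65536)⟩) (B := ⟨((-18432), 2048, 65536), ((-16384), 0, 65536), ((-17408), 5120, 65536)⟩) ⟨by decide +kernel, rfl, rfl⟩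
    (h₁ := (posOn_smul 4096 2048 1024 rfl (posOn_of_leaf okI0 leafI0_41)))
    (h₂ := (posOn_smul 2048 16384 1024 rfl (posOn_of_leaf okI0 leafI0_42)))

theorem nodeI0_38 : PosOn (matEx 9 offI0 16 MI0)
    ⟨((-18432), 10240, 65536), ((-20480), 4096, 65536), ((-16384), 0, 65536)⟩ :=
  posOn_node 2 (A := ⟨((-16384), 0, 65536), ((-17408), 5120, 65536), ((-20480), 4096, 65536)⟩) (B := ⟨((-17408), 5120, 65536), ((-18432), 10240, 65536), ((-20480), 4096, 65536)⟩) ⟨by decide +kernel, rfl, rfl⟩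
    (h₁ := nodeI0_37)
    (h₂ := (posOn_smul 1024 2048 4096 rfl (posOn_of_leaf okI0 leafI0_43)))

theorem nodeI0_39 : PosOn (matEx 9 offI0 16 MI0)
    ⟨((-20480), 4096, 65536), ((-16384), 0, 65536), ((-16384), 16384, 65536)⟩ :=
  posOn_node 2 (A := ⟨((-16384), 16384, 65536), ((-18432), 10240, 65536), ((-16384), 0, 65536)⟩) (B := ⟨((-18432), 10240, 65536), ((-20480), 4096, 65536), ((-16384), 0, 65536)⟩) ⟨by decide +kernel, rfl, rfl⟩
    (h₁ := (posOn_smul 16384 2048 16384 rfl (posOn_of_leaf okI0 leafI0_40)))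
    (h₂ := nodeI0_38)

theorem nodeI0_40 : PosOn (matEx 9 offI0 16 MI0)
    ⟨((-16384), 16384, 65536), ((-24576), 8192, 65536), ((-16384), 0, 65536)⟩ :=
  posOn_node 1 (A := ⟨((-24576), 8192, 65536), ((-20480), 4096, 65536), ((-16384), 16384, 65536)⟩) (B := ⟨((-20480), 4096, 65536), ((-16384), 0, 65536), ((-16384), 16384, 65536)⟩) ⟨by decide +kernel, rfl, rfl⟩
    (h₁ := (posOn_smul 8192 4096 16384 rfl (posOn_of_leaf okI0 leafI0_39)))
    (h₂ := nodeI0_39)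

theorem nodeI0_41 : PosOn (matEx 9 offI0 16 MI0)
    ⟨((-18944), 1024, 65536), ((-19456), 0, 65536), ((-18432), 0, 65536)⟩ :=
  posOn_node 1 (A := ⟨((-19456), 0, 65536), ((-18944), 0, 65536), ((-18944), 1024, 65536)⟩) (B := ⟨((-18944), 0, 65536), ((-18432), 0, 65536), ((-18944), 1024, 65536)⟩) ⟨by decide +kernel, rfl, rfl⟩
    (h₁ := (posOn_smul 1024 512 512 rfl (posOn_of_leaf okI0 leafI0_48)))
    (h₂ := (posOn_smul 512 2048 512 rfl (posOn_of_leaf okI0 leafI0_49)))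

theorem nodeI0_42 : PosOn (matEx 9 offI0 16 MI0)
    ⟨((-19456), 0, 65536), ((-18432), 0, 65536), ((-18432), 2048, 65536)⟩ :=
  posOn_node 2 (A := ⟨((-18432), 2048, 65536), ((-18944), 1024, 65536), ((-18432), 0, 65536)⟩) (B := ⟨((-18944), 1024, 65536), ((-19456), 0, 65536), ((-18432), 0, 65536)⟩) ⟨by decide +kernel, rfl, rfl⟩
    (h₁ := (posOn_smul 2048 512 2048 rfl (posOn_of_leaf okI0 leafI0_47)))
    (h₂ := nodeI0_41)

theorem nodeI0_43 : PosOn (matEx 9 offI0 16 MI0)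
    ⟨((-20480), 0, 65536), ((-18432), 0, 65536), ((-18432), 2048, 65536)⟩ :=
  posOn_node 0 (A := ⟨((-20480), 0, 65536), ((-19456), 0, 65536), ((-18432), 2048, 65536)⟩) (B := ⟨((-19456), 0, 65536), ((-18432), 0, 65536), ((-18432), 2048, 65536)⟩) ⟨by decide +kernel, rfl, rfl⟩
    (h₁ := (posOn_smul 4096 1024 2048 rfl (posOn_of_leaf okI0 leafI0_46)))
    (h₂ := nodeI0_42)

theorem nodeI0_44 : PosOn (matEx 9 offI0 16 MI0)
    ⟨((-16384), 0, 65536), ((-18432), 2048, 65536), ((-20480), 0, 65536)⟩ :=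
  posOn_node 2 (A := ⟨((-20480), 0, 65536), ((-18432), 0, 65536), ((-18432), 2048, 65536)⟩) (B := ⟨((-18432), 0, 65536), ((-16384), 0, 65536), ((-18432), 2048, 65536)⟩) ⟨by decide +kernel, rfl, rfl⟩
    (h₁ := nodeI0_43)
    (h₂ := (posOn_smul 2048 16384 2048 rfl (posOn_of_leaf okI0 leafI0_50)))

theorem nodeI0_45 : PosOn (matEx 9 offI0 16 MI0)
    ⟨((-20480), 0, 65536), ((-16384), 0, 65536), ((-20480), 4096, 65536)⟩ :=
  posOn_node 1 (A := ⟨((-16384), 0, 65536), ((-18432), 2048, 65536), ((-20480), 0, 65536)⟩) (B := ⟨((-18432), 2048, 65536), ((-20480), 4096, 65536), ((-20480), 0, 65536)⟩) ⟨by decide +kernel, rfl, rfl⟩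
    (h₁ := nodeI0_44)
    (h₂ := (posOn_smul 2048 4096 4096 rfl (posOn_of_leaf okI0 leafI0_51)))

theorem nodeI0_46 : PosOn (matEx 9 offI0 16 MI0)
    ⟨((-16384), 0, 65536), ((-20480), 4096, 65536), ((-24576), 0, 65536)⟩ :=
  posOn_node 2 (A := ⟨((-24576), 0, 65536), ((-20480), 0, 65536), ((-20480), 4096, 65536)⟩) (B := ⟨((-20480), 0, 65536), ((-16384), 0, 65536), ((-20480), 4096, 65536)⟩) ⟨by decide +kernel, rfl, rfl⟩
    (h₁ := (posOn_smul 8192 4096 4096 rfl (posOn_of_leaf okI0 leafI0_45)))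
    (h₂ := nodeI0_45)

theorem nodeI0_47 : PosOn (matEx 9 offI0 16 MI0)
    ⟨((-24576), 0, 65536), ((-16384), 0, 65536), ((-24576), 8192, 65536)⟩ :=
  posOn_node 1 (A := ⟨((-16384), 0, 65536), ((-20480), 4096, 65536), ((-24576), 0, 65536)⟩) (B := ⟨((-20480), 4096, 65536), ((-24576), 8192, 65536), ((-24576), 0, 65536)⟩) ⟨by decide +kernel, rfl, rfl⟩
    (h₁ := nodeI0_46)
    (h₂ := (posOn_smul 4096 8192 8192 rfl (posOn_of_leaf okI0 leafI0_52)))

theorem nodeI0_48 : PosOn (matEx 9 offI0 16 MI0)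
    ⟨((-24576), 8192, 65536), ((-32768), 0, 65536), ((-16384), 0, 65536)⟩ :=
  posOn_node 1 (A := ⟨((-32768), 0, 65536), ((-24576), 0, 65536), ((-24576), 8192, 65536)⟩) (B := ⟨((-24576), 0, 65536), ((-16384), 0, 65536), ((-24576), 8192, 65536)⟩) ⟨by decide +kernel, rfl, rfl⟩
    (h₁ := (posOn_smul 32768 8192 8192 rfl (posOn_of_leaf okI0 leafI0_44)))
    (h₂ := nodeI0_47)

theorem nodeI0_49 : PosOn (matEx 9 offI0 16 MI0)
    ⟨((-32768), 0, 65536), ((-16384), 0, 65536), ((-16384), 16384, 65536)⟩ :=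
  posOn_node 2 (A := ⟨((-16384), 16384, 65536), ((-24576), 8192, 65536), ((-16384), 0, 65536)⟩) (B := ⟨((-24576), 8192, 65536), ((-32768), 0, 65536), ((-16384), 0, 65536)⟩) ⟨by decide +kernel, rfl, rfl⟩
    (h₁ := nodeI0_40)
    (h₂ := nodeI0_48)

theorem nodeI0_50 : PosOn (matEx 9 offI0 16 MI0)
    ⟨(0, 0, 65536), ((-16384), 16384, 65536), ((-32768), 0, 65536)⟩ :=
  posOn_node 2 (A := ⟨((-32768), 0, 65536), ((-16384), 0, 65536), ((-16384), 16384, 65536)⟩) (B := ⟨((-16384), 0, 65536), (0, 0, 65536), ((-16384), 16384, 65536)⟩) ⟨by decide +kernel, rfl, rfl⟩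
    (h₁ := nodeI0_49)
    (h₂ := (posOn_smul 16384 65536 16384 rfl (posOn_of_leaf okI0 leafI0_53)))

theorem nodeI0_51 : PosOn (matEx 9 offI0 16 MI0)
    ⟨((-16384), 16384, 65536), ((-32768), 32768, 65536), ((-32768), 0, 65536)⟩ :=
  posOn_node 2 (A := ⟨((-32768), 0, 65536), ((-24576), 8192, 65536), ((-32768), 32768, 65536)⟩) (B := ⟨((-24576), 8192, 65536), ((-16384), 16384, 65536), ((-32768), 32768, 65536)⟩) ⟨by decide +kernel, rfl, rfl⟩
    (h₁ := (posOn_smul 32768 8192 32768 rfl (posOn_of_leaf okI0 leafI0_54)))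
    (h₂ := (posOn_smul 8192 16384 32768 rfl (posOn_of_leaf okI0 leafI0_55)))

theorem nodeI0_52 : PosOn (matEx 9 offI0 16 MI0)
    ⟨((-32768), 0, 65536), (0, 0, 65536), ((-32768), 32768, 65536)⟩ :=
  posOn_node 1 (A := ⟨(0, 0, 65536), ((-16384), 16384, 65536), ((-32768), 0, 65536)⟩) (B := ⟨((-16384), 16384, 65536), ((-32768), 32768, 65536), ((-32768), 0, 65536)⟩) ⟨by decide +kernel, rfl, rfl⟩
    (h₁ := nodeI0_50)
    (h₂ := nodeI0_51)

theorem nodeI0_53 : PosOn (matEx 9 offI0 16 MI0)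
    ⟨((-32768), 32768, 65536), ((-65536), 0, 65536), (0, 0, 65536)⟩ :=
  posOn_node 1 (A := ⟨((-65536), 0, 65536), ((-32768), 0, 65536), ((-32768), 32768, 65536)⟩) (B := ⟨((-32768), 0, 65536), (0, 0, 65536), ((-32768), 32768, 65536)⟩) ⟨by decide +kernel, rfl, rfl⟩
    (h₁ := nodeI0_36)
    (h₂ := nodeI0_52)

theorem nodeI0_54 : PosOn (matEx 9 offI0 16 MI0)
    ⟨((-65536), 0, 65536), (0, 0, 65536), (0, 65536, 65536)⟩ :=
  posOn_node 2 (A := ⟨(0, 65536, 65536), ((-32768), 32768, 65536), (0, 0, 65536)⟩) (B := ⟨((-32768), 32768, 65536), ((-65536), 0, 65536), (0, 0, 65536)⟩) ⟨by decide +kernel, rfl, rfl⟩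
    (h₁ := nodeI0_34)
    (h₂ := nodeI0_53)

theorem nodeI0_55 : PosOn (matEx 9 offI0 16 MI0)
    ⟨((-65536), 32768, 65536), ((-57344), 24576, 65536), ((-53248), 28672, 65536)⟩ :=
  posOn_node 2 (A := ⟨((-53248), 28672, 65536), ((-59392), 30720, 65536), ((-57344), 24576, 65536)⟩) (B := ⟨((-59392), 30720, 65536), ((-65536), 32768, 65536), ((-57344), 24576, 65536)⟩) ⟨by decide +kernel, rfl, rfl⟩
    (h₁ := (posOn_smul 4096 2048 8192 rfl (posOn_of_leaf okI0 leafI0_56)))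
    (h₂ := (posOn_smul 2048 32768 8192 rfl (posOn_of_leaf okI0 leafI0_57)))

theorem nodeI0_56 : PosOn (matEx 9 offI0 16 MI0)
    ⟨((-49152), 16384, 65536), ((-53248), 28672, 65536), ((-65536), 32768, 65536)⟩ :=
  posOn_node 2 (A := ⟨((-65536), 32768, 65536), ((-57344), 24576, 65536), ((-53248), 28672, 65536)⟩) (B := ⟨((-57344), 24576, 65536), ((-49152), 16384, 65536), ((-53248), 28672, 65536)⟩) ⟨by decide +kernel, rfl, rfl⟩
    (h₁ := nodeI0_55)
    (h₂ := (posOn_smul 8192 16384 4096 rfl (posOn_of_leaf okI0 leafI0_58)))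

theorem nodeI0_57 : PosOn (matEx 9 offI0 16 MI0)
    ⟨((-49152), 16384, 65536), ((-57344), 40960, 65536), ((-65536), 32768, 65536)⟩ :=
  posOn_node 0 (A := ⟨((-49152), 16384, 65536), ((-53248), 28672, 65536), ((-65536), 32768, 65536)⟩) (B := ⟨((-53248), 28672, 65536), ((-57344), 40960, 65536), ((-65536), 32768, 65536)⟩) ⟨by decide +kernel, rfl, rfl⟩
    (h₁ := nodeI0_56)
    (h₂ := (posOn_smul 4096 8192 32768 rfl (posOn_of_leaf okI0 leafI0_59)))

theorem nodeI0_58 : PosOn (matEx 9 offI0 16 MI0)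
    ⟨((-65536), 65536, 65536), ((-65536), 32768, 65536), ((-49152), 16384, 65536)⟩ :=
  posOn_node 2 (A := ⟨((-49152), 16384, 65536), ((-57344), 40960, 65536), ((-65536), 32768, 65536)⟩) (B := ⟨((-57344), 40960, 65536), ((-65536), 65536, 65536), ((-65536), 32768, 65536)⟩) ⟨by decide +kernel, rfl, rfl⟩
    (h₁ := nodeI0_57)
    (h₂ := (posOn_smul 8192 65536 32768 rfl (posOn_of_leaf okI0 leafI0_60)))

theorem nodeI0_59 : PosOn (matEx 9 offI0 16 MI0)
    ⟨((-65536), 24576, 65536), ((-57344), 20480, 65536), ((-65536), 32768, 65536)⟩ :=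
  posOn_node 1 (A := ⟨((-57344), 20480, 65536), ((-61440), 26624, 65536), ((-65536), 24576, 65536)⟩) (B := ⟨((-61440), 26624, 65536), ((-65536), 32768, 65536), ((-65536), 24576, 65536)⟩) ⟨by decide +kernel, rfl, rfl⟩
    (h₁ := (posOn_smul 4096 2048 8192 rfl (posOn_of_leaf okI0 leafI0_61)))
    (h₂ := (posOn_smul 2048 32768 8192 rfl (posOn_of_leaf okI0 leafI0_62)))

theorem nodeI0_60 : PosOn (matEx 9 offI0 16 MI0)
    ⟨((-57344), 24576, 65536), ((-65536), 32768, 65536), ((-57344), 20480, 65536)⟩ :=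
  posOn_node 1 (A := ⟨((-65536), 32768, 65536), ((-61440), 26624, 65536), ((-57344), 24576, 65536)⟩) (B := ⟨((-61440), 26624, 65536), ((-57344), 20480, 65536), ((-57344), 24576, 65536)⟩) ⟨by decide +kernel, rfl, rfl⟩
    (h₁ := (posOn_smul 32768 2048 8192 rfl (posOn_of_leaf okI0 leafI0_64)))
    (h₂ := (posOn_smul 2048 4096 8192 rfl (posOn_of_leaf okI0 leafI0_65)))

theorem nodeI0_61 : PosOn (matEx 9 offI0 16 MI0)
    ⟨((-57344), 20480, 65536), ((-49152), 16384, 65536), ((-65536), 32768, 65536)⟩ :=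
  posOn_node 1 (A := ⟨((-49152), 16384, 65536), ((-57344), 24576, 65536), ((-57344), 20480, 65536)⟩) (B := ⟨((-57344), 24576, 65536), ((-65536), 32768, 65536), ((-57344), 20480, 65536)⟩) ⟨by decide +kernel, rfl, rfl⟩
    (h₁ := (posOn_smul 16384 8192 4096 rfl (posOn_of_leaf okI0 leafI0_63)))
    (h₂ := nodeI0_60)

theorem nodeI0_62 : PosOn (matEx 9 offI0 16 MI0)
    ⟨((-65536), 32768, 65536), ((-65536), 24576, 65536), ((-49152), 16384, 65536)⟩ :=
  posOn_node 1 (A := ⟨((-65536), 24576, 65536), ((-57344), 20480, 65536), ((-65536), 32768, 65536)⟩) (B := ⟨((-57344), 20480, 65536), ((-49152), 16384, 65536), ((-65536), 32768, 65536)⟩) ⟨by decide +kernel, rfl, rfl⟩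
    (h₁ := nodeI0_59)
    (h₂ := nodeI0_61)

theorem nodeI0_63 : PosOn (matEx 9 offI0 16 MI0)
    ⟨((-65536), 24576, 65536), ((-65536), 16384, 65536), ((-49152), 16384, 65536)⟩ :=
  posOn_node 2 (A := ⟨((-49152), 16384, 65536), ((-57344), 20480, 65536), ((-65536), 16384, 65536)⟩) (B := ⟨((-57344), 20480, 65536), ((-65536), 24576, 65536), ((-65536), 16384, 65536)⟩) ⟨by decide +kernel, rfl, rfl⟩
    (h₁ := (posOn_smul 16384 4096 16384 rfl (posOn_of_leaf okI0 leafI0_66)))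
    (h₂ := (posOn_smul 4096 8192 16384 rfl (posOn_of_leaf okI0 leafI0_67)))

theorem nodeI0_64 : PosOn (matEx 9 offI0 16 MI0)
    ⟨((-65536), 32768, 65536), ((-65536), 16384, 65536), ((-49152), 16384, 65536)⟩ :=
  posOn_node 0 (A := ⟨((-65536), 32768, 65536), ((-65536), 24576, 65536), ((-49152), 16384, 65536)⟩) (B := ⟨((-65536), 24576, 65536), ((-65536), 16384, 65536), ((-49152), 16384, 65536)⟩) ⟨by decide +kernel, rfl, rfl⟩
    (h₁ := nodeI0_62)
    (h₂ := nodeI0_63)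

theorem nodeI0_65 : PosOn (matEx 9 offI0 16 MI0)
    ⟨((-65536), 32768, 65536), ((-65536), 0, 65536), ((-49152), 16384, 65536)⟩ :=
  posOn_node 0 (A := ⟨((-65536), 32768, 65536), ((-65536), 16384, 65536), ((-49152), 16384, 65536)⟩) (B := ⟨((-65536), 16384, 65536), ((-65536), 0, 65536), ((-49152), 16384, 65536)⟩) ⟨by decide +kernel, rfl, rfl⟩
    (h₁ := nodeI0_64)
    (h₂ := (posOn_smul 16384 65536 16384 rfl (posOn_of_leaf okI0 leafI0_68)))

theorem nodeI0_66 : PosOn (matEx 9 offI0 16 MI0)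
    ⟨((-65536), 0, 65536), ((-49152), 16384, 65536), ((-65536), 65536, 65536)⟩ :=
  posOn_node 2 (A := ⟨((-65536), 65536, 65536), ((-65536), 32768, 65536), ((-49152), 16384, 65536)⟩) (B := ⟨((-65536), 32768, 65536), ((-65536), 0, 65536), ((-49152), 16384, 65536)⟩) ⟨by decide +kernel, rfl, rfl⟩
    (h₁ := nodeI0_58)
    (h₂ := nodeI0_65)

theorem nodeI0_67 : PosOn (matEx 9 offI0 16 MI0)
    ⟨((-32768), 32768, 65536), ((-49152), 49152, 65536), ((-57344), 40960, 65536)⟩ :=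
  posOn_node 2 (A := ⟨((-57344), 40960, 65536), ((-45056), 36864, 65536), ((-49152), 49152, 65536)⟩) (B := ⟨((-45056), 36864, 65536), ((-32768), 32768, 65536), ((-49152), 49152, 65536)⟩) ⟨by decide +kernel, rfl, rfl⟩
    (h₁ := (posOn_smul 8192 4096 16384 rfl (posOn_of_leaf okI0 leafI0_69)))
    (h₂ := (posOn_smul 4096 32768 16384 rfl (posOn_of_leaf okI0 leafI0_70)))

theorem nodeI0_68 : PosOn (matEx 9 offI0 16 MI0)
    ⟨((-65536), 65536, 65536), ((-57344), 40960, 65536), ((-32768), 32768, 65536)⟩ :=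
  posOn_node 2 (A := ⟨((-32768), 32768, 65536), ((-49152), 49152, 65536), ((-57344), 40960, 65536)⟩) (B := ⟨((-49152), 49152, 65536), ((-65536), 65536, 65536), ((-57344), 40960, 65536)⟩) ⟨by decide +kernel, rfl, rfl⟩
    (h₁ := nodeI0_67)
    (h₂ := (posOn_smul 16384 65536 8192 rfl (posOn_of_leaf okI0 leafI0_71)))

theorem nodeI0_69 : PosOn (matEx 9 offI0 16 MI0)
    ⟨((-49152), 16384, 65536), ((-40960), 24576, 65536), ((-57344), 40960, 65536)⟩ :=
  posOn_node 2 (A := ⟨((-57344), 40960, 65536), ((-53248), 28672, 65536), ((-40960), 24576, 65536)⟩) (B := ⟨((-53248), 28672, 65536), ((-49152), 16384, 65536), ((-40960), 24576, 65536)⟩) ⟨by decide +kernel, rfl, rfl⟩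
    (h₁ := (posOn_smul 8192 4096 8192 rfl (posOn_of_leaf okI0 leafI0_72)))
    (h₂ := (posOn_smul 4096 16384 8192 rfl (posOn_of_leaf okI0 leafI0_73)))

theorem nodeI0_70 : PosOn (matEx 9 offI0 16 MI0)
    ⟨((-40960), 24576, 65536), ((-32768), 32768, 65536), ((-57344), 40960, 65536)⟩ :=
  posOn_node 1 (A := ⟨((-32768), 32768, 65536), ((-45056), 36864, 65536), ((-40960), 24576, 65536)⟩) (B := ⟨((-45056), 36864, 65536), ((-57344), 40960, 65536), ((-40960), 24576, 65536)⟩) ⟨by decide +kernel, rfl, rfl⟩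
    (h₁ := (posOn_smul 32768 4096 8192 rfl (posOn_of_leaf okI0 leafI0_74)))
    (h₂ := (posOn_smul 4096 8192 8192 rfl (posOn_of_leaf okI0 leafI0_75)))

theorem nodeI0_71 : PosOn (matEx 9 offI0 16 MI0)
    ⟨((-57344), 40960, 65536), ((-49152), 16384, 65536), ((-32768), 32768, 65536)⟩ :=
  posOn_node 1 (A := ⟨((-49152), 16384, 65536), ((-40960), 24576, 65536), ((-57344), 40960, 65536)⟩) (B := ⟨((-40960), 24576, 65536), ((-32768), 32768, 65536), ((-57344), 40960, 65536)⟩) ⟨by decide +kernel, rfl, rfl⟩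
    (h₁ := nodeI0_69)
    (h₂ := nodeI0_70)

theorem nodeI0_72 : PosOn (matEx 9 offI0 16 MI0)
    ⟨((-49152), 16384, 65536), ((-32768), 32768, 65536), ((-65536), 65536, 65536)⟩ :=
  posOn_node 2 (A := ⟨((-65536), 65536, 65536), ((-57344), 40960, 65536), ((-32768), 32768, 65536)⟩) (B := ⟨((-57344), 40960, 65536), ((-49152), 16384, 65536), ((-32768), 32768, 65536)⟩) ⟨by decide +kernel, rfl, rfl⟩
    (h₁ := nodeI0_68)
    (h₂ := nodeI0_71)

theorem nodeI0_73 : PosOn (matEx 9 offI0 16 MI0)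
    ⟨((-65536), 0, 65536), ((-32768), 32768, 65536), ((-65536), 65536, 65536)⟩ :=
  posOn_node 0 (A := ⟨((-65536), 0, 65536), ((-49152), 16384, 65536), ((-65536), 65536, 65536)⟩) (B := ⟨((-49152), 16384, 65536), ((-32768), 32768, 65536), ((-65536), 65536, 65536)⟩) ⟨by decide +kernel, rfl, rfl⟩
    (h₁ := nodeI0_66)
    (h₂ := nodeI0_72)

theorem nodeI0_74 : PosOn (matEx 9 offI0 16 MI0)
    ⟨((-24576), 40960, 65536), ((-28672), 53248, 65536), ((-32768), 49152, 65536)⟩ :=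
  posOn_node 2 (A := ⟨((-32768), 49152, 65536), ((-28672), 45056, 65536), ((-28672), 53248, 65536)⟩) (B := ⟨((-28672), 45056, 65536), ((-24576), 40960, 65536), ((-28672), 53248, 65536)⟩) ⟨by decide +kernel, rfl, rfl⟩
    (h₁ := (posOn_smul 16384 4096 4096 rfl (posOn_of_leaf okI0 leafI0_76)))
    (h₂ := (posOn_smul 4096 8192 4096 rfl (posOn_of_leaf okI0 leafI0_77)))

theorem nodeI0_75 : PosOn (matEx 9 offI0 16 MI0)
    ⟨((-32768), 65536, 65536), ((-32768), 49152, 65536), ((-24576), 40960, 65536)⟩ :=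
  posOn_node 2 (A := ⟨((-24576), 40960, 65536), ((-28672), 53248, 65536), ((-32768), 49152, 65536)⟩) (B := ⟨((-28672), 53248, 65536), ((-32768), 65536, 65536), ((-32768), 49152, 65536)⟩) ⟨by decide +kernel, rfl, rfl⟩
    (h₁ := nodeI0_74)
    (h₂ := (posOn_smul 4096 32768 16384 rfl (posOn_of_leaf okI0 leafI0_78)))

theorem nodeI0_76 : PosOn (matEx 9 offI0 16 MI0)
    ⟨((-32768), 49152, 65536), ((-32768), 45056, 65536), ((-28672), 36864, 65536)⟩ :=
  posOn_node 2 (A := ⟨((-28672), 36864, 65536), ((-30720), 43008, 65536), ((-32768), 45056, 65536)⟩) (B := ⟨((-30720), 43008, 65536), ((-32768), 49152, 65536), ((-32768), 45056, 65536)⟩) ⟨by decide +kernel, rfl, rfl⟩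
    (h₁ := (posOn_smul 4096 2048 4096 rfl (posOn_of_leaf okI0 leafI0_79)))
    (h₂ := (posOn_smul 2048 16384 4096 rfl (posOn_of_leaf okI0 leafI0_80)))

theorem nodeI0_77 : PosOn (matEx 9 offI0 16 MI0)
    ⟨((-32768), 49152, 65536), ((-32768), 40960, 65536), ((-28672), 36864, 65536)⟩ :=
  posOn_node 0 (A := ⟨((-32768), 49152, 65536), ((-32768), 45056, 65536), ((-28672), 36864, 65536)⟩) (B := ⟨((-32768), 45056, 65536), ((-32768), 40960, 65536), ((-28672), 36864, 65536)⟩) ⟨by decide +kernel, rfl, rfl⟩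
    (h₁ := nodeI0_76)
    (h₂ := (posOn_smul 4096 8192 4096 rfl (posOn_of_leaf okI0 leafI0_81)))

theorem nodeI0_78 : PosOn (matEx 9 offI0 16 MI0)
    ⟨((-32768), 32768, 65536), ((-28672), 36864, 65536), ((-32768), 49152, 65536)⟩ :=
  posOn_node 2 (A := ⟨((-32768), 49152, 65536), ((-32768), 40960, 65536), ((-28672), 36864, 65536)⟩) (B := ⟨((-32768), 40960, 65536), ((-32768), 32768, 65536), ((-28672), 36864, 65536)⟩) ⟨by decide +kernel, rfl, rfl⟩
    (h₁ := nodeI0_77)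
    (h₂ := (posOn_smul 8192 32768 4096 rfl (posOn_of_leaf okI0 leafI0_82)))

theorem nodeI0_79 : PosOn (matEx 9 offI0 16 MI0)
    ⟨((-28672), 45056, 65536), ((-32768), 49152, 65536), ((-28672), 36864, 65536)⟩ :=
  posOn_node 1 (A := ⟨((-32768), 49152, 65536), ((-30720), 43008, 65536), ((-28672), 45056, 65536)⟩) (B := ⟨((-30720), 43008, 65536), ((-28672), 36864, 65536), ((-28672), 45056, 65536)⟩) ⟨by decide +kernel, rfl, rfl⟩
    (h₁ := (posOn_smul 16384 2048 4096 rfl (posOn_of_leaf okI0 leafI0_84)))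
    (h₂ := (posOn_smul 2048 4096 4096 rfl (posOn_of_leaf okI0 leafI0_85)))

theorem nodeI0_80 : PosOn (matEx 9 offI0 16 MI0)
    ⟨((-28672), 36864, 65536), ((-24576), 40960, 65536), ((-32768), 49152, 65536)⟩ :=
  posOn_node 1 (A := ⟨((-24576), 40960, 65536), ((-28672), 45056, 65536), ((-28672), 36864, 65536)⟩) (B := ⟨((-28672), 45056, 65536), ((-32768), 49152, 65536), ((-28672), 36864, 65536)⟩) ⟨by decide +kernel, rfl, rfl⟩
    (h₁ := (posOn_smul 8192 4096 4096 rfl (posOn_of_leaf okI0 leafI0_83)))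
    (h₂ := nodeI0_79)

theorem nodeI0_81 : PosOn (matEx 9 offI0 16 MI0)
    ⟨((-32768), 49152, 65536), ((-32768), 32768, 65536), ((-24576), 40960, 65536)⟩ :=
  posOn_node 1 (A := ⟨((-32768), 32768, 65536), ((-28672), 36864, 65536), ((-32768), 49152, 65536)⟩) (B := ⟨((-28672), 36864, 65536), ((-24576), 40960, 65536), ((-32768), 49152, 65536)⟩) ⟨by decide +kernel, rfl, rfl⟩
    (h₁ := nodeI0_78)
    (h₂ := nodeI0_80)

theorem nodeI0_82 : PosOn (matEx 9 offI0 16 MI0)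
    ⟨((-32768), 32768, 65536), ((-24576), 40960, 65536), ((-32768), 65536, 65536)⟩ :=
  posOn_node 2 (A := ⟨((-32768), 65536, 65536), ((-32768), 49152, 65536), ((-24576), 40960, 65536)⟩) (B := ⟨((-32768), 49152, 65536), ((-32768), 32768, 65536), ((-24576), 40960, 65536)⟩) ⟨by decide +kernel, rfl, rfl⟩
    (h₁ := nodeI0_75)
    (h₂ := nodeI0_81)

theorem nodeI0_83 : PosOn (matEx 9 offI0 16 MI0)
    ⟨((-24576), 40960, 65536), ((-16384), 49152, 65536), ((-32768), 65536, 65536)⟩ :=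
  posOn_node 1 (A := ⟨((-16384), 49152, 65536), ((-24576), 57344, 65536), ((-24576), 40960, 65536)⟩) (B := ⟨((-24576), 57344, 65536), ((-32768), 65536, 65536), ((-24576), 40960, 65536)⟩) ⟨by decide +kernel, rfl, rfl⟩
    (h₁ := (posOn_smul 16384 8192 8192 rfl (posOn_of_leaf okI0 leafI0_86)))
    (h₂ := (posOn_smul 8192 32768 8192 rfl (posOn_of_leaf okI0 leafI0_87)))

theorem nodeI0_84 : PosOn (matEx 9 offI0 16 MI0)
    ⟨((-32768), 32768, 65536), ((-16384), 49152, 65536), ((-32768), 65536, 65536)⟩ :=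
  posOn_node 0 (A := ⟨((-32768), 32768, 65536), ((-24576), 40960, 65536), ((-32768), 65536, 65536)⟩) (B := ⟨((-24576), 40960, 65536), ((-16384), 49152, 65536), ((-32768), 65536, 65536)⟩) ⟨by decide +kernel, rfl, rfl⟩
    (h₁ := nodeI0_82)
    (h₂ := nodeI0_83)

theorem nodeI0_85 : PosOn (matEx 9 offI0 16 MI0)
    ⟨((-14336), 59392, 65536), ((-16384), 65536, 65536), ((-16384), 49152, 65536)⟩ :=
  posOn_node 1 (A := ⟨((-16384), 65536, 65536), ((-16384), 57344, 65536), ((-14336), 59392, 65536)⟩) (B := ⟨((-16384), 57344, 65536), ((-16384), 49152, 65536), ((-14336), 59392, 65536)⟩) ⟨by decide +kernel, rfl, rfl⟩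
    (h₁ := (posOn_smul 16384 8192 2048 rfl (posOn_of_leaf okI0 leafI0_89)))
    (h₂ := (posOn_smul 8192 16384 2048 rfl (posOn_of_leaf okI0 leafI0_90)))

theorem nodeI0_86 : PosOn (matEx 9 offI0 16 MI0)
    ⟨((-16384), 49152, 65536), ((-12288), 53248, 65536), ((-16384), 65536, 65536)⟩ :=
  posOn_node 1 (A := ⟨((-12288), 53248, 65536), ((-14336), 59392, 65536), ((-16384), 49152, 65536)⟩) (B := ⟨((-14336), 59392, 65536), ((-16384), 65536, 65536), ((-16384), 49152, 65536)⟩) ⟨by decide +kernel, rfl, rfl⟩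
    (h₁ := (posOn_smul 4096 2048 16384 rfl (posOn_of_leaf okI0 leafI0_88)))
    (h₂ := nodeI0_85)

theorem nodeI0_87 : PosOn (matEx 9 offI0 16 MI0)
    ⟨((-16384), 65536, 65536), ((-14336), 59392, 65536), ((-12288), 61440, 65536)⟩ :=
  posOn_node 2 (A := ⟨((-12288), 61440, 65536), ((-14336), 63488, 65536), ((-14336), 59392, 65536)⟩) (B := ⟨((-14336), 63488, 65536), ((-16384), 65536, 65536), ((-14336), 59392, 65536)⟩) ⟨by decide +kernel, rfl, rfl⟩
    (h₁ := (posOn_smul 4096 2048 2048 rfl (posOn_of_leaf okI0 leafI0_92)))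
    (h₂ := (posOn_smul 2048 16384 2048 rfl (posOn_of_leaf okI0 leafI0_93)))

theorem nodeI0_88 : PosOn (matEx 9 offI0 16 MI0)
    ⟨((-12288), 61440, 65536), ((-16384), 65536, 65536), ((-12288), 53248, 65536)⟩ :=
  posOn_node 1 (A := ⟨((-16384), 65536, 65536), ((-14336), 59392, 65536), ((-12288), 61440, 65536)⟩) (B := ⟨((-14336), 59392, 65536), ((-12288), 53248, 65536), ((-12288), 61440, 65536)⟩) ⟨by decide +kernel, rfl, rfl⟩
    (h₁ := nodeI0_87)
    (h₂ := (posOn_smul 2048 4096 4096 rfl (posOn_of_leaf okI0 leafI0_94)))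

theorem nodeI0_89 : PosOn (matEx 9 offI0 16 MI0)
    ⟨((-12288), 53248, 65536), ((-8192), 57344, 65536), ((-16384), 65536, 65536)⟩ :=
  posOn_node 1 (A := ⟨((-8192), 57344, 65536), ((-12288), 61440, 65536), ((-12288), 53248, 65536)⟩) (B := ⟨((-12288), 61440, 65536), ((-16384), 65536, 65536), ((-12288), 53248, 65536)⟩) ⟨by decide +kernel, rfl, rfl⟩
    (h₁ := (posOn_smul 8192 4096 4096 rfl (posOn_of_leaf okI0 leafI0_91)))
    (h₂ := nodeI0_88)

theorem nodeI0_90 : PosOn (matEx 9 offI0 16 MI0)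
    ⟨((-16384), 49152, 65536), ((-8192), 57344, 65536), ((-16384), 65536, 65536)⟩ :=
  posOn_node 0 (A := ⟨((-16384), 49152, 65536), ((-12288), 53248, 65536), ((-16384), 65536, 65536)⟩) (B := ⟨((-12288), 53248, 65536), ((-8192), 57344, 65536), ((-16384), 65536, 65536)⟩) ⟨by decide +kernel, rfl, rfl⟩
    (h₁ := nodeI0_86)
    (h₂ := nodeI0_89)

theorem nodeI0_91 : PosOn (matEx 9 offI0 16 MI0)
    ⟨((-12288), 65536, 65536), ((-16384), 65536, 65536), ((-12288), 61440, 65536)⟩ :=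
  posOn_node 1 (A := ⟨((-16384), 65536, 65536), ((-14336), 63488, 65536), ((-12288), 65536, 65536)⟩) (B := ⟨((-14336), 63488, 65536), ((-12288), 61440, 65536), ((-12288), 65536, 65536)⟩) ⟨by decide +kernel, rfl, rfl⟩
    (h₁ := (posOn_smul 16384 2048 4096 rfl (posOn_of_leaf okI0 leafI0_97)))
    (h₂ := (posOn_smul 2048 4096 4096 rfl (posOn_of_leaf okI0 leafI0_98)))

theorem nodeI0_92 : PosOn (matEx 9 offI0 16 MI0)
    ⟨((-16384), 65536, 65536), ((-12288), 61440, 65536), ((-8192), 65536, 65536)⟩ :=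
  posOn_node 2 (A := ⟨((-8192), 65536, 65536), ((-12288), 65536, 65536), ((-12288), 61440, 65536)⟩) (B := ⟨((-12288), 65536, 65536), ((-16384), 65536, 65536), ((-12288), 61440, 65536)⟩) ⟨by decide +kernel, rfl, rfl⟩
    (h₁ := (posOn_smul 8192 4096 4096 rfl (posOn_of_leaf okI0 leafI0_96)))
    (h₂ := nodeI0_91)

theorem nodeI0_93 : PosOn (matEx 9 offI0 16 MI0)
    ⟨((-8192), 65536, 65536), ((-16384), 65536, 65536), ((-8192), 57344, 65536)⟩ :=
  posOn_node 1 (A := ⟨((-16384), 65536, 65536), ((-12288), 61440, 65536), ((-8192), 65536, 65536)⟩) (B := ⟨((-12288), 61440, 65536), ((-8192), 57344, 65536), ((-8192), 65536, 65536)⟩) ⟨by decide +kernel, rfl, rfl⟩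
    (h₁ := nodeI0_92)
    (h₂ := (posOn_smul 4096 8192 8192 rfl (posOn_of_leaf okI0 leafI0_99)))

theorem nodeI0_94 : PosOn (matEx 9 offI0 16 MI0)
    ⟨((-8192), 57344, 65536), (0, 65536, 65536), ((-16384), 65536, 65536)⟩ :=
  posOn_node 1 (A := ⟨(0, 65536, 65536), ((-8192), 65536, 65536), ((-8192), 57344, 65536)⟩) (B := ⟨((-8192), 65536, 65536), ((-16384), 65536, 65536), ((-8192), 57344, 65536)⟩) ⟨by decide +kernel, rfl, rfl⟩
    (h₁ := (posOn_smul 65536 8192 8192 rfl (posOn_of_leaf okI0 leafI0_95)))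
    (h₂ := nodeI0_93)

theorem nodeI0_95 : PosOn (matEx 9 offI0 16 MI0)
    ⟨(0, 65536, 65536), ((-16384), 65536, 65536), ((-16384), 49152, 65536)⟩ :=
  posOn_node 2 (A := ⟨((-16384), 49152, 65536), ((-8192), 57344, 65536), ((-16384), 65536, 65536)⟩) (B := ⟨((-8192), 57344, 65536), (0, 65536, 65536), ((-16384), 65536, 65536)⟩) ⟨by decide +kernel, rfl, rfl⟩
    (h₁ := nodeI0_90)
    (h₂ := nodeI0_94)

theorem nodeI0_96 : PosOn (matEx 9 offI0 16 MI0)
    ⟨((-16384), 65536, 65536), ((-20480), 65536, 65536), ((-24576), 57344, 65536)⟩ :=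
  posOn_node 2 (A := ⟨((-24576), 57344, 65536), ((-20480), 61440, 65536), ((-20480), 65536, 65536)⟩) (B := ⟨((-20480), 61440, 65536), ((-16384), 65536, 65536), ((-20480), 65536, 65536)⟩) ⟨by decide +kernel, rfl, rfl⟩
    (h₁ := (posOn_smul 8192 4096 4096 rfl (posOn_of_leaf okI0 leafI0_100)))
    (h₂ := (posOn_smul 4096 16384 4096 rfl (posOn_of_leaf okI0 leafI0_101)))

theorem nodeI0_97 : PosOn (matEx 9 offI0 16 MI0)
    ⟨((-16384), 65536, 65536), ((-24576), 65536, 65536), ((-24576), 57344, 65536)⟩ :=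
  posOn_node 0 (A := ⟨((-16384), 65536, 65536), ((-20480), 65536, 65536), ((-24576), 57344, 65536)⟩) (B := ⟨((-20480), 65536, 65536), ((-24576), 65536, 65536), ((-24576), 57344, 65536)⟩) ⟨by decide +kernel, rfl, rfl⟩
    (h₁ := nodeI0_96)
    (h₂ := (posOn_smul 4096 8192 8192 rfl (posOn_of_leaf okI0 leafI0_102)))

theorem nodeI0_98 : PosOn (matEx 9 offI0 16 MI0)
    ⟨((-32768), 65536, 65536), ((-24576), 57344, 65536), ((-16384), 65536, 65536)⟩ :=
  posOn_node 2 (A := ⟨((-16384), 65536, 65536), ((-24576), 65536, 65536), ((-24576), 57344, 65536)⟩) (B := ⟨((-24576), 65536, 65536), ((-32768), 65536, 65536), ((-24576), 57344, 65536)⟩) ⟨by decide +kernel, rfl, rfl⟩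
    (h₁ := nodeI0_97)
    (h₂ := (posOn_smul 8192 32768 8192 rfl (posOn_of_leaf okI0 leafI0_103)))

theorem nodeI0_99 : PosOn (matEx 9 offI0 16 MI0)
    ⟨((-16384), 65536, 65536), ((-20480), 61440, 65536), ((-16384), 49152, 65536)⟩ :=
  posOn_node 2 (A := ⟨((-16384), 49152, 65536), ((-16384), 57344, 65536), ((-20480), 61440, 65536)⟩) (B := ⟨((-16384), 57344, 65536), ((-16384), 65536, 65536), ((-20480), 61440, 65536)⟩) ⟨by decide +kernel, rfl, rfl⟩
    (h₁ := (posOn_smul 16384 8192 4096 rfl (posOn_of_leaf okI0 leafI0_104)))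
    (h₂ := (posOn_smul 8192 16384 4096 rfl (posOn_of_leaf okI0 leafI0_105)))

theorem nodeI0_100 : PosOn (matEx 9 offI0 16 MI0)
    ⟨((-24576), 57344, 65536), ((-16384), 49152, 65536), ((-16384), 65536, 65536)⟩ :=
  posOn_node 2 (A := ⟨((-16384), 65536, 65536), ((-20480), 61440, 65536), ((-16384), 49152, 65536)⟩) (B := ⟨((-20480), 61440, 65536), ((-24576), 57344, 65536), ((-16384), 49152, 65536)⟩) ⟨by decide +kernel, rfl, rfl⟩
    (h₁ := nodeI0_99)
    (h₂ := (posOn_smul 4096 8192 16384 rfl (posOn_of_leaf okI0 leafI0_106)))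

theorem nodeI0_101 : PosOn (matEx 9 offI0 16 MI0)
    ⟨((-16384), 65536, 65536), ((-32768), 65536, 65536), ((-16384), 49152, 65536)⟩ :=
  posOn_node 1 (A := ⟨((-32768), 65536, 65536), ((-24576), 57344, 65536), ((-16384), 65536, 65536)⟩) (B := ⟨((-24576), 57344, 65536), ((-16384), 49152, 65536), ((-16384), 65536, 65536)⟩) ⟨by decide +kernel, rfl, rfl⟩
    (h₁ := nodeI0_98)
    (h₂ := nodeI0_100)

theorem nodeI0_102 : PosOn (matEx 9 offI0 16 MI0)
    ⟨((-16384), 49152, 65536), (0, 65536, 65536), ((-32768), 65536, 65536)⟩ :=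
  posOn_node 1 (A := ⟨(0, 65536, 65536), ((-16384), 65536, 65536), ((-16384), 49152, 65536)⟩) (B := ⟨((-16384), 65536, 65536), ((-32768), 65536, 65536), ((-16384), 49152, 65536)⟩) ⟨by decide +kernel, rfl, rfl⟩
    (h₁ := nodeI0_95)
    (h₂ := nodeI0_101)

theorem nodeI0_103 : PosOn (matEx 9 offI0 16 MI0)
    ⟨(0, 65536, 65536), ((-32768), 65536, 65536), ((-32768), 32768, 65536)⟩ :=
  posOn_node 2 (A := ⟨((-32768), 32768, 65536), ((-16384), 49152, 65536), ((-32768), 65536, 65536)⟩) (B := ⟨((-16384), 49152, 65536), (0, 65536, 65536), ((-32768), 65536, 65536)⟩) ⟨by decide +kernel, rfl, rfl⟩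
    (h₁ := nodeI0_84)
    (h₂ := nodeI0_102)

theorem nodeI0_104 : PosOn (matEx 9 offI0 16 MI0)
    ⟨((-32768), 40960, 65536), ((-32768), 49152, 65536), ((-40960), 49152, 65536)⟩ :=
  posOn_node 0 (A := ⟨((-32768), 40960, 65536), ((-32768), 45056, 65536), ((-40960), 49152, 65536)⟩) (B := ⟨((-32768), 45056, 65536), ((-32768), 49152, 65536), ((-40960), 49152, 65536)⟩) ⟨by decide +kernel, rfl, rfl⟩
    (h₁ := (posOn_smul 8192 4096 8192 rfl (posOn_of_leaf okI0 leafI0_109)))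
    (h₂ := (posOn_smul 4096 16384 8192 rfl (posOn_of_leaf okI0 leafI0_110)))

theorem nodeI0_105 : PosOn (matEx 9 offI0 16 MI0)
    ⟨((-40960), 49152, 65536), ((-32768), 32768, 65536), ((-32768), 49152, 65536)⟩ :=
  posOn_node 1 (A := ⟨((-32768), 32768, 65536), ((-32768), 40960, 65536), ((-40960), 49152, 65536)⟩) (B := ⟨((-32768), 40960, 65536), ((-32768), 49152, 65536), ((-40960), 49152, 65536)⟩) ⟨by decide +kernel, rfl, rfl⟩
    (h₁ := (posOn_smul 32768 8192 8192 rfl (posOn_of_leaf okI0 leafI0_108)))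
    (h₂ := nodeI0_104)

theorem nodeI0_106 : PosOn (matEx 9 offI0 16 MI0)
    ⟨((-32768), 32768, 65536), ((-32768), 49152, 65536), ((-49152), 65536, 65536)⟩ :=
  posOn_node 2 (A := ⟨((-49152), 65536, 65536), ((-40960), 49152, 65536), ((-32768), 49152, 65536)⟩) (B := ⟨((-40960), 49152, 65536), ((-32768), 32768, 65536), ((-32768), 49152, 65536)⟩) ⟨by decide +kernel, rfl, rfl⟩
    (h₁ := (posOn_smul 16384 8192 16384 rfl (posOn_of_leaf okI0 leafI0_107)))
    (h₂ := nodeI0_105)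

theorem nodeI0_107 : PosOn (matEx 9 offI0 16 MI0)
    ⟨((-32768), 65536, 65536), ((-49152), 65536, 65536), ((-32768), 32768, 65536)⟩ :=
  posOn_node 2 (A := ⟨((-32768), 32768, 65536), ((-32768), 49152, 65536), ((-49152), 65536, 65536)⟩) (B := ⟨((-32768), 49152, 65536), ((-32768), 65536, 65536), ((-49152), 65536, 65536)⟩) ⟨by decide +kernel, rfl, rfl⟩
    (h₁ := nodeI0_106)
    (h₂ := (posOn_smul 16384 32768 16384 rfl (posOn_of_leaf okI0 leafI0_111)))

theorem nodeI0_108 : PosOn (matEx 9 offI0 16 MI0)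
    ⟨((-49152), 65536, 65536), ((-65536), 65536, 65536), ((-32768), 32768, 65536)⟩ :=
  posOn_node 1 (A := ⟨((-65536), 65536, 65536), ((-49152), 49152, 65536), ((-49152), 65536, 65536)⟩) (B := ⟨((-49152), 49152, 65536), ((-32768), 32768, 65536), ((-49152), 65536, 65536)⟩) ⟨by decide +kernel, rfl, rfl⟩
    (h₁ := (posOn_smul 65536 16384 16384 rfl (posOn_of_leaf okI0 leafI0_112)))
    (h₂ := (posOn_smul 16384 32768 16384 rfl (posOn_of_leaf okI0 leafI0_113)))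

theorem nodeI0_109 : PosOn (matEx 9 offI0 16 MI0)
    ⟨((-32768), 65536, 65536), ((-65536), 65536, 65536), ((-32768), 32768, 65536)⟩ :=
  posOn_node 0 (A := ⟨((-32768), 65536, 65536), ((-49152), 65536, 65536), ((-32768), 32768, 65536)⟩) (B := ⟨((-49152), 65536, 65536), ((-65536), 65536, 65536), ((-32768), 32768, 65536)⟩) ⟨by decide +kernel, rfl, rfl⟩
    (h₁ := nodeI0_107)
    (h₂ := nodeI0_108)

theorem nodeI0_110 : PosOn (matEx 9 offI0 16 MI0)
    ⟨((-32768), 32768, 65536), (0, 65536, 65536), ((-65536), 65536, 65536)⟩ :=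
  posOn_node 1 (A := ⟨(0, 65536, 65536), ((-32768), 65536, 65536), ((-32768), 32768, 65536)⟩) (B := ⟨((-32768), 65536, 65536), ((-65536), 65536, 65536), ((-32768), 32768, 65536)⟩) ⟨by decide +kernel, rfl, rfl⟩
    (h₁ := nodeI0_103)
    (h₂ := nodeI0_109)

theorem nodeI0_111 : PosOn (matEx 9 offI0 16 MI0)
    ⟨((-65536), 0, 65536), (0, 65536, 65536), ((-65536), 65536, 65536)⟩ :=
  posOn_node 0 (A := ⟨((-65536), 0, 65536), ((-32768), 32768, 65536), ((-65536), 65536, 65536)⟩) (B := ⟨((-32768), 32768, 65536), (0, 65536, 65536), ((-65536), 65536, 65536)⟩) ⟨by decide +kernel, rfl, rfl⟩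
    (h₁ := nodeI0_73)
    (h₂ := nodeI0_110)

theorem nodeI0_112 : PosOn (matEx 9 offI0 16 MI0)
    ⟨(8192, 36864, 65536), (0, 32768, 65536), (8192, 28672, 65536)⟩ :=
  posOn_node 0 (A := ⟨(8192, 36864, 65536), (4096, 34816, 65536), (8192, 28672, 65536)⟩) (B := ⟨(4096, 34816, 65536), (0, 32768, 65536), (8192, 28672, 65536)⟩) ⟨by decide +kernel, rfl, rfl⟩
    (h₁ := (posOn_smul 4096 2048 4096 rfl (posOn_of_leaf okI0 leafI0_115)))
    (h₂ := (posOn_smul 2048 32768 4096 rfl (posOn_of_leaf okI0 leafI0_116)))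

theorem nodeI0_113 : PosOn (matEx 9 offI0 16 MI0)
    ⟨(0, 32768, 65536), (8192, 28672, 65536), (16384, 40960, 65536)⟩ :=
  posOn_node 2 (A := ⟨(16384, 40960, 65536), (8192, 36864, 65536), (8192, 28672, 65536)⟩) (B := ⟨(8192, 36864, 65536), (0, 32768, 65536), (8192, 28672, 65536)⟩) ⟨by decide +kernel, rfl, rfl⟩
    (h₁ := (posOn_smul 8192 4096 4096 rfl (posOn_of_leaf okI0 leafI0_114)))
    (h₂ := nodeI0_112)

theorem nodeI0_114 : PosOn (matEx 9 offI0 16 MI0)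
    ⟨(12288, 34816, 65536), (8192, 28672, 65536), (16384, 24576, 65536)⟩ :=
  posOn_node 1 (A := ⟨(8192, 28672, 65536), (12288, 26624, 65536), (12288, 34816, 65536)⟩) (B := ⟨(12288, 26624, 65536), (16384, 24576, 65536), (12288, 34816, 65536)⟩) ⟨by decide +kernel, rfl, rfl⟩
    (h₁ := (posOn_smul 4096 2048 2048 rfl (posOn_of_leaf okI0 leafI0_118)))
    (h₂ := (posOn_smul 2048 8192 2048 rfl (posOn_of_leaf okI0 leafI0_119)))

theorem nodeI0_115 : PosOn (matEx 9 offI0 16 MI0)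
    ⟨(8192, 28672, 65536), (16384, 24576, 65536), (16384, 40960, 65536)⟩ :=
  posOn_node 2 (A := ⟨(16384, 40960, 65536), (12288, 34816, 65536), (16384, 24576, 65536)⟩) (B := ⟨(12288, 34816, 65536), (8192, 28672, 65536), (16384, 24576, 65536)⟩) ⟨by decide +kernel, rfl, rfl⟩
    (h₁ := (posOn_smul 8192 2048 8192 rfl (posOn_of_leaf okI0 leafI0_117)))
    (h₂ := nodeI0_114)

theorem nodeI0_116 : PosOn (matEx 9 offI0 16 MI0)
    ⟨(0, 32768, 65536), (16384, 24576, 65536), (16384, 40960, 65536)⟩ :=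
  posOn_node 0 (A := ⟨(0, 32768, 65536), (8192, 28672, 65536), (16384, 40960, 65536)⟩) (B := ⟨(8192, 28672, 65536), (16384, 24576, 65536), (16384, 40960, 65536)⟩) ⟨by decide +kernel, rfl, rfl⟩
    (h₁ := nodeI0_113)
    (h₂ := nodeI0_115)

theorem nodeI0_117 : PosOn (matEx 9 offI0 16 MI0)
    ⟨(32768, 16384, 65536), (24576, 28672, 65536), (16384, 24576, 65536)⟩ :=
  posOn_node 2 (A := ⟨(16384, 24576, 65536), (24576, 20480, 65536), (24576, 28672, 65536)⟩) (B := ⟨(24576, 20480, 65536), (32768, 16384, 65536), (24576, 28672, 65536)⟩) ⟨by decide +kernel, rfl, rfl⟩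
    (h₁ := (posOn_smul 8192 4096 4096 rfl (posOn_of_leaf okI0 leafI0_120)))
    (h₂ := (posOn_smul 4096 16384 4096 rfl (posOn_of_leaf okI0 leafI0_121)))

theorem nodeI0_118 : PosOn (matEx 9 offI0 16 MI0)
    ⟨(24576, 28672, 65536), (20480, 34816, 65536), (16384, 24576, 65536)⟩ :=
  posOn_node 2 (A := ⟨(16384, 24576, 65536), (20480, 26624, 65536), (20480, 34816, 65536)⟩) (B := ⟨(20480, 26624, 65536), (24576, 28672, 65536), (20480, 34816, 65536)⟩) ⟨by decide +kernel, rfl, rfl⟩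
    (h₁ := (posOn_smul 8192 2048 2048 rfl (posOn_of_leaf okI0 leafI0_122)))
    (h₂ := (posOn_smul 2048 4096 2048 rfl (posOn_of_leaf okI0 leafI0_123)))

theorem nodeI0_119 : PosOn (matEx 9 offI0 16 MI0)
    ⟨(24576, 28672, 65536), (16384, 40960, 65536), (16384, 24576, 65536)⟩ :=
  posOn_node 0 (A := ⟨(24576, 28672, 65536), (20480, 34816, 65536), (16384, 24576, 65536)⟩) (B := ⟨(20480, 34816, 65536), (16384, 40960, 65536), (16384, 24576, 65536)⟩) ⟨by decide +kernel, rfl, rfl⟩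
    (h₁ := nodeI0_118)
    (h₂ := (posOn_smul 2048 8192 8192 rfl (posOn_of_leaf okI0 leafI0_124)))

theorem nodeI0_120 : PosOn (matEx 9 offI0 16 MI0)
    ⟨(16384, 24576, 65536), (32768, 16384, 65536), (16384, 40960, 65536)⟩ :=
  posOn_node 1 (A := ⟨(32768, 16384, 65536), (24576, 28672, 65536), (16384, 24576, 65536)⟩) (B := ⟨(24576, 28672, 65536), (16384, 40960, 65536), (16384, 24576, 65536)⟩) ⟨by decide +kernel, rfl, rfl⟩
    (h₁ := nodeI0_117)
    (h₂ := nodeI0_119)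

theorem nodeI0_121 : PosOn (matEx 9 offI0 16 MI0)
    ⟨(32768, 16384, 65536), (16384, 40960, 65536), (0, 32768, 65536)⟩ :=
  posOn_node 2 (A := ⟨(0, 32768, 65536), (16384, 24576, 65536), (16384, 40960, 65536)⟩) (B := ⟨(16384, 24576, 65536), (32768, 16384, 65536), (16384, 40960, 65536)⟩) ⟨by decide +kernel, rfl, rfl⟩
    (h₁ := nodeI0_116)
    (h₂ := nodeI0_120)

theorem nodeI0_122 : PosOn (matEx 9 offI0 16 MI0)
    ⟨(4096, 43008, 65536), (0, 32768, 65536), (8192, 36864, 65536)⟩ :=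
  posOn_node 1 (A := ⟨(0, 32768, 65536), (4096, 34816, 65536), (4096, 43008, 65536)⟩) (B := ⟨(4096, 34816, 65536), (8192, 36864, 65536), (4096, 43008, 65536)⟩) ⟨by decide +kernel, rfl, rfl⟩
    (h₁ := (posOn_smul 32768 2048 2048 rfl (posOn_of_leaf okI0 leafI0_126)))
    (h₂ := (posOn_smul 2048 4096 2048 rfl (posOn_of_leaf okI0 leafI0_127)))

theorem nodeI0_123 : PosOn (matEx 9 offI0 16 MI0)
    ⟨(0, 32768, 65536), (8192, 36864, 65536), (8192, 53248, 65536)⟩ :=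
  posOn_node 2 (A := ⟨(8192, 53248, 65536), (4096, 43008, 65536), (8192, 36864, 65536)⟩) (B := ⟨(4096, 43008, 65536), (0, 32768, 65536), (8192, 36864, 65536)⟩) ⟨by decide +kernel, rfl, rfl⟩
    (h₁ := (posOn_smul 4096 2048 4096 rfl (posOn_of_leaf okI0 leafI0_125)))
    (h₂ := nodeI0_122)

theorem nodeI0_124 : PosOn (matEx 9 offI0 16 MI0)
    ⟨(16384, 40960, 65536), (8192, 53248, 65536), (0, 32768, 65536)⟩ :=
  posOn_node 2 (A := ⟨(0, 32768, 65536), (8192, 36864, 65536), (8192, 53248, 65536)⟩) (B := ⟨(8192, 36864, 65536), (16384, 40960, 65536), (8192, 53248, 65536)⟩) ⟨by decide +kernel, rfl, rfl⟩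
    (h₁ := nodeI0_123)
    (h₂ := (posOn_smul 4096 8192 4096 rfl (posOn_of_leaf okI0 leafI0_128)))

theorem nodeI0_125 : PosOn (matEx 9 offI0 16 MI0)
    ⟨(0, 49152, 65536), (0, 32768, 65536), (8192, 53248, 65536)⟩ :=
  posOn_node 1 (A := ⟨(0, 32768, 65536), (4096, 43008, 65536), (0, 49152, 65536)⟩) (B := ⟨(4096, 43008, 65536), (8192, 53248, 65536), (0, 49152, 65536)⟩) ⟨by decide +kernel, rfl, rfl⟩
    (h₁ := (posOn_smul 32768 2048 16384 rfl (posOn_of_leaf okI0 leafI0_130)))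
    (h₂ := (posOn_smul 2048 4096 16384 rfl (posOn_of_leaf okI0 leafI0_131)))

theorem nodeI0_126 : PosOn (matEx 9 offI0 16 MI0)
    ⟨(8192, 53248, 65536), (0, 65536, 65536), (0, 32768, 65536)⟩ :=
  posOn_node 1 (A := ⟨(0, 65536, 65536), (0, 49152, 65536), (8192, 53248, 65536)⟩) (B := ⟨(0, 49152, 65536), (0, 32768, 65536), (8192, 53248, 65536)⟩) ⟨by decide +kernel, rfl, rfl⟩
    (h₁ := (posOn_smul 65536 16384 4096 rfl (posOn_of_leaf okI0 leafI0_129)))
    (h₂ := nodeI0_125)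

theorem nodeI0_127 : PosOn (matEx 9 offI0 16 MI0)
    ⟨(16384, 40960, 65536), (0, 65536, 65536), (0, 32768, 65536)⟩ :=
  posOn_node 0 (A := ⟨(16384, 40960, 65536), (8192, 53248, 65536), (0, 32768, 65536)⟩) (B := ⟨(8192, 53248, 65536), (0, 65536, 65536), (0, 32768, 65536)⟩) ⟨by decide +kernel, rfl, rfl⟩
    (h₁ := nodeI0_124)
    (h₂ := nodeI0_126)

theorem nodeI0_128 : PosOn (matEx 9 offI0 16 MI0)
    ⟨(0, 32768, 65536), (32768, 16384, 65536), (0, 65536, 65536)⟩ :=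
  posOn_node 1 (A := ⟨(32768, 16384, 65536), (16384, 40960, 65536), (0, 32768, 65536)⟩) (B := ⟨(16384, 40960, 65536), (0, 65536, 65536), (0, 32768, 65536)⟩) ⟨by decide +kernel, rfl, rfl⟩
    (h₁ := nodeI0_121)
    (h₂ := nodeI0_127)

theorem nodeI0_129 : PosOn (matEx 9 offI0 16 MI0)
    ⟨(45056, 14336, 65536), (49152, 16384, 65536), (40960, 16384, 65536)⟩ :=
  posOn_node 1 (A := ⟨(49152, 16384, 65536), (45056, 16384, 65536), (45056, 14336, 65536)⟩) (B := ⟨(45056, 16384, 65536), (40960, 16384, 65536), (45056, 14336, 65536)⟩) ⟨by decide +kernel, rfl, rfl⟩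
    (h₁ := (posOn_smul 16384 4096 2048 rfl (posOn_of_leaf okI0 leafI0_133)))
    (h₂ := (posOn_smul 4096 8192 2048 rfl (posOn_of_leaf okI0 leafI0_134)))

theorem nodeI0_130 : PosOn (matEx 9 offI0 16 MI0)
    ⟨(49152, 16384, 65536), (40960, 16384, 65536), (40960, 12288, 65536)⟩ :=
  posOn_node 2 (A := ⟨(40960, 12288, 65536), (45056, 14336, 65536), (40960, 16384, 65536)⟩) (B := ⟨(45056, 14336, 65536), (49152, 16384, 65536), (40960, 16384, 65536)⟩) ⟨by decide +kernel, rfl, rfl⟩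
    (h₁ := (posOn_smul 4096 2048 8192 rfl (posOn_of_leaf okI0 leafI0_132)))
    (h₂ := nodeI0_129)

theorem nodeI0_131 : PosOn (matEx 9 offI0 16 MI0)
    ⟨(32768, 16384, 65536), (40960, 12288, 65536), (49152, 16384, 65536)⟩ :=
  posOn_node 2 (A := ⟨(49152, 16384, 65536), (40960, 16384, 65536), (40960, 12288, 65536)⟩) (B := ⟨(40960, 16384, 65536), (32768, 16384, 65536), (40960, 12288, 65536)⟩) ⟨by decide +kernel, rfl, rfl⟩
    (h₁ := nodeI0_130)
    (h₂ := (posOn_smul 8192 16384 4096 rfl (posOn_of_leaf okI0 leafI0_135)))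

theorem nodeI0_132 : PosOn (matEx 9 offI0 16 MI0)
    ⟨(40960, 12288, 65536), (49152, 8192, 65536), (49152, 16384, 65536)⟩ :=
  posOn_node 2 (A := ⟨(49152, 16384, 65536), (45056, 14336, 65536), (49152, 8192, 65536)⟩) (B := ⟨(45056, 14336, 65536), (40960, 12288, 65536), (49152, 8192, 65536)⟩) ⟨by decide +kernel, rfl, rfl⟩
    (h₁ := (posOn_smul 16384 2048 8192 rfl (posOn_of_leaf okI0 leafI0_136)))
    (h₂ := (posOn_smul 2048 4096 8192 rfl (posOn_of_leaf okI0 leafI0_137)))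

theorem nodeI0_133 : PosOn (matEx 9 offI0 16 MI0)
    ⟨(32768, 16384, 65536), (49152, 8192, 65536), (49152, 16384, 65536)⟩ :=
  posOn_node 0 (A := ⟨(32768, 16384, 65536), (40960, 12288, 65536), (49152, 16384, 65536)⟩) (B := ⟨(40960, 12288, 65536), (49152, 8192, 65536), (49152, 16384, 65536)⟩) ⟨by decide +kernel, rfl, rfl⟩
    (h₁ := nodeI0_131)
    (h₂ := nodeI0_132)

theorem nodeI0_134 : PosOn (matEx 9 offI0 16 MI0)
    ⟨(57344, 4096, 65536), (65536, 0, 65536), (49152, 16384, 65536)⟩ :=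
  posOn_node 1 (A := ⟨(65536, 0, 65536), (57344, 8192, 65536), (57344, 4096, 65536)⟩) (B := ⟨(57344, 8192, 65536), (49152, 16384, 65536), (57344, 4096, 65536)⟩) ⟨by decide +kernel, rfl, rfl⟩
    (h₁ := (posOn_smul 65536 8192 4096 rfl (posOn_of_leaf okI0 leafI0_139)))
    (h₂ := (posOn_smul 8192 16384 4096 rfl (posOn_of_leaf okI0 leafI0_140)))

theorem nodeI0_135 : PosOn (matEx 9 offI0 16 MI0)
    ⟨(49152, 8192, 65536), (65536, 0, 65536), (49152, 16384, 65536)⟩ :=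
  posOn_node 0 (A := ⟨(49152, 8192, 65536), (57344, 4096, 65536), (49152, 16384, 65536)⟩) (B := ⟨(57344, 4096, 65536), (65536, 0, 65536), (49152, 16384, 65536)⟩) ⟨by decide +kernel, rfl, rfl⟩
    (h₁ := (posOn_smul 8192 4096 16384 rfl (posOn_of_leaf okI0 leafI0_138)))
    (h₂ := nodeI0_134)

theorem nodeI0_136 : PosOn (matEx 9 offI0 16 MI0)
    ⟨(65536, 0, 65536), (49152, 16384, 65536), (32768, 16384, 65536)⟩ :=
  posOn_node 2 (A := ⟨(32768, 16384, 65536), (49152, 8192, 65536), (49152, 16384, 65536)⟩) (B := ⟨(49152, 8192, 65536), (65536, 0, 65536), (49152, 16384, 65536)⟩) ⟨by decide +kernel, rfl, rfl⟩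
    (h₁ := nodeI0_133)
    (h₂ := nodeI0_135)

theorem nodeI0_137 : PosOn (matEx 9 offI0 16 MI0)
    ⟨(49152, 16384, 65536), (45056, 20480, 65536), (40960, 16384, 65536)⟩ :=
  posOn_node 2 (A := ⟨(40960, 16384, 65536), (45056, 16384, 65536), (45056, 20480, 65536)⟩) (B := ⟨(45056, 16384, 65536), (49152, 16384, 65536), (45056, 20480, 65536)⟩) ⟨by decide +kernel, rfl, rfl⟩
    (h₁ := (posOn_smul 8192 4096 4096 rfl (posOn_of_leaf okI0 leafI0_142)))
    (h₂ := (posOn_smul 4096 16384 4096 rfl (posOn_of_leaf okI0 leafI0_143)))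

theorem nodeI0_138 : PosOn (matEx 9 offI0 16 MI0)
    ⟨(40960, 16384, 65536), (49152, 16384, 65536), (40960, 24576, 65536)⟩ :=
  posOn_node 1 (A := ⟨(49152, 16384, 65536), (45056, 20480, 65536), (40960, 16384, 65536)⟩) (B := ⟨(45056, 20480, 65536), (40960, 24576, 65536), (40960, 16384, 65536)⟩) ⟨by decide +kernel, rfl, rfl⟩
    (h₁ := nodeI0_137)
    (h₂ := (posOn_smul 4096 8192 8192 rfl (posOn_of_leaf okI0 leafI0_144)))

theorem nodeI0_139 : PosOn (matEx 9 offI0 16 MI0)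
    ⟨(49152, 16384, 65536), (40960, 24576, 65536), (32768, 16384, 65536)⟩ :=
  posOn_node 2 (A := ⟨(32768, 16384, 65536), (40960, 16384, 65536), (40960, 24576, 65536)⟩) (B := ⟨(40960, 16384, 65536), (49152, 16384, 65536), (40960, 24576, 65536)⟩) ⟨by decide +kernel, rfl, rfl⟩
    (h₁ := (posOn_smul 16384 8192 8192 rfl (posOn_of_leaf okI0 leafI0_141)))
    (h₂ := nodeI0_138)

theorem nodeI0_140 : PosOn (matEx 9 offI0 16 MI0)
    ⟨(49152, 16384, 65536), (32768, 32768, 65536), (32768, 16384, 65536)⟩ :=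
  posOn_node 0 (A := ⟨(49152, 16384, 65536), (40960, 24576, 65536), (32768, 16384, 65536)⟩) (B := ⟨(40960, 24576, 65536), (32768, 32768, 65536), (32768, 16384, 65536)⟩) ⟨by decide +kernel, rfl, rfl⟩
    (h₁ := nodeI0_139)
    (h₂ := (posOn_smul 8192 32768 16384 rfl (posOn_of_leaf okI0 leafI0_145)))

theorem nodeI0_141 : PosOn (matEx 9 offI0 16 MI0)
    ⟨(65536, 0, 65536), (32768, 32768, 65536), (32768, 16384, 65536)⟩ :=
  posOn_node 0 (A := ⟨(65536, 0, 65536), (49152, 16384, 65536), (32768, 16384, 65536)⟩) (B := ⟨(49152, 16384, 65536), (32768, 32768, 65536), (32768, 16384, 65536)⟩) ⟨by decide +kernel, rfl, rfl⟩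
    (h₁ := nodeI0_136)
    (h₂ := nodeI0_140)

theorem nodeI0_142 : PosOn (matEx 9 offI0 16 MI0)
    ⟨(24576, 40960, 65536), (22528, 40960, 65536), (20480, 38912, 65536)⟩ :=
  posOn_node 2 (A := ⟨(20480, 38912, 65536), (22528, 39936, 65536), (22528, 40960, 65536)⟩) (B := ⟨(22528, 39936, 65536), (24576, 40960, 65536), (22528, 40960, 65536)⟩) ⟨by decide +kernel, rfl, rfl⟩
    (h₁ := (posOn_smul 2048 1024 2048 rfl (posOn_of_leaf okI0 leafI0_146)))
    (h₂ := (posOn_smul 1024 8192 2048 rfl (posOn_of_leaf okI0 leafI0_147)))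

theorem nodeI0_143 : PosOn (matEx 9 offI0 16 MI0)
    ⟨(24576, 40960, 65536), (20480, 40960, 65536), (20480, 38912, 65536)⟩ :=
  posOn_node 0 (A := ⟨(24576, 40960, 65536), (22528, 40960, 65536), (20480, 38912, 65536)⟩) (B := ⟨(22528, 40960, 65536), (20480, 40960, 65536), (20480, 38912, 65536)⟩) ⟨by decide +kernel, rfl, rfl⟩
    (h₁ := nodeI0_142)
    (h₂ := (posOn_smul 2048 4096 2048 rfl (posOn_of_leaf okI0 leafI0_148)))

theorem nodeI0_144 : PosOn (matEx 9 offI0 16 MI0)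
    ⟨(16384, 40960, 65536), (20480, 38912, 65536), (24576, 40960, 65536)⟩ :=
  posOn_node 2 (A := ⟨(24576, 40960, 65536), (20480, 40960, 65536), (20480, 38912, 65536)⟩) (B := ⟨(20480, 40960, 65536), (16384, 40960, 65536), (20480, 38912, 65536)⟩) ⟨by decide +kernel, rfl, rfl⟩
    (h₁ := nodeI0_143)
    (h₂ := (posOn_smul 4096 8192 2048 rfl (posOn_of_leaf okI0 leafI0_149)))

theorem nodeI0_145 : PosOn (matEx 9 offI0 16 MI0)
    ⟨(20480, 38912, 65536), (22528, 37888, 65536), (24576, 40960, 65536)⟩ :=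
  posOn_node 2 (A := ⟨(24576, 40960, 65536), (22528, 39936, 65536), (22528, 37888, 65536)⟩) (B := ⟨(22528, 39936, 65536), (20480, 38912, 65536), (22528, 37888, 65536)⟩) ⟨by decide +kernel, rfl, rfl⟩
    (h₁ := (posOn_smul 8192 1024 1024 rfl (posOn_of_leaf okI0 leafI0_150)))
    (h₂ := (posOn_smul 1024 2048 1024 rfl (posOn_of_leaf okI0 leafI0_151)))

theorem nodeI0_146 : PosOn (matEx 9 offI0 16 MI0)
    ⟨(20480, 38912, 65536), (24576, 36864, 65536), (24576, 40960, 65536)⟩ :=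
  posOn_node 0 (A := ⟨(20480, 38912, 65536), (22528, 37888, 65536), (24576, 40960, 65536)⟩) (B := ⟨(22528, 37888, 65536), (24576, 36864, 65536), (24576, 40960, 65536)⟩) ⟨by decide +kernel, rfl, rfl⟩
    (h₁ := nodeI0_145)
    (h₂ := (posOn_smul 1024 4096 8192 rfl (posOn_of_leaf okI0 leafI0_152)))

theorem nodeI0_147 : PosOn (matEx 9 offI0 16 MI0)
    ⟨(16384, 40960, 65536), (24576, 36864, 65536), (24576, 40960, 65536)⟩ :=
  posOn_node 0 (A := ⟨(16384, 40960, 65536), (20480, 38912, 65536), (24576, 40960, 65536)⟩) (B := ⟨(20480, 38912, 65536), (24576, 36864, 65536), (24576, 40960, 65536)⟩) ⟨by decide +kernel, rfl, rfl⟩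
    (h₁ := nodeI0_144)
    (h₂ := nodeI0_146)

theorem nodeI0_148 : PosOn (matEx 9 offI0 16 MI0)
    ⟨(32768, 32768, 65536), (24576, 40960, 65536), (16384, 40960, 65536)⟩ :=
  posOn_node 2 (A := ⟨(16384, 40960, 65536), (24576, 36864, 65536), (24576, 40960, 65536)⟩) (B := ⟨(24576, 36864, 65536), (32768, 32768, 65536), (24576, 40960, 65536)⟩) ⟨by decide +kernel, rfl, rfl⟩
    (h₁ := nodeI0_147)
    (h₂ := (posOn_smul 4096 32768 8192 rfl (posOn_of_leaf okI0 leafI0_153)))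

theorem nodeI0_149 : PosOn (matEx 9 offI0 16 MI0)
    ⟨(24576, 40960, 65536), (22528, 43008, 65536), (20480, 40960, 65536)⟩ :=
  posOn_node 2 (A := ⟨(20480, 40960, 65536), (22528, 40960, 65536), (22528, 43008, 65536)⟩) (B := ⟨(22528, 40960, 65536), (24576, 40960, 65536), (22528, 43008, 65536)⟩) ⟨by decide +kernel, rfl, rfl⟩
    (h₁ := (posOn_smul 4096 2048 2048 rfl (posOn_of_leaf okI0 leafI0_155)))
    (h₂ := (posOn_smul 2048 8192 2048 rfl (posOn_of_leaf okI0 leafI0_156)))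

theorem nodeI0_150 : PosOn (matEx 9 offI0 16 MI0)
    ⟨(20480, 40960, 65536), (24576, 40960, 65536), (20480, 45056, 65536)⟩ :=
  posOn_node 1 (A := ⟨(24576, 40960, 65536), (22528, 43008, 65536), (20480, 40960, 65536)⟩) (B := ⟨(22528, 43008, 65536), (20480, 45056, 65536), (20480, 40960, 65536)⟩) ⟨by decide +kernel, rfl, rfl⟩
    (h₁ := nodeI0_149)
    (h₂ := (posOn_smul 2048 4096 4096 rfl (posOn_of_leaf okI0 leafI0_157)))

theorem nodeI0_151 : PosOn (matEx 9 offI0 16 MI0)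
    ⟨(24576, 40960, 65536), (20480, 45056, 65536), (16384, 40960, 65536)⟩ :=
  posOn_node 2 (A := ⟨(16384, 40960, 65536), (20480, 40960, 65536), (20480, 45056, 65536)⟩) (B := ⟨(20480, 40960, 65536), (24576, 40960, 65536), (20480, 45056, 65536)⟩) ⟨by decide +kernel, rfl, rfl⟩
    (h₁ := (posOn_smul 8192 4096 4096 rfl (posOn_of_leaf okI0 leafI0_154)))
    (h₂ := nodeI0_150)

theorem nodeI0_152 : PosOn (matEx 9 offI0 16 MI0)
    ⟨(24576, 40960, 65536), (16384, 49152, 65536), (16384, 40960, 65536)⟩ :=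
  posOn_node 0 (A := ⟨(24576, 40960, 65536), (20480, 45056, 65536), (16384, 40960, 65536)⟩) (B := ⟨(20480, 45056, 65536), (16384, 49152, 65536), (16384, 40960, 65536)⟩) ⟨by decide +kernel, rfl, rfl⟩
    (h₁ := nodeI0_151)
    (h₂ := (posOn_smul 4096 16384 8192 rfl (posOn_of_leaf okI0 leafI0_158)))

theorem nodeI0_153 : PosOn (matEx 9 offI0 16 MI0)
    ⟨(32768, 32768, 65536), (16384, 49152, 65536), (16384, 40960, 65536)⟩ :=
  posOn_node 0 (A := ⟨(32768, 32768, 65536), (24576, 40960, 65536), (16384, 40960, 65536)⟩) (B := ⟨(24576, 40960, 65536), (16384, 49152, 65536), (16384, 40960, 65536)⟩) ⟨by decide +kernel, rfl, rfl⟩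
    (h₁ := nodeI0_148)
    (h₂ := nodeI0_152)

theorem nodeI0_154 : PosOn (matEx 9 offI0 16 MI0)
    ⟨(0, 65536, 65536), (8192, 53248, 65536), (16384, 49152, 65536)⟩ :=
  posOn_node 2 (A := ⟨(16384, 49152, 65536), (8192, 57344, 65536), (8192, 53248, 65536)⟩) (B := ⟨(8192, 57344, 65536), (0, 65536, 65536), (8192, 53248, 65536)⟩) ⟨by decide +kernel, rfl, rfl⟩
    (h₁ := (posOn_smul 16384 8192 4096 rfl (posOn_of_leaf okI0 leafI0_159)))
    (h₂ := (posOn_smul 8192 65536 4096 rfl (posOn_of_leaf okI0 leafI0_160)))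

theorem nodeI0_155 : PosOn (matEx 9 offI0 16 MI0)
    ⟨(16384, 49152, 65536), (0, 65536, 65536), (16384, 40960, 65536)⟩ :=
  posOn_node 1 (A := ⟨(0, 65536, 65536), (8192, 53248, 65536), (16384, 49152, 65536)⟩) (B := ⟨(8192, 53248, 65536), (16384, 40960, 65536), (16384, 49152, 65536)⟩) ⟨by decide +kernel, rfl, rfl⟩
    (h₁ := nodeI0_154)
    (h₂ := (posOn_smul 4096 8192 16384 rfl (posOn_of_leaf okI0 leafI0_161)))

theorem nodeI0_156 : PosOn (matEx 9 offI0 16 MI0)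
    ⟨(0, 65536, 65536), (16384, 40960, 65536), (32768, 32768, 65536)⟩ :=
  posOn_node 2 (A := ⟨(32768, 32768, 65536), (16384, 49152, 65536), (16384, 40960, 65536)⟩) (B := ⟨(16384, 49152, 65536), (0, 65536, 65536), (16384, 40960, 65536)⟩) ⟨by decide +kernel, rfl, rfl⟩
    (h₁ := nodeI0_153)
    (h₂ := nodeI0_155)

theorem nodeI0_157 : PosOn (matEx 9 offI0 16 MI0)
    ⟨(24576, 36864, 65536), (20480, 38912, 65536), (20480, 34816, 65536)⟩ :=
  posOn_node 0 (A := ⟨(24576, 36864, 65536), (22528, 37888, 65536), (20480, 34816, 65536)⟩) (B := ⟨(22528, 37888, 65536), (20480, 38912, 65536), (20480, 34816, 65536)⟩) ⟨by decide +kernel, rfl, rfl⟩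
    (h₁ := (posOn_smul 4096 1024 2048 rfl (posOn_of_leaf okI0 leafI0_163)))
    (h₂ := (posOn_smul 1024 2048 2048 rfl (posOn_of_leaf okI0 leafI0_164)))

theorem nodeI0_158 : PosOn (matEx 9 offI0 16 MI0)
    ⟨(16384, 40960, 65536), (20480, 34816, 65536), (24576, 36864, 65536)⟩ :=
  posOn_node 2 (A := ⟨(24576, 36864, 65536), (20480, 38912, 65536), (20480, 34816, 65536)⟩) (B := ⟨(20480, 38912, 65536), (16384, 40960, 65536), (20480, 34816, 65536)⟩) ⟨by decide +kernel, rfl, rfl⟩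
    (h₁ := nodeI0_157)
    (h₂ := (posOn_smul 2048 8192 2048 rfl (posOn_of_leaf okI0 leafI0_165)))

theorem nodeI0_159 : PosOn (matEx 9 offI0 16 MI0)
    ⟨(24576, 36864, 65536), (16384, 40960, 65536), (24576, 28672, 65536)⟩ :=
  posOn_node 1 (A := ⟨(16384, 40960, 65536), (20480, 34816, 65536), (24576, 36864, 65536)⟩) (B := ⟨(20480, 34816, 65536), (24576, 28672, 65536), (24576, 36864, 65536)⟩) ⟨by decide +kernel, rfl, rfl⟩
    (h₁ := nodeI0_158)
    (h₂ := (posOn_smul 2048 4096 4096 rfl (posOn_of_leaf okI0 leafI0_166)))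

theorem nodeI0_160 : PosOn (matEx 9 offI0 16 MI0)
    ⟨(16384, 40960, 65536), (24576, 28672, 65536), (32768, 32768, 65536)⟩ :=
  posOn_node 2 (A := ⟨(32768, 32768, 65536), (24576, 36864, 65536), (24576, 28672, 65536)⟩) (B := ⟨(24576, 36864, 65536), (16384, 40960, 65536), (24576, 28672, 65536)⟩) ⟨by decide +kernel, rfl, rfl⟩
    (h₁ := (posOn_smul 32768 4096 4096 rfl (posOn_of_leaf okI0 leafI0_162)))
    (h₂ := nodeI0_159)

theorem nodeI0_161 : PosOn (matEx 9 offI0 16 MI0)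
    ⟨(16384, 40960, 65536), (32768, 16384, 65536), (32768, 32768, 65536)⟩ :=
  posOn_node 0 (A := ⟨(16384, 40960, 65536), (24576, 28672, 65536), (32768, 32768, 65536)⟩) (B := ⟨(24576, 28672, 65536), (32768, 16384, 65536), (32768, 32768, 65536)⟩) ⟨by decide +kernel, rfl, rfl⟩
    (h₁ := nodeI0_160)
    (h₂ := (posOn_smul 4096 16384 32768 rfl (posOn_of_leaf okI0 leafI0_167)))

theorem nodeI0_162 : PosOn (matEx 9 offI0 16 MI0)
    ⟨(32768, 32768, 65536), (0, 65536, 65536), (32768, 16384, 65536)⟩ :=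
  posOn_node 1 (A := ⟨(0, 65536, 65536), (16384, 40960, 65536), (32768, 32768, 65536)⟩) (B := ⟨(16384, 40960, 65536), (32768, 16384, 65536), (32768, 32768, 65536)⟩) ⟨by decide +kernel, rfl, rfl⟩
    (h₁ := nodeI0_156)
    (h₂ := nodeI0_161)

theorem nodeI0_163 : PosOn (matEx 9 offI0 16 MI0)
    ⟨(32768, 16384, 65536), (65536, 0, 65536), (0, 65536, 65536)⟩ :=
  posOn_node 1 (A := ⟨(65536, 0, 65536), (32768, 32768, 65536), (32768, 16384, 65536)⟩) (B := ⟨(32768, 32768, 65536), (0, 65536, 65536), (32768, 16384, 65536)⟩) ⟨by decide +kernel, rfl, rfl⟩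
    (h₁ := nodeI0_141)
    (h₂ := nodeI0_162)

theorem nodeI0_164 : PosOn (matEx 9 offI0 16 MI0)
    ⟨(0, 65536, 65536), (0, 32768, 65536), (65536, 0, 65536)⟩ :=
  posOn_node 1 (A := ⟨(0, 32768, 65536), (32768, 16384, 65536), (0, 65536, 65536)⟩) (B := ⟨(32768, 16384, 65536), (65536, 0, 65536), (0, 65536, 65536)⟩) ⟨by decide +kernel, rfl, rfl⟩
    (h₁ := nodeI0_128)
    (h₂ := nodeI0_163)

theorem nodeI0_165 : PosOn (matEx 9 offI0 16 MI0)
    ⟨(32768, 16384, 65536), (24576, 12288, 65536), (16384, 0, 65536)⟩ :=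
  posOn_node 2 (A := ⟨(16384, 0, 65536), (24576, 8192, 65536), (24576, 12288, 65536)⟩) (B := ⟨(24576, 8192, 65536), (32768, 16384, 65536), (24576, 12288, 65536)⟩) ⟨by decide +kernel, rfl, rfl⟩
    (h₁ := (posOn_smul 16384 8192 4096 rfl (posOn_of_leaf okI0 leafI0_168)))
    (h₂ := (posOn_smul 8192 16384 4096 rfl (posOn_of_leaf okI0 leafI0_169)))

theorem nodeI0_166 : PosOn (matEx 9 offI0 16 MI0)
    ⟨(32768, 16384, 65536), (16384, 8192, 65536), (16384, 0, 65536)⟩ :=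
  posOn_node 0 (A := ⟨(32768, 16384, 65536), (24576, 12288, 65536), (16384, 0, 65536)⟩) (B := ⟨(24576, 12288, 65536), (16384, 8192, 65536), (16384, 0, 65536)⟩) ⟨by decide +kernel, rfl, rfl⟩
    (h₁ := nodeI0_165)
    (h₂ := (posOn_smul 4096 8192 16384 rfl (posOn_of_leaf okI0 leafI0_170)))

theorem nodeI0_167 : PosOn (matEx 9 offI0 16 MI0)
    ⟨(4096, 2048, 65536), (6144, 1024, 65536), (8192, 4096, 65536)⟩ :=
  posOn_node 2 (A := ⟨(8192, 4096, 65536), (6144, 3072, 65536), (6144, 1024, 65536)⟩) (B := ⟨(6144, 3072, 65536), (4096, 2048, 65536), (6144, 1024, 65536)⟩) ⟨by decide +kernel, rfl, rfl⟩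
    (h₁ := (posOn_smul 4096 1024 1024 rfl (posOn_of_leaf okI0 leafI0_172)))
    (h₂ := (posOn_smul 1024 2048 1024 rfl (posOn_of_leaf okI0 leafI0_173)))

theorem nodeI0_168 : PosOn (matEx 9 offI0 16 MI0)
    ⟨(8192, 4096, 65536), (4096, 2048, 65536), (8192, 0, 65536)⟩ :=
  posOn_node 1 (A := ⟨(4096, 2048, 65536), (6144, 1024, 65536), (8192, 4096, 65536)⟩) (B := ⟨(6144, 1024, 65536), (8192, 0, 65536), (8192, 4096, 65536)⟩) ⟨by decide +kernel, rfl, rfl⟩
    (h₁ := nodeI0_167)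
    (h₂ := (posOn_smul 1024 8192 4096 rfl (posOn_of_leaf okI0 leafI0_174)))

theorem nodeI0_169 : PosOn (matEx 9 offI0 16 MI0)
    ⟨(8192, 0, 65536), (6144, 1024, 65536), (4096, 0, 65536)⟩ :=
  posOn_node 2 (A := ⟨(4096, 0, 65536), (6144, 0, 65536), (6144, 1024, 65536)⟩) (B := ⟨(6144, 0, 65536), (8192, 0, 65536), (6144, 1024, 65536)⟩) ⟨by decide +kernel, rfl, rfl⟩
    (h₁ := (posOn_smul 4096 2048 1024 rfl (posOn_of_leaf okI0 leafI0_176)))
    (h₂ := (posOn_smul 2048 8192 1024 rfl (posOn_of_leaf okI0 leafI0_177)))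

theorem nodeI0_170 : PosOn (matEx 9 offI0 16 MI0)
    ⟨(4096, 0, 65536), (8192, 0, 65536), (4096, 2048, 65536)⟩ :=
  posOn_node 1 (A := ⟨(8192, 0, 65536), (6144, 1024, 65536), (4096, 0, 65536)⟩) (B := ⟨(6144, 1024, 65536), (4096, 2048, 65536), (4096, 0, 65536)⟩) ⟨by decide +kernel, rfl, rfl⟩
    (h₁ := nodeI0_169)
    (h₂ := (posOn_smul 1024 2048 4096 rfl (posOn_of_leaf okI0 leafI0_178)))

theorem nodeI0_171 : PosOn (matEx 9 offI0 16 MI0)
    ⟨(4096, 2048, 65536), (0, 0, 65536), (8192, 0, 65536)⟩ :=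
  posOn_node 1 (A := ⟨(0, 0, 65536), (4096, 0, 65536), (4096, 2048, 65536)⟩) (B := ⟨(4096, 0, 65536), (8192, 0, 65536), (4096, 2048, 65536)⟩) ⟨by decide +kernel, rfl, rfl⟩
    (h₁ := (posOn_smul 65536 4096 2048 rfl (posOn_of_leaf okI0 leafI0_175)))
    (h₂ := nodeI0_170)

theorem nodeI0_172 : PosOn (matEx 9 offI0 16 MI0)
    ⟨(8192, 4096, 65536), (0, 0, 65536), (8192, 0, 65536)⟩ :=
  posOn_node 0 (A := ⟨(8192, 4096, 65536), (4096, 2048, 65536), (8192, 0, 65536)⟩) (B := ⟨(4096, 2048, 65536), (0, 0, 65536), (8192, 0, 65536)⟩) ⟨by decide +kernel, rfl, rfl⟩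
    (h₁ := nodeI0_168)
    (h₂ := nodeI0_171)

theorem nodeI0_173 : PosOn (matEx 9 offI0 16 MI0)
    ⟨(0, 0, 65536), (8192, 0, 65536), (16384, 8192, 65536)⟩ :=
  posOn_node 2 (A := ⟨(16384, 8192, 65536), (8192, 4096, 65536), (8192, 0, 65536)⟩) (B := ⟨(8192, 4096, 65536), (0, 0, 65536), (8192, 0, 65536)⟩) ⟨by decide +kernel, rfl, rfl⟩
    (h₁ := (posOn_smul 8192 4096 8192 rfl (posOn_of_leaf okI0 leafI0_171)))
    (h₂ := nodeI0_172)

theorem nodeI0_174 : PosOn (matEx 9 offI0 16 MI0)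
    ⟨(14336, 4096, 65536), (12288, 0, 65536), (16384, 0, 65536)⟩ :=
  posOn_node 1 (A := ⟨(12288, 0, 65536), (14336, 0, 65536), (14336, 4096, 65536)⟩) (B := ⟨(14336, 0, 65536), (16384, 0, 65536), (14336, 4096, 65536)⟩) ⟨by decide +kernel, rfl, rfl⟩
    (h₁ := (posOn_smul 4096 2048 2048 rfl (posOn_of_leaf okI0 leafI0_181)))
    (h₂ := (posOn_smul 2048 16384 2048 rfl (posOn_of_leaf okI0 leafI0_182)))

theorem nodeI0_175 : PosOn (matEx 9 offI0 16 MI0)
    ⟨(12288, 0, 65536), (16384, 0, 65536), (16384, 8192, 65536)⟩ :=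
  posOn_node 2 (A := ⟨(16384, 8192, 65536), (14336, 4096, 65536), (16384, 0, 65536)⟩) (B := ⟨(14336, 4096, 65536), (12288, 0, 65536), (16384, 0, 65536)⟩) ⟨by decide +kernel, rfl, rfl⟩
    (h₁ := (posOn_smul 8192 2048 16384 rfl (posOn_of_leaf okI0 leafI0_180)))
    (h₂ := nodeI0_174)

theorem nodeI0_176 : PosOn (matEx 9 offI0 16 MI0)
    ⟨(8192, 0, 65536), (16384, 0, 65536), (16384, 8192, 65536)⟩ :=
  posOn_node 0 (A := ⟨(8192, 0, 65536), (12288, 0, 65536), (16384, 8192, 65536)⟩) (B := ⟨(12288, 0, 65536), (16384, 0, 65536), (16384, 8192, 65536)⟩) ⟨by decide +kernel, rfl, rfl⟩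
    (h₁ := (posOn_smul 8192 4096 8192 rfl (posOn_of_leaf okI0 leafI0_179)))
    (h₂ := nodeI0_175)

theorem nodeI0_177 : PosOn (matEx 9 offI0 16 MI0)
    ⟨(16384, 8192, 65536), (0, 0, 65536), (16384, 0, 65536)⟩ :=
  posOn_node 1 (A := ⟨(0, 0, 65536), (8192, 0, 65536), (16384, 8192, 65536)⟩) (B := ⟨(8192, 0, 65536), (16384, 0, 65536), (16384, 8192, 65536)⟩) ⟨by decide +kernel, rfl, rfl⟩
    (h₁ := nodeI0_173)
    (h₂ := nodeI0_176)

theorem nodeI0_178 : PosOn (matEx 9 offI0 16 MI0)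
    ⟨(0, 0, 65536), (16384, 0, 65536), (32768, 16384, 65536)⟩ :=
  posOn_node 2 (A := ⟨(32768, 16384, 65536), (16384, 8192, 65536), (16384, 0, 65536)⟩) (B := ⟨(16384, 8192, 65536), (0, 0, 65536), (16384, 0, 65536)⟩) ⟨by decide +kernel, rfl, rfl⟩
    (h₁ := nodeI0_166)
    (h₂ := nodeI0_177)

theorem nodeI0_179 : PosOn (matEx 9 offI0 16 MI0)
    ⟨(16384, 0, 65536), (24576, 0, 65536), (32768, 16384, 65536)⟩ :=
  posOn_node 2 (A := ⟨(32768, 16384, 65536), (24576, 8192, 65536), (24576, 0, 65536)⟩) (B := ⟨(24576, 8192, 65536), (16384, 0, 65536), (24576, 0, 65536)⟩) ⟨by decide +kernel, rfl, rfl⟩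
    (h₁ := (posOn_smul 16384 8192 8192 rfl (posOn_of_leaf okI0 leafI0_183)))
    (h₂ := (posOn_smul 8192 16384 8192 rfl (posOn_of_leaf okI0 leafI0_184)))

theorem nodeI0_180 : PosOn (matEx 9 offI0 16 MI0)
    ⟨(16384, 0, 65536), (32768, 0, 65536), (32768, 16384, 65536)⟩ :=
  posOn_node 0 (A := ⟨(16384, 0, 65536), (24576, 0, 65536), (32768, 16384, 65536)⟩) (B := ⟨(24576, 0, 65536), (32768, 0, 65536), (32768, 16384, 65536)⟩) ⟨by decide +kernel, rfl, rfl⟩
    (h₁ := nodeI0_179)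
    (h₂ := (posOn_smul 8192 32768 16384 rfl (posOn_of_leaf okI0 leafI0_185)))

theorem nodeI0_181 : PosOn (matEx 9 offI0 16 MI0)
    ⟨(0, 0, 65536), (32768, 0, 65536), (32768, 16384, 65536)⟩ :=
  posOn_node 0 (A := ⟨(0, 0, 65536), (16384, 0, 65536), (32768, 16384, 65536)⟩) (B := ⟨(16384, 0, 65536), (32768, 0, 65536), (32768, 16384, 65536)⟩) ⟨by decide +kernel, rfl, rfl⟩
    (h₁ := nodeI0_178)
    (h₂ := nodeI0_180)

theorem nodeI0_182 : PosOn (matEx 9 offI0 16 MI0)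
    ⟨(36864, 2048, 65536), (32768, 0, 65536), (40960, 0, 65536)⟩ :=
  posOn_node 1 (A := ⟨(32768, 0, 65536), (36864, 0, 65536), (36864, 2048, 65536)⟩) (B := ⟨(36864, 0, 65536), (40960, 0, 65536), (36864, 2048, 65536)⟩) ⟨by decide +kernel, rfl, rfl⟩
    (h₁ := (posOn_smul 32768 4096 2048 rfl (posOn_of_leaf okI0 leafI0_188)))
    (h₂ := (posOn_smul 4096 8192 2048 rfl (posOn_of_leaf okI0 leafI0_189)))

theorem nodeI0_183 : PosOn (matEx 9 offI0 16 MI0)
    ⟨(32768, 0, 65536), (40960, 0, 65536), (40960, 4096, 65536)⟩ :=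
  posOn_node 2 (A := ⟨(40960, 4096, 65536), (36864, 2048, 65536), (40960, 0, 65536)⟩) (B := ⟨(36864, 2048, 65536), (32768, 0, 65536), (40960, 0, 65536)⟩) ⟨by decide +kernel, rfl, rfl⟩
    (h₁ := (posOn_smul 4096 2048 8192 rfl (posOn_of_leaf okI0 leafI0_187)))
    (h₂ := nodeI0_182)

theorem nodeI0_184 : PosOn (matEx 9 offI0 16 MI0)
    ⟨(40960, 4096, 65536), (32768, 0, 65536), (49152, 0, 65536)⟩ :=
  posOn_node 1 (A := ⟨(32768, 0, 65536), (40960, 0, 65536), (40960, 4096, 65536)⟩) (B := ⟨(40960, 0, 65536), (49152, 0, 65536), (40960, 4096, 65536)⟩) ⟨by decide +kernel, rfl, rfl⟩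
    (h₁ := nodeI0_183)
    (h₂ := (posOn_smul 8192 16384 4096 rfl (posOn_of_leaf okI0 leafI0_190)))

theorem nodeI0_185 : PosOn (matEx 9 offI0 16 MI0)
    ⟨(32768, 0, 65536), (49152, 0, 65536), (49152, 8192, 65536)⟩ :=
  posOn_node 2 (A := ⟨(49152, 8192, 65536), (40960, 4096, 65536), (49152, 0, 65536)⟩) (B := ⟨(40960, 4096, 65536), (32768, 0, 65536), (49152, 0, 65536)⟩) ⟨by decide +kernel, rfl, rfl⟩
    (h₁ := (posOn_smul 8192 4096 16384 rfl (posOn_of_leaf okI0 leafI0_186)))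
    (h₂ := nodeI0_184)

theorem nodeI0_186 : PosOn (matEx 9 offI0 16 MI0)
    ⟨(49152, 0, 65536), (53248, 0, 65536), (57344, 4096, 65536)⟩ :=
  posOn_node 2 (A := ⟨(57344, 4096, 65536), (53248, 2048, 65536), (53248, 0, 65536)⟩) (B := ⟨(53248, 2048, 65536), (49152, 0, 65536), (53248, 0, 65536)⟩) ⟨by decide +kernel, rfl, rfl⟩
    (h₁ := (posOn_smul 4096 2048 4096 rfl (posOn_of_leaf okI0 leafI0_191)))
    (h₂ := (posOn_smul 2048 16384 4096 rfl (posOn_of_leaf okI0 leafI0_192)))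

theorem nodeI0_187 : PosOn (matEx 9 offI0 16 MI0)
    ⟨(49152, 0, 65536), (57344, 0, 65536), (57344, 4096, 65536)⟩ :=
  posOn_node 0 (A := ⟨(49152, 0, 65536), (53248, 0, 65536), (57344, 4096, 65536)⟩) (B := ⟨(53248, 0, 65536), (57344, 0, 65536), (57344, 4096, 65536)⟩) ⟨by decide +kernel, rfl, rfl⟩
    (h₁ := nodeI0_186)
    (h₂ := (posOn_smul 4096 8192 4096 rfl (posOn_of_leaf okI0 leafI0_193)))

theorem nodeI0_188 : PosOn (matEx 9 offI0 16 MI0)
    ⟨(65536, 0, 65536), (57344, 4096, 65536), (49152, 0, 65536)⟩ :=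
  posOn_node 2 (A := ⟨(49152, 0, 65536), (57344, 0, 65536), (57344, 4096, 65536)⟩) (B := ⟨(57344, 0, 65536), (65536, 0, 65536), (57344, 4096, 65536)⟩) ⟨by decide +kernel, rfl, rfl⟩
    (h₁ := nodeI0_187)
    (h₂ := (posOn_smul 8192 65536 4096 rfl (posOn_of_leaf okI0 leafI0_194)))

theorem nodeI0_189 : PosOn (matEx 9 offI0 16 MI0)
    ⟨(57344, 4096, 65536), (49152, 8192, 65536), (49152, 0, 65536)⟩ :=
  posOn_node 2 (A := ⟨(49152, 0, 65536), (53248, 2048, 65536), (49152, 8192, 65536)⟩) (B := ⟨(53248, 2048, 65536), (57344, 4096, 65536), (49152, 8192, 65536)⟩) ⟨by decide +kernel, rfl, rfl⟩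
    (h₁ := (posOn_smul 16384 2048 8192 rfl (posOn_of_leaf okI0 leafI0_195)))
    (h₂ := (posOn_smul 2048 4096 8192 rfl (posOn_of_leaf okI0 leafI0_196)))

theorem nodeI0_190 : PosOn (matEx 9 offI0 16 MI0)
    ⟨(49152, 0, 65536), (65536, 0, 65536), (49152, 8192, 65536)⟩ :=
  posOn_node 1 (A := ⟨(65536, 0, 65536), (57344, 4096, 65536), (49152, 0, 65536)⟩) (B := ⟨(57344, 4096, 65536), (49152, 8192, 65536), (49152, 0, 65536)⟩) ⟨by decide +kernel, rfl, rfl⟩
    (h₁ := nodeI0_188)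
    (h₂ := nodeI0_189)

theorem nodeI0_191 : PosOn (matEx 9 offI0 16 MI0)
    ⟨(65536, 0, 65536), (49152, 8192, 65536), (32768, 0, 65536)⟩ :=
  posOn_node 2 (A := ⟨(32768, 0, 65536), (49152, 0, 65536), (49152, 8192, 65536)⟩) (B := ⟨(49152, 0, 65536), (65536, 0, 65536), (49152, 8192, 65536)⟩) ⟨by decide +kernel, rfl, rfl⟩
    (h₁ := nodeI0_185)
    (h₂ := nodeI0_190)

theorem nodeI0_192 : PosOn (matEx 9 offI0 16 MI0)
    ⟨(32768, 0, 65536), (36864, 2048, 65536), (40960, 12288, 65536)⟩ :=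
  posOn_node 2 (A := ⟨(40960, 12288, 65536), (36864, 6144, 65536), (36864, 2048, 65536)⟩) (B := ⟨(36864, 6144, 65536), (32768, 0, 65536), (36864, 2048, 65536)⟩) ⟨by decide +kernel, rfl, rfl⟩
    (h₁ := (posOn_smul 4096 2048 2048 rfl (posOn_of_leaf okI0 leafI0_197)))
    (h₂ := (posOn_smul 2048 32768 2048 rfl (posOn_of_leaf okI0 leafI0_198)))

theorem nodeI0_193 : PosOn (matEx 9 offI0 16 MI0)
    ⟨(32768, 0, 65536), (40960, 4096, 65536), (40960, 12288, 65536)⟩ :=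
  posOn_node 0 (A := ⟨(32768, 0, 65536), (36864, 2048, 65536), (40960, 12288, 65536)⟩) (B := ⟨(36864, 2048, 65536), (40960, 4096, 65536), (40960, 12288, 65536)⟩) ⟨by decide +kernel, rfl, rfl⟩
    (h₁ := nodeI0_192)
    (h₂ := (posOn_smul 2048 4096 4096 rfl (posOn_of_leaf okI0 leafI0_199)))

theorem nodeI0_194 : PosOn (matEx 9 offI0 16 MI0)
    ⟨(49152, 8192, 65536), (40960, 12288, 65536), (32768, 0, 65536)⟩ :=
  posOn_node 2 (A := ⟨(32768, 0, 65536), (40960, 4096, 65536), (40960, 12288, 65536)⟩) (B := ⟨(40960, 4096, 65536), (49152, 8192, 65536), (40960, 12288, 65536)⟩) ⟨by decide +kernel, rfl, rfl⟩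
    (h₁ := nodeI0_193)
    (h₂ := (posOn_smul 4096 8192 4096 rfl (posOn_of_leaf okI0 leafI0_200)))

theorem nodeI0_195 : PosOn (matEx 9 offI0 16 MI0)
    ⟨(40960, 12288, 65536), (32768, 16384, 65536), (32768, 0, 65536)⟩ :=
  posOn_node 2 (A := ⟨(32768, 0, 65536), (36864, 6144, 65536), (32768, 16384, 65536)⟩) (B := ⟨(36864, 6144, 65536), (40960, 12288, 65536), (32768, 16384, 65536)⟩) ⟨by decide +kernel, rfl, rfl⟩
    (h₁ := (posOn_smul 32768 2048 16384 rfl (posOn_of_leaf okI0 leafI0_201)))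
    (h₂ := (posOn_smul 2048 4096 16384 rfl (posOn_of_leaf okI0 leafI0_202)))

theorem nodeI0_196 : PosOn (matEx 9 offI0 16 MI0)
    ⟨(49152, 8192, 65536), (32768, 16384, 65536), (32768, 0, 65536)⟩ :=
  posOn_node 0 (A := ⟨(49152, 8192, 65536), (40960, 12288, 65536), (32768, 0, 65536)⟩) (B := ⟨(40960, 12288, 65536), (32768, 16384, 65536), (32768, 0, 65536)⟩) ⟨by decide +kernel, rfl, rfl⟩
    (h₁ := nodeI0_194)
    (h₂ := nodeI0_195)

theorem nodeI0_197 : PosOn (matEx 9 offI0 16 MI0)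
    ⟨(32768, 0, 65536), (65536, 0, 65536), (32768, 16384, 65536)⟩ :=
  posOn_node 1 (A := ⟨(65536, 0, 65536), (49152, 8192, 65536), (32768, 0, 65536)⟩) (B := ⟨(49152, 8192, 65536), (32768, 16384, 65536), (32768, 0, 65536)⟩) ⟨by decide +kernel, rfl, rfl⟩
    (h₁ := nodeI0_191)
    (h₂ := nodeI0_196)

theorem nodeI0_198 : PosOn (matEx 9 offI0 16 MI0)
    ⟨(65536, 0, 65536), (32768, 16384, 65536), (0, 0, 65536)⟩ :=
  posOn_node 2 (A := ⟨(0, 0, 65536), (32768, 0, 65536), (32768, 16384, 65536)⟩) (B := ⟨(32768, 0, 65536), (65536, 0, 65536), (32768, 16384, 65536)⟩) ⟨by decide +kernel, rfl, rfl⟩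
    (h₁ := nodeI0_181)
    (h₂ := nodeI0_197)

theorem nodeI0_199 : PosOn (matEx 9 offI0 16 MI0)
    ⟨(6144, 15360, 65536), (7168, 9728, 65536), (8192, 20480, 65536)⟩ :=
  posOn_node 1 (A := ⟨(7168, 9728, 65536), (7680, 15104, 65536), (6144, 15360, 65536)⟩) (B := ⟨(7680, 15104, 65536), (8192, 20480, 65536), (6144, 15360, 65536)⟩) ⟨by decide +kernel, rfl, rfl⟩
    (h₁ := (posOn_smul 512 256 1024 rfl (posOn_of_leaf okI0 leafI0_203)))
    (h₂ := (posOn_smul 256 4096 1024 rfl (posOn_of_leaf okI0 leafI0_204)))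

theorem nodeI0_200 : PosOn (matEx 9 offI0 16 MI0)
    ⟨(8192, 20480, 65536), (6144, 15360, 65536), (8192, 4096, 65536)⟩ :=
  posOn_node 1 (A := ⟨(6144, 15360, 65536), (7168, 9728, 65536), (8192, 20480, 65536)⟩) (B := ⟨(7168, 9728, 65536), (8192, 4096, 65536), (8192, 20480, 65536)⟩) ⟨by decide +kernel, rfl, rfl⟩
    (h₁ := nodeI0_199)
    (h₂ := (posOn_smul 512 4096 4096 rfl (posOn_of_leaf okI0 leafI0_205)))

theorem nodeI0_201 : PosOn (matEx 9 offI0 16 MI0)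
    ⟨(6144, 7168, 65536), (8192, 4096, 65536), (6144, 15360, 65536)⟩ :=
  posOn_node 1 (A := ⟨(8192, 4096, 65536), (7168, 9728, 65536), (6144, 7168, 65536)⟩) (B := ⟨(7168, 9728, 65536), (6144, 15360, 65536), (6144, 7168, 65536)⟩) ⟨by decide +kernel, rfl, rfl⟩
    (h₁ := (posOn_smul 4096 512 1024 rfl (posOn_of_leaf okI0 leafI0_207)))
    (h₂ := (posOn_smul 512 1024 1024 rfl (posOn_of_leaf okI0 leafI0_208)))

theorem nodeI0_202 : PosOn (matEx 9 offI0 16 MI0)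
    ⟨(6144, 15360, 65536), (4096, 10240, 65536), (8192, 4096, 65536)⟩ :=
  posOn_node 1 (A := ⟨(4096, 10240, 65536), (6144, 7168, 65536), (6144, 15360, 65536)⟩) (B := ⟨(6144, 7168, 65536), (8192, 4096, 65536), (6144, 15360, 65536)⟩) ⟨by decide +kernel, rfl, rfl⟩
    (h₁ := (posOn_smul 2048 1024 1024 rfl (posOn_of_leaf okI0 leafI0_206)))
    (h₂ := nodeI0_201)

theorem nodeI0_203 : PosOn (matEx 9 offI0 16 MI0)
    ⟨(8192, 20480, 65536), (4096, 10240, 65536), (8192, 4096, 65536)⟩ :=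
  posOn_node 0 (A := ⟨(8192, 20480, 65536), (6144, 15360, 65536), (8192, 4096, 65536)⟩) (B := ⟨(6144, 15360, 65536), (4096, 10240, 65536), (8192, 4096, 65536)⟩) ⟨by decide +kernel, rfl, rfl⟩
    (h₁ := nodeI0_200)
    (h₂ := nodeI0_202)

theorem nodeI0_204 : PosOn (matEx 9 offI0 16 MI0)
    ⟨(8192, 4096, 65536), (6144, 7168, 65536), (4096, 2048, 65536)⟩ :=
  posOn_node 2 (A := ⟨(4096, 2048, 65536), (6144, 3072, 65536), (6144, 7168, 65536)⟩) (B := ⟨(6144, 3072, 65536), (8192, 4096, 65536), (6144, 7168, 65536)⟩) ⟨by decide +kernel, rfl, rfl⟩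
    (h₁ := (posOn_smul 2048 1024 1024 rfl (posOn_of_leaf okI0 leafI0_210)))
    (h₂ := (posOn_smul 1024 4096 1024 rfl (posOn_of_leaf okI0 leafI0_211)))

theorem nodeI0_205 : PosOn (matEx 9 offI0 16 MI0)
    ⟨(4096, 2048, 65536), (8192, 4096, 65536), (4096, 10240, 65536)⟩ :=
  posOn_node 1 (A := ⟨(8192, 4096, 65536), (6144, 7168, 65536), (4096, 2048, 65536)⟩) (B := ⟨(6144, 7168, 65536), (4096, 10240, 65536), (4096, 2048, 65536)⟩) ⟨by decide +kernel, rfl, rfl⟩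
    (h₁ := nodeI0_204)
    (h₂ := (posOn_smul 1024 2048 2048 rfl (posOn_of_leaf okI0 leafI0_212)))

theorem nodeI0_206 : PosOn (matEx 9 offI0 16 MI0)
    ⟨(4096, 10240, 65536), (0, 0, 65536), (8192, 4096, 65536)⟩ :=
  posOn_node 1 (A := ⟨(0, 0, 65536), (4096, 2048, 65536), (4096, 10240, 65536)⟩) (B := ⟨(4096, 2048, 65536), (8192, 4096, 65536), (4096, 10240, 65536)⟩) ⟨by decide +kernel, rfl, rfl⟩
    (h₁ := (posOn_smul 65536 2048 2048 rfl (posOn_of_leaf okI0 leafI0_209)))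
    (h₂ := nodeI0_205)

theorem nodeI0_207 : PosOn (matEx 9 offI0 16 MI0)
    ⟨(0, 0, 65536), (8192, 4096, 65536), (8192, 20480, 65536)⟩ :=
  posOn_node 2 (A := ⟨(8192, 20480, 65536), (4096, 10240, 65536), (8192, 4096, 65536)⟩) (B := ⟨(4096, 10240, 65536), (0, 0, 65536), (8192, 4096, 65536)⟩) ⟨by decide +kernel, rfl, rfl⟩
    (h₁ := nodeI0_203)
    (h₂ := nodeI0_206)

theorem nodeI0_208 : PosOn (matEx 9 offI0 16 MI0)
    ⟨(16384, 8192, 65536), (8192, 20480, 65536), (0, 0, 65536)⟩ :=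
  posOn_node 2 (A := ⟨(0, 0, 65536), (8192, 4096, 65536), (8192, 20480, 65536)⟩) (B := ⟨(8192, 4096, 65536), (16384, 8192, 65536), (8192, 20480, 65536)⟩) ⟨by decide +kernel, rfl, rfl⟩
    (h₁ := nodeI0_207)
    (h₂ := (posOn_smul 4096 8192 4096 rfl (posOn_of_leaf okI0 leafI0_213)))

theorem nodeI0_209 : PosOn (matEx 9 offI0 16 MI0)
    ⟨(0, 0, 65536), (4096, 10240, 65536), (0, 32768, 65536)⟩ :=
  posOn_node 2 (A := ⟨(0, 32768, 65536), (0, 16384, 65536), (4096, 10240, 65536)⟩) (B := ⟨(0, 16384, 65536), (0, 0, 65536), (4096, 10240, 65536)⟩) ⟨by decide +kernel, rfl, rfl⟩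
    (h₁ := (posOn_smul 32768 16384 2048 rfl (posOn_of_leaf okI0 leafI0_214)))
    (h₂ := (posOn_smul 16384 65536 2048 rfl (posOn_of_leaf okI0 leafI0_215)))

theorem nodeI0_210 : PosOn (matEx 9 offI0 16 MI0)
    ⟨(2048, 21504, 65536), (4096, 10240, 65536), (8192, 20480, 65536)⟩ :=
  posOn_node 1 (A := ⟨(4096, 10240, 65536), (6144, 15360, 65536), (2048, 21504, 65536)⟩) (B := ⟨(6144, 15360, 65536), (8192, 20480, 65536), (2048, 21504, 65536)⟩) ⟨by decide +kernel, rfl, rfl⟩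
    (h₁ := (posOn_smul 2048 1024 1024 rfl (posOn_of_leaf okI0 leafI0_217)))
    (h₂ := (posOn_smul 1024 4096 1024 rfl (posOn_of_leaf okI0 leafI0_218)))

theorem nodeI0_211 : PosOn (matEx 9 offI0 16 MI0)
    ⟨(4096, 10240, 65536), (8192, 20480, 65536), (0, 32768, 65536)⟩ :=
  posOn_node 2 (A := ⟨(0, 32768, 65536), (2048, 21504, 65536), (8192, 20480, 65536)⟩) (B := ⟨(2048, 21504, 65536), (4096, 10240, 65536), (8192, 20480, 65536)⟩) ⟨by decide +kernel, rfl, rfl⟩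
    (h₁ := (posOn_smul 32768 1024 4096 rfl (posOn_of_leaf okI0 leafI0_216)))
    (h₂ := nodeI0_210)

theorem nodeI0_212 : PosOn (matEx 9 offI0 16 MI0)
    ⟨(8192, 20480, 65536), (0, 32768, 65536), (0, 0, 65536)⟩ :=
  posOn_node 2 (A := ⟨(0, 0, 65536), (4096, 10240, 65536), (0, 32768, 65536)⟩) (B := ⟨(4096, 10240, 65536), (8192, 20480, 65536), (0, 32768, 65536)⟩) ⟨by decide +kernel, rfl, rfl⟩
    (h₁ := nodeI0_209)
    (h₂ := nodeI0_211)

theorem nodeI0_213 : PosOn (matEx 9 offI0 16 MI0)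
    ⟨(0, 0, 65536), (16384, 8192, 65536), (0, 32768, 65536)⟩ :=
  posOn_node 1 (A := ⟨(16384, 8192, 65536), (8192, 20480, 65536), (0, 0, 65536)⟩) (B := ⟨(8192, 20480, 65536), (0, 32768, 65536), (0, 0, 65536)⟩) ⟨by decide +kernel, rfl, rfl⟩
    (h₁ := nodeI0_208)
    (h₂ := nodeI0_212)

theorem nodeI0_214 : PosOn (matEx 9 offI0 16 MI0)
    ⟨(32768, 16384, 65536), (24576, 20480, 65536), (16384, 8192, 65536)⟩ :=
  posOn_node 2 (A := ⟨(16384, 8192, 65536), (24576, 12288, 65536), (24576, 20480, 65536)⟩) (B := ⟨(24576, 12288, 65536), (32768, 16384, 65536), (24576, 20480, 65536)⟩) ⟨by decide +kernel, rfl, rfl⟩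
    (h₁ := (posOn_smul 8192 4096 4096 rfl (posOn_of_leaf okI0 leafI0_219)))
    (h₂ := (posOn_smul 4096 16384 4096 rfl (posOn_of_leaf okI0 leafI0_220)))

theorem nodeI0_215 : PosOn (matEx 9 offI0 16 MI0)
    ⟨(32768, 16384, 65536), (16384, 24576, 65536), (16384, 8192, 65536)⟩ :=
  posOn_node 0 (A := ⟨(32768, 16384, 65536), (24576, 20480, 65536), (16384, 8192, 65536)⟩) (B := ⟨(24576, 20480, 65536), (16384, 24576, 65536), (16384, 8192, 65536)⟩) ⟨by decide +kernel, rfl, rfl⟩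
    (h₁ := nodeI0_214)
    (h₂ := (posOn_smul 4096 8192 8192 rfl (posOn_of_leaf okI0 leafI0_221)))

theorem nodeI0_216 : PosOn (matEx 9 offI0 16 MI0)
    ⟨(12288, 22528, 65536), (16384, 24576, 65536), (8192, 28672, 65536)⟩ :=
  posOn_node 1 (A := ⟨(16384, 24576, 65536), (12288, 26624, 65536), (12288, 22528, 65536)⟩) (B := ⟨(12288, 26624, 65536), (8192, 28672, 65536), (12288, 22528, 65536)⟩) ⟨by decide +kernel, rfl, rfl⟩
    (h₁ := (posOn_smul 8192 2048 2048 rfl (posOn_of_leaf okI0 leafI0_223)))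
    (h₂ := (posOn_smul 2048 4096 2048 rfl (posOn_of_leaf okI0 leafI0_224)))

theorem nodeI0_217 : PosOn (matEx 9 offI0 16 MI0)
    ⟨(16384, 24576, 65536), (8192, 28672, 65536), (8192, 20480, 65536)⟩ :=
  posOn_node 2 (A := ⟨(8192, 20480, 65536), (12288, 22528, 65536), (8192, 28672, 65536)⟩) (B := ⟨(12288, 22528, 65536), (16384, 24576, 65536), (8192, 28672, 65536)⟩) ⟨by decide +kernel, rfl, rfl⟩
    (h₁ := (posOn_smul 4096 2048 4096 rfl (posOn_of_leaf okI0 leafI0_222)))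
    (h₂ := nodeI0_216)

theorem nodeI0_218 : PosOn (matEx 9 offI0 16 MI0)
    ⟨(0, 32768, 65536), (8192, 20480, 65536), (16384, 24576, 65536)⟩ :=
  posOn_node 2 (A := ⟨(16384, 24576, 65536), (8192, 28672, 65536), (8192, 20480, 65536)⟩) (B := ⟨(8192, 28672, 65536), (0, 32768, 65536), (8192, 20480, 65536)⟩) ⟨by decide +kernel, rfl, rfl⟩
    (h₁ := nodeI0_217)
    (h₂ := (posOn_smul 4096 32768 4096 rfl (posOn_of_leaf okI0 leafI0_225)))

theorem nodeI0_219 : PosOn (matEx 9 offI0 16 MI0)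
    ⟨(8192, 20480, 65536), (12288, 14336, 65536), (16384, 24576, 65536)⟩ :=
  posOn_node 2 (A := ⟨(16384, 24576, 65536), (12288, 22528, 65536), (12288, 14336, 65536)⟩) (B := ⟨(12288, 22528, 65536), (8192, 20480, 65536), (12288, 14336, 65536)⟩) ⟨by decide +kernel, rfl, rfl⟩
    (h₁ := (posOn_smul 8192 2048 2048 rfl (posOn_of_leaf okI0 leafI0_226)))
    (h₂ := (posOn_smul 2048 4096 2048 rfl (posOn_of_leaf okI0 leafI0_227)))

theorem nodeI0_220 : PosOn (matEx 9 offI0 16 MI0)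
    ⟨(8192, 20480, 65536), (16384, 8192, 65536), (16384, 24576, 65536)⟩ :=
  posOn_node 0 (A := ⟨(8192, 20480, 65536), (12288, 14336, 65536), (16384, 24576, 65536)⟩) (B := ⟨(12288, 14336, 65536), (16384, 8192, 65536), (16384, 24576, 65536)⟩) ⟨by decide +kernel, rfl, rfl⟩
    (h₁ := nodeI0_219)
    (h₂ := (posOn_smul 2048 8192 8192 rfl (posOn_of_leaf okI0 leafI0_228)))

theorem nodeI0_221 : PosOn (matEx 9 offI0 16 MI0)
    ⟨(16384, 24576, 65536), (0, 32768, 65536), (16384, 8192, 65536)⟩ :=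
  posOn_node 1 (A := ⟨(0, 32768, 65536), (8192, 20480, 65536), (16384, 24576, 65536)⟩) (B := ⟨(8192, 20480, 65536), (16384, 8192, 65536), (16384, 24576, 65536)⟩) ⟨by decide +kernel, rfl, rfl⟩
    (h₁ := nodeI0_218)
    (h₂ := nodeI0_220)

theorem nodeI0_222 : PosOn (matEx 9 offI0 16 MI0)
    ⟨(16384, 8192, 65536), (32768, 16384, 65536), (0, 32768, 65536)⟩ :=
  posOn_node 1 (A := ⟨(32768, 16384, 65536), (16384, 24576, 65536), (16384, 8192, 65536)⟩) (B := ⟨(16384, 24576, 65536), (0, 32768, 65536), (16384, 8192, 65536)⟩) ⟨by decide +kernel, rfl, rfl⟩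
    (h₁ := nodeI0_215)
    (h₂ := nodeI0_221)

theorem nodeI0_223 : PosOn (matEx 9 offI0 16 MI0)
    ⟨(32768, 16384, 65536), (0, 32768, 65536), (0, 0, 65536)⟩ :=
  posOn_node 2 (A := ⟨(0, 0, 65536), (16384, 8192, 65536), (0, 32768, 65536)⟩) (B := ⟨(16384, 8192, 65536), (32768, 16384, 65536), (0, 32768, 65536)⟩) ⟨by decide +kernel, rfl, rfl⟩
    (h₁ := nodeI0_213)
    (h₂ := nodeI0_222)

theorem nodeI0_224 : PosOn (matEx 9 offI0 16 MI0)
    ⟨(0, 32768, 65536), (0, 0, 65536), (65536, 0, 65536)⟩ :=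
  posOn_node 2 (A := ⟨(65536, 0, 65536), (32768, 16384, 65536), (0, 0, 65536)⟩) (B := ⟨(32768, 16384, 65536), (0, 32768, 65536), (0, 0, 65536)⟩) ⟨by decide +kernel, rfl, rfl⟩
    (h₁ := nodeI0_198)
    (h₂ := nodeI0_223)

theorem nodeI0_225 : PosOn (matEx 9 offI0 16 MI0)
    ⟨(0, 0, 65536), (65536, 0, 65536), (0, 65536, 65536)⟩ :=
  posOn_node 2 (A := ⟨(0, 65536, 65536), (0, 32768, 65536), (65536, 0, 65536)⟩) (B := ⟨(0, 32768, 65536), (0, 0, 65536), (65536, 0, 65536)⟩) ⟨by decide +kernel, rfl, rfl⟩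
    (h₁ := nodeI0_164)
    (h₂ := nodeI0_224)

theorem nodeI0_226 : PosOn (matEx 9 offI0 16 MI0)
    ⟨(49152, 49152, 65536), (36864, 53248, 65536), (32768, 32768, 65536)⟩ :=
  posOn_node 1 (A := ⟨(36864, 53248, 65536), (34816, 43008, 65536), (49152, 49152, 65536)⟩) (B := ⟨(34816, 43008, 65536), (32768, 32768, 65536), (49152, 49152, 65536)⟩) ⟨by decide +kernel, rfl, rfl⟩
    (h₁ := (posOn_smul 4096 2048 16384 rfl (posOn_of_leaf okI0 leafI0_229)))
    (h₂ := (posOn_smul 2048 32768 16384 rfl (posOn_of_leaf okI0 leafI0_230)))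

theorem nodeI0_227 : PosOn (matEx 9 offI0 16 MI0)
    ⟨(24576, 57344, 65536), (28672, 45056, 65536), (36864, 53248, 65536)⟩ :=
  posOn_node 2 (A := ⟨(36864, 53248, 65536), (30720, 55296, 65536), (28672, 45056, 65536)⟩) (B := ⟨(30720, 55296, 65536), (24576, 57344, 65536), (28672, 45056, 65536)⟩) ⟨by decide +kernel, rfl, rfl⟩
    (h₁ := (posOn_smul 4096 2048 4096 rfl (posOn_of_leaf okI0 leafI0_231)))
    (h₂ := (posOn_smul 2048 8192 4096 rfl (posOn_of_leaf okI0 leafI0_232)))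

theorem nodeI0_228 : PosOn (matEx 9 offI0 16 MI0)
    ⟨(32768, 32768, 65536), (34816, 43008, 65536), (28672, 45056, 65536)⟩ :=
  posOn_node 2 (A := ⟨(28672, 45056, 65536), (30720, 38912, 65536), (34816, 43008, 65536)⟩) (B := ⟨(30720, 38912, 65536), (32768, 32768, 65536), (34816, 43008, 65536)⟩) ⟨by decide +kernel, rfl, rfl⟩
    (h₁ := (posOn_smul 4096 2048 2048 rfl (posOn_of_leaf okI0 leafI0_233)))
    (h₂ := (posOn_smul 2048 32768 2048 rfl (posOn_of_leaf okI0 leafI0_234)))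

theorem nodeI0_229 : PosOn (matEx 9 offI0 16 MI0)
    ⟨(28672, 45056, 65536), (32768, 32768, 65536), (36864, 53248, 65536)⟩ :=
  posOn_node 1 (A := ⟨(32768, 32768, 65536), (34816, 43008, 65536), (28672, 45056, 65536)⟩) (B := ⟨(34816, 43008, 65536), (36864, 53248, 65536), (28672, 45056, 65536)⟩) ⟨by decide +kernel, rfl, rfl⟩
    (h₁ := nodeI0_228)
    (h₂ := (posOn_smul 2048 4096 4096 rfl (posOn_of_leaf okI0 leafI0_235)))

theorem nodeI0_230 : PosOn (matEx 9 offI0 16 MI0)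
    ⟨(36864, 53248, 65536), (24576, 57344, 65536), (32768, 32768, 65536)⟩ :=
  posOn_node 1 (A := ⟨(24576, 57344, 65536), (28672, 45056, 65536), (36864, 53248, 65536)⟩) (B := ⟨(28672, 45056, 65536), (32768, 32768, 65536), (36864, 53248, 65536)⟩) ⟨by decide +kernel, rfl, rfl⟩
    (h₁ := nodeI0_227)
    (h₂ := nodeI0_229)

theorem nodeI0_231 : PosOn (matEx 9 offI0 16 MI0)
    ⟨(49152, 49152, 65536), (24576, 57344, 65536), (32768, 32768, 65536)⟩ :=
  posOn_node 0 (A := ⟨(49152, 49152, 65536), (36864, 53248, 65536), (32768, 32768, 65536)⟩) (B := ⟨(36864, 53248, 65536), (24576, 57344, 65536), (32768, 32768, 65536)⟩) ⟨by decide +kernel, rfl, rfl⟩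
    (h₁ := nodeI0_226)
    (h₂ := nodeI0_230)

theorem nodeI0_232 : PosOn (matEx 9 offI0 16 MI0)
    ⟨(12288, 61440, 65536), (0, 65536, 65536), (16384, 49152, 65536)⟩ :=
  posOn_node 1 (A := ⟨(0, 65536, 65536), (8192, 57344, 65536), (12288, 61440, 65536)⟩) (B := ⟨(8192, 57344, 65536), (16384, 49152, 65536), (12288, 61440, 65536)⟩) ⟨by decide +kernel, rfl, rfl⟩
    (h₁ := (posOn_smul 65536 8192 4096 rfl (posOn_of_leaf okI0 leafI0_237)))
    (h₂ := (posOn_smul 8192 16384 4096 rfl (posOn_of_leaf okI0 leafI0_238)))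

theorem nodeI0_233 : PosOn (matEx 9 offI0 16 MI0)
    ⟨(0, 65536, 65536), (16384, 49152, 65536), (24576, 57344, 65536)⟩ :=
  posOn_node 2 (A := ⟨(24576, 57344, 65536), (12288, 61440, 65536), (16384, 49152, 65536)⟩) (B := ⟨(12288, 61440, 65536), (0, 65536, 65536), (16384, 49152, 65536)⟩) ⟨by decide +kernel, rfl, rfl⟩
    (h₁ := (posOn_smul 8192 4096 16384 rfl (posOn_of_leaf okI0 leafI0_236)))
    (h₂ := nodeI0_232)

theorem nodeI0_234 : PosOn (matEx 9 offI0 16 MI0)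
    ⟨(24576, 40960, 65536), (24576, 49152, 65536), (20480, 45056, 65536)⟩ :=
  posOn_node 2 (A := ⟨(20480, 45056, 65536), (22528, 43008, 65536), (24576, 49152, 65536)⟩) (B := ⟨(22528, 43008, 65536), (24576, 40960, 65536), (24576, 49152, 65536)⟩) ⟨by decide +kernel, rfl, rfl⟩
    (h₁ := (posOn_smul 4096 2048 8192 rfl (posOn_of_leaf okI0 leafI0_240)))
    (h₂ := (posOn_smul 2048 8192 8192 rfl (posOn_of_leaf okI0 leafI0_241)))

theorem nodeI0_235 : PosOn (matEx 9 offI0 16 MI0)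
    ⟨(20480, 45056, 65536), (24576, 40960, 65536), (24576, 57344, 65536)⟩ :=
  posOn_node 1 (A := ⟨(24576, 40960, 65536), (24576, 49152, 65536), (20480, 45056, 65536)⟩) (B := ⟨(24576, 49152, 65536), (24576, 57344, 65536), (20480, 45056, 65536)⟩) ⟨by decide +kernel, rfl, rfl⟩
    (h₁ := nodeI0_234)
    (h₂ := (posOn_smul 8192 8192 4096 rfl (posOn_of_leaf okI0 leafI0_242)))

theorem nodeI0_236 : PosOn (matEx 9 offI0 16 MI0)
    ⟨(16384, 49152, 65536), (24576, 40960, 65536), (24576, 57344, 65536)⟩ :=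
  posOn_node 0 (A := ⟨(16384, 49152, 65536), (20480, 45056, 65536), (24576, 57344, 65536)⟩) (B := ⟨(20480, 45056, 65536), (24576, 40960, 65536), (24576, 57344, 65536)⟩) ⟨by decide +kernel, rfl, rfl⟩
    (h₁ := (posOn_smul 16384 4096 8192 rfl (posOn_of_leaf okI0 leafI0_239)))
    (h₂ := nodeI0_235)

theorem nodeI0_237 : PosOn (matEx 9 offI0 16 MI0)
    ⟨(32768, 32768, 65536), (28672, 45056, 65536), (24576, 40960, 65536)⟩ :=
  posOn_node 0 (A := ⟨(32768, 32768, 65536), (30720, 38912, 65536), (24576, 40960, 65536)⟩) (B := ⟨(30720, 38912, 65536), (28672, 45056, 65536), (24576, 40960, 65536)⟩) ⟨by decide +kernel, rfl, rfl⟩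
    (h₁ := (posOn_smul 32768 2048 8192 rfl (posOn_of_leaf okI0 leafI0_243)))
    (h₂ := (posOn_smul 2048 4096 8192 rfl (posOn_of_leaf okI0 leafI0_244)))

theorem nodeI0_238 : PosOn (matEx 9 offI0 16 MI0)
    ⟨(24576, 40960, 65536), (32768, 32768, 65536), (24576, 57344, 65536)⟩ :=
  posOn_node 1 (A := ⟨(32768, 32768, 65536), (28672, 45056, 65536), (24576, 40960, 65536)⟩) (B := ⟨(28672, 45056, 65536), (24576, 57344, 65536), (24576, 40960, 65536)⟩) ⟨by decide +kernel, rfl, rfl⟩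
    (h₁ := nodeI0_237)
    (h₂ := (posOn_smul 4096 8192 8192 rfl (posOn_of_leaf okI0 leafI0_245)))

theorem nodeI0_239 : PosOn (matEx 9 offI0 16 MI0)
    ⟨(16384, 49152, 65536), (32768, 32768, 65536), (24576, 57344, 65536)⟩ :=
  posOn_node 0 (A := ⟨(16384, 49152, 65536), (24576, 40960, 65536), (24576, 57344, 65536)⟩) (B := ⟨(24576, 40960, 65536), (32768, 32768, 65536), (24576, 57344, 65536)⟩) ⟨by decide +kernel, rfl, rfl⟩
    (h₁ := nodeI0_236)
    (h₂ := nodeI0_238)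

theorem nodeI0_240 : PosOn (matEx 9 offI0 16 MI0)
    ⟨(24576, 57344, 65536), (0, 65536, 65536), (32768, 32768, 65536)⟩ :=
  posOn_node 1 (A := ⟨(0, 65536, 65536), (16384, 49152, 65536), (24576, 57344, 65536)⟩) (B := ⟨(16384, 49152, 65536), (32768, 32768, 65536), (24576, 57344, 65536)⟩) ⟨by decide +kernel, rfl, rfl⟩
    (h₁ := nodeI0_233)
    (h₂ := nodeI0_239)

theorem nodeI0_241 : PosOn (matEx 9 offI0 16 MI0)
    ⟨(32768, 32768, 65536), (49152, 49152, 65536), (0, 65536, 65536)⟩ :=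
  posOn_node 1 (A := ⟨(49152, 49152, 65536), (24576, 57344, 65536), (32768, 32768, 65536)⟩) (B := ⟨(24576, 57344, 65536), (0, 65536, 65536), (32768, 32768, 65536)⟩) ⟨by decide +kernel, rfl, rfl⟩
    (h₁ := nodeI0_231)
    (h₂ := nodeI0_240)

theorem nodeI0_242 : PosOn (matEx 9 offI0 16 MI0)
    ⟨(49152, 65536, 65536), (32768, 65536, 65536), (40960, 57344, 65536)⟩ :=
  posOn_node 0 (A := ⟨(49152, 65536, 65536), (40960, 65536, 65536), (40960, 57344, 65536)⟩) (B := ⟨(40960, 65536, 65536), (32768, 65536, 65536), (40960, 57344, 65536)⟩) ⟨by decide +kernel, rfl, rfl⟩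
    (h₁ := (posOn_smul 16384 8192 8192 rfl (posOn_of_leaf okI0 leafI0_247)))
    (h₂ := (posOn_smul 8192 32768 8192 rfl (posOn_of_leaf okI0 leafI0_248)))

theorem nodeI0_243 : PosOn (matEx 9 offI0 16 MI0)
    ⟨(32768, 65536, 65536), (40960, 57344, 65536), (65536, 65536, 65536)⟩ :=
  posOn_node 2 (A := ⟨(65536, 65536, 65536), (49152, 65536, 65536), (40960, 57344, 65536)⟩) (B := ⟨(49152, 65536, 65536), (32768, 65536, 65536), (40960, 57344, 65536)⟩) ⟨by decide +kernel, rfl, rfl⟩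
    (h₁ := (posOn_smul 65536 16384 8192 rfl (posOn_of_leaf okI0 leafI0_246)))
    (h₂ := nodeI0_242)

theorem nodeI0_244 : PosOn (matEx 9 offI0 16 MI0)
    ⟨(65536, 65536, 65536), (32768, 65536, 65536), (49152, 49152, 65536)⟩ :=
  posOn_node 1 (A := ⟨(32768, 65536, 65536), (40960, 57344, 65536), (65536, 65536, 65536)⟩) (B := ⟨(40960, 57344, 65536), (49152, 49152, 65536), (65536, 65536, 65536)⟩) ⟨by decide +kernel, rfl, rfl⟩
    (h₁ := nodeI0_243)
    (h₂ := (posOn_smul 8192 16384 65536 rfl (posOn_of_leaf okI0 leafI0_249)))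

theorem nodeI0_245 : PosOn (matEx 9 offI0 16 MI0)
    ⟨(32768, 65536, 65536), (16384, 65536, 65536), (24576, 57344, 65536)⟩ :=
  posOn_node 0 (A := ⟨(32768, 65536, 65536), (24576, 65536, 65536), (24576, 57344, 65536)⟩) (B := ⟨(24576, 65536, 65536), (16384, 65536, 65536), (24576, 57344, 65536)⟩) ⟨by decide +kernel, rfl, rfl⟩
    (h₁ := (posOn_smul 32768 8192 8192 rfl (posOn_of_leaf okI0 leafI0_250)))
    (h₂ := (posOn_smul 8192 16384 8192 rfl (posOn_of_leaf okI0 leafI0_251)))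

theorem nodeI0_246 : PosOn (matEx 9 offI0 16 MI0)
    ⟨(0, 65536, 65536), (12288, 61440, 65536), (16384, 65536, 65536)⟩ :=
  posOn_node 2 (A := ⟨(16384, 65536, 65536), (8192, 65536, 65536), (12288, 61440, 65536)⟩) (B := ⟨(8192, 65536, 65536), (0, 65536, 65536), (12288, 61440, 65536)⟩) ⟨by decide +kernel, rfl, rfl⟩
    (h₁ := (posOn_smul 16384 8192 4096 rfl (posOn_of_leaf okI0 leafI0_252)))
    (h₂ := (posOn_smul 8192 65536 4096 rfl (posOn_of_leaf okI0 leafI0_253)))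

theorem nodeI0_247 : PosOn (matEx 9 offI0 16 MI0)
    ⟨(16384, 65536, 65536), (0, 65536, 65536), (24576, 57344, 65536)⟩ :=
  posOn_node 1 (A := ⟨(0, 65536, 65536), (12288, 61440, 65536), (16384, 65536, 65536)⟩) (B := ⟨(12288, 61440, 65536), (24576, 57344, 65536), (16384, 65536, 65536)⟩) ⟨by decide +kernel, rfl, rfl⟩
    (h₁ := nodeI0_246)
    (h₂ := (posOn_smul 4096 8192 16384 rfl (posOn_of_leaf okI0 leafI0_254)))

theorem nodeI0_248 : PosOn (matEx 9 offI0 16 MI0)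
    ⟨(0, 65536, 65536), (24576, 57344, 65536), (32768, 65536, 65536)⟩ :=
  posOn_node 2 (A := ⟨(32768, 65536, 65536), (16384, 65536, 65536), (24576, 57344, 65536)⟩) (B := ⟨(16384, 65536, 65536), (0, 65536, 65536), (24576, 57344, 65536)⟩) ⟨by decide +kernel, rfl, rfl⟩
    (h₁ := nodeI0_245)
    (h₂ := nodeI0_247)

theorem nodeI0_249 : PosOn (matEx 9 offI0 16 MI0)
    ⟨(24576, 57344, 65536), (36864, 53248, 65536), (32768, 65536, 65536)⟩ :=
  posOn_node 0 (A := ⟨(24576, 57344, 65536), (30720, 55296, 65536), (32768, 65536, 65536)⟩) (B := ⟨(30720, 55296, 65536), (36864, 53248, 65536), (32768, 65536, 65536)⟩) ⟨by decide +kernel, rfl, rfl⟩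
    (h₁ := (posOn_smul 8192 2048 32768 rfl (posOn_of_leaf okI0 leafI0_255)))
    (h₂ := (posOn_smul 2048 4096 32768 rfl (posOn_of_leaf okI0 leafI0_256)))

theorem nodeI0_250 : PosOn (matEx 9 offI0 16 MI0)
    ⟨(36864, 53248, 65536), (49152, 49152, 65536), (32768, 65536, 65536)⟩ :=
  posOn_node 1 (A := ⟨(49152, 49152, 65536), (40960, 57344, 65536), (36864, 53248, 65536)⟩) (B := ⟨(40960, 57344, 65536), (32768, 65536, 65536), (36864, 53248, 65536)⟩) ⟨by decide +kernel, rfl, rfl⟩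
    (h₁ := (posOn_smul 16384 8192 4096 rfl (posOn_of_leaf okI0 leafI0_257)))
    (h₂ := (posOn_smul 8192 32768 4096 rfl (posOn_of_leaf okI0 leafI0_258)))

theorem nodeI0_251 : PosOn (matEx 9 offI0 16 MI0)
    ⟨(24576, 57344, 65536), (49152, 49152, 65536), (32768, 65536, 65536)⟩ :=
  posOn_node 0 (A := ⟨(24576, 57344, 65536), (36864, 53248, 65536), (32768, 65536, 65536)⟩) (B := ⟨(36864, 53248, 65536), (49152, 49152, 65536), (32768, 65536, 65536)⟩) ⟨by decide +kernel, rfl, rfl⟩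
    (h₁ := nodeI0_249)
    (h₂ := nodeI0_250)

theorem nodeI0_252 : PosOn (matEx 9 offI0 16 MI0)
    ⟨(32768, 65536, 65536), (0, 65536, 65536), (49152, 49152, 65536)⟩ :=
  posOn_node 1 (A := ⟨(0, 65536, 65536), (24576, 57344, 65536), (32768, 65536, 65536)⟩) (B := ⟨(24576, 57344, 65536), (49152, 49152, 65536), (32768, 65536, 65536)⟩) ⟨by decide +kernel, rfl, rfl⟩
    (h₁ := nodeI0_248)
    (h₂ := nodeI0_251)

theorem nodeI0_253 : PosOn (matEx 9 offI0 16 MI0)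
    ⟨(49152, 49152, 65536), (65536, 65536, 65536), (0, 65536, 65536)⟩ :=
  posOn_node 1 (A := ⟨(65536, 65536, 65536), (32768, 65536, 65536), (49152, 49152, 65536)⟩) (B := ⟨(32768, 65536, 65536), (0, 65536, 65536), (49152, 49152, 65536)⟩) ⟨by decide +kernel, rfl, rfl⟩
    (h₁ := nodeI0_244)
    (h₂ := nodeI0_252)

theorem nodeI0_254 : PosOn (matEx 9 offI0 16 MI0)
    ⟨(0, 65536, 65536), (32768, 32768, 65536), (65536, 65536, 65536)⟩ :=
  posOn_node 1 (A := ⟨(32768, 32768, 65536), (49152, 49152, 65536), (0, 65536, 65536)⟩) (B := ⟨(49152, 49152, 65536), (65536, 65536, 65536), (0, 65536, 65536)⟩) ⟨by decide +kernel, rfl, rfl⟩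
    (h₁ := nodeI0_241)
    (h₂ := nodeI0_253)

theorem nodeI0_255 : PosOn (matEx 9 offI0 16 MI0)
    ⟨(57344, 40960, 65536), (45056, 36864, 65536), (40960, 24576, 65536)⟩ :=
  posOn_node 2 (A := ⟨(40960, 24576, 65536), (49152, 32768, 65536), (45056, 36864, 65536)⟩) (B := ⟨(49152, 32768, 65536), (57344, 40960, 65536), (45056, 36864, 65536)⟩) ⟨by decide +kernel, rfl, rfl⟩
    (h₁ := (posOn_smul 8192 16384 4096 rfl (posOn_of_leaf okI0 leafI0_259)))
    (h₂ := (posOn_smul 16384 8192 4096 rfl (posOn_of_leaf okI0 leafI0_260)))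

theorem nodeI0_256 : PosOn (matEx 9 offI0 16 MI0)
    ⟨(32768, 32768, 65536), (40960, 24576, 65536), (57344, 40960, 65536)⟩ :=
  posOn_node 2 (A := ⟨(57344, 40960, 65536), (45056, 36864, 65536), (40960, 24576, 65536)⟩) (B := ⟨(45056, 36864, 65536), (32768, 32768, 65536), (40960, 24576, 65536)⟩) ⟨by decide +kernel, rfl, rfl⟩
    (h₁ := nodeI0_255)
    (h₂ := (posOn_smul 4096 32768 8192 rfl (posOn_of_leaf okI0 leafI0_261)))

theorem nodeI0_257 : PosOn (matEx 9 offI0 16 MI0)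
    ⟨(49152, 16384, 65536), (53248, 28672, 65536), (40960, 24576, 65536)⟩ :=
  posOn_node 2 (A := ⟨(40960, 24576, 65536), (45056, 20480, 65536), (53248, 28672, 65536)⟩) (B := ⟨(45056, 20480, 65536), (49152, 16384, 65536), (53248, 28672, 65536)⟩) ⟨by decide +kernel, rfl, rfl⟩
    (h₁ := (posOn_smul 8192 4096 4096 rfl (posOn_of_leaf okI0 leafI0_262)))
    (h₂ := (posOn_smul 4096 16384 4096 rfl (posOn_of_leaf okI0 leafI0_263)))

theorem nodeI0_258 : PosOn (matEx 9 offI0 16 MI0)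
    ⟨(53248, 28672, 65536), (57344, 40960, 65536), (40960, 24576, 65536)⟩ :=
  posOn_node 1 (A := ⟨(57344, 40960, 65536), (49152, 32768, 65536), (53248, 28672, 65536)⟩) (B := ⟨(49152, 32768, 65536), (40960, 24576, 65536), (53248, 28672, 65536)⟩) ⟨by decide +kernel, rfl, rfl⟩
    (h₁ := (posOn_smul 8192 16384 4096 rfl (posOn_of_leaf okI0 leafI0_264)))
    (h₂ := (posOn_smul 16384 8192 4096 rfl (posOn_of_leaf okI0 leafI0_265)))

theorem nodeI0_259 : PosOn (matEx 9 offI0 16 MI0)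
    ⟨(40960, 24576, 65536), (49152, 16384, 65536), (57344, 40960, 65536)⟩ :=
  posOn_node 1 (A := ⟨(49152, 16384, 65536), (53248, 28672, 65536), (40960, 24576, 65536)⟩) (B := ⟨(53248, 28672, 65536), (57344, 40960, 65536), (40960, 24576, 65536)⟩) ⟨by decide +kernel, rfl, rfl⟩
    (h₁ := nodeI0_257)
    (h₂ := nodeI0_258)

theorem nodeI0_260 : PosOn (matEx 9 offI0 16 MI0)
    ⟨(49152, 16384, 65536), (57344, 40960, 65536), (32768, 32768, 65536)⟩ :=
  posOn_node 2 (A := ⟨(32768, 32768, 65536), (40960, 24576, 65536), (57344, 40960, 65536)⟩) (B := ⟨(40960, 24576, 65536), (49152, 16384, 65536), (57344, 40960, 65536)⟩) ⟨by decide +kernel, rfl, rfl⟩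
    (h₁ := nodeI0_256)
    (h₂ := nodeI0_259)

theorem nodeI0_261 : PosOn (matEx 9 offI0 16 MI0)
    ⟨(57344, 40960, 65536), (61440, 53248, 65536), (49152, 49152, 65536)⟩ :=
  posOn_node 2 (A := ⟨(49152, 49152, 65536), (53248, 45056, 65536), (61440, 53248, 65536)⟩) (B := ⟨(53248, 45056, 65536), (57344, 40960, 65536), (61440, 53248, 65536)⟩) ⟨by decide +kernel, rfl, rfl⟩
    (h₁ := (posOn_smul 16384 4096 4096 rfl (posOn_of_leaf okI0 leafI0_266)))
    (h₂ := (posOn_smul 4096 8192 4096 rfl (posOn_of_leaf okI0 leafI0_267)))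

theorem nodeI0_262 : PosOn (matEx 9 offI0 16 MI0)
    ⟨(65536, 65536, 65536), (49152, 49152, 65536), (57344, 40960, 65536)⟩ :=
  posOn_node 2 (A := ⟨(57344, 40960, 65536), (61440, 53248, 65536), (49152, 49152, 65536)⟩) (B := ⟨(61440, 53248, 65536), (65536, 65536, 65536), (49152, 49152, 65536)⟩) ⟨by decide +kernel, rfl, rfl⟩
    (h₁ := nodeI0_261)
    (h₂ := (posOn_smul 4096 65536 16384 rfl (posOn_of_leaf okI0 leafI0_268)))

theorem nodeI0_263 : PosOn (matEx 9 offI0 16 MI0)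
    ⟨(45056, 36864, 65536), (57344, 40960, 65536), (49152, 49152, 65536)⟩ :=
  posOn_node 1 (A := ⟨(57344, 40960, 65536), (53248, 45056, 65536), (45056, 36864, 65536)⟩) (B := ⟨(53248, 45056, 65536), (49152, 49152, 65536), (45056, 36864, 65536)⟩) ⟨by decide +kernel, rfl, rfl⟩
    (h₁ := (posOn_smul 8192 4096 4096 rfl (posOn_of_leaf okI0 leafI0_270)))
    (h₂ := (posOn_smul 4096 16384 4096 rfl (posOn_of_leaf okI0 leafI0_271)))

theorem nodeI0_264 : PosOn (matEx 9 offI0 16 MI0)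
    ⟨(49152, 49152, 65536), (32768, 32768, 65536), (57344, 40960, 65536)⟩ :=
  posOn_node 1 (A := ⟨(32768, 32768, 65536), (45056, 36864, 65536), (49152, 49152, 65536)⟩) (B := ⟨(45056, 36864, 65536), (57344, 40960, 65536), (49152, 49152, 65536)⟩) ⟨by decide +kernel, rfl, rfl⟩
    (h₁ := (posOn_smul 32768 4096 16384 rfl (posOn_of_leaf okI0 leafI0_269)))
    (h₂ := nodeI0_263)

theorem nodeI0_265 : PosOn (matEx 9 offI0 16 MI0)
    ⟨(57344, 40960, 65536), (65536, 65536, 65536), (32768, 32768, 65536)⟩ :=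
  posOn_node 1 (A := ⟨(65536, 65536, 65536), (49152, 49152, 65536), (57344, 40960, 65536)⟩) (B := ⟨(49152, 49152, 65536), (32768, 32768, 65536), (57344, 40960, 65536)⟩) ⟨by decide +kernel, rfl, rfl⟩
    (h₁ := nodeI0_262)
    (h₂ := nodeI0_264)

theorem nodeI0_266 : PosOn (matEx 9 offI0 16 MI0)
    ⟨(32768, 32768, 65536), (49152, 16384, 65536), (65536, 65536, 65536)⟩ :=
  posOn_node 1 (A := ⟨(49152, 16384, 65536), (57344, 40960, 65536), (32768, 32768, 65536)⟩) (B := ⟨(57344, 40960, 65536), (65536, 65536, 65536), (32768, 32768, 65536)⟩) ⟨by decide +kernel, rfl, rfl⟩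
    (h₁ := nodeI0_260)
    (h₂ := nodeI0_265)

theorem nodeI0_267 : PosOn (matEx 9 offI0 16 MI0)
    ⟨(65536, 0, 65536), (65536, 16384, 65536), (49152, 16384, 65536)⟩ :=
  posOn_node 2 (A := ⟨(49152, 16384, 65536), (57344, 8192, 65536), (65536, 16384, 65536)⟩) (B := ⟨(57344, 8192, 65536), (65536, 0, 65536), (65536, 16384, 65536)⟩) ⟨by decide +kernel, rfl, rfl⟩
    (h₁ := (posOn_smul 16384 8192 16384 rfl (posOn_of_leaf okI0 leafI0_272)))
    (h₂ := (posOn_smul 8192 65536 16384 rfl (posOn_of_leaf okI0 leafI0_273)))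

theorem nodeI0_268 : PosOn (matEx 9 offI0 16 MI0)
    ⟨(65536, 0, 65536), (65536, 32768, 65536), (49152, 16384, 65536)⟩ :=
  posOn_node 0 (A := ⟨(65536, 0, 65536), (65536, 16384, 65536), (49152, 16384, 65536)⟩) (B := ⟨(65536, 16384, 65536), (65536, 32768, 65536), (49152, 16384, 65536)⟩) ⟨by decide +kernel, rfl, rfl⟩
    (h₁ := nodeI0_267)
    (h₂ := (posOn_smul 16384 32768 16384 rfl (posOn_of_leaf okI0 leafI0_274)))

theorem nodeI0_269 : PosOn (matEx 9 offI0 16 MI0)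
    ⟨(65536, 32768, 65536), (65536, 40960, 65536), (57344, 40960, 65536)⟩ :=
  posOn_node 2 (A := ⟨(57344, 40960, 65536), (61440, 36864, 65536), (65536, 40960, 65536)⟩) (B := ⟨(61440, 36864, 65536), (65536, 32768, 65536), (65536, 40960, 65536)⟩) ⟨by decide +kernel, rfl, rfl⟩
    (h₁ := (posOn_smul 8192 4096 8192 rfl (posOn_of_leaf okI0 leafI0_275)))
    (h₂ := (posOn_smul 4096 32768 8192 rfl (posOn_of_leaf okI0 leafI0_276)))

theorem nodeI0_270 : PosOn (matEx 9 offI0 16 MI0)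
    ⟨(65536, 32768, 65536), (65536, 49152, 65536), (57344, 40960, 65536)⟩ :=
  posOn_node 0 (A := ⟨(65536, 32768, 65536), (65536, 40960, 65536), (57344, 40960, 65536)⟩) (B := ⟨(65536, 40960, 65536), (65536, 49152, 65536), (57344, 40960, 65536)⟩) ⟨by decide +kernel, rfl, rfl⟩
    (h₁ := nodeI0_269)
    (h₂ := (posOn_smul 8192 16384 8192 rfl (posOn_of_leaf okI0 leafI0_277)))

theorem nodeI0_271 : PosOn (matEx 9 offI0 16 MI0)
    ⟨(65536, 49152, 65536), (65536, 65536, 65536), (57344, 40960, 65536)⟩ :=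
  posOn_node 1 (A := ⟨(65536, 65536, 65536), (61440, 53248, 65536), (65536, 49152, 65536)⟩) (B := ⟨(61440, 53248, 65536), (57344, 40960, 65536), (65536, 49152, 65536)⟩) ⟨by decide +kernel, rfl, rfl⟩
    (h₁ := (posOn_smul 65536 4096 16384 rfl (posOn_of_leaf okI0 leafI0_278)))
    (h₂ := (posOn_smul 4096 8192 16384 rfl (posOn_of_leaf okI0 leafI0_279)))

theorem nodeI0_272 : PosOn (matEx 9 offI0 16 MI0)
    ⟨(65536, 65536, 65536), (57344, 40960, 65536), (65536, 32768, 65536)⟩ :=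
  posOn_node 2 (A := ⟨(65536, 32768, 65536), (65536, 49152, 65536), (57344, 40960, 65536)⟩) (B := ⟨(65536, 49152, 65536), (65536, 65536, 65536), (57344, 40960, 65536)⟩) ⟨by decide +kernel, rfl, rfl⟩
    (h₁ := nodeI0_270)
    (h₂ := nodeI0_271)

theorem nodeI0_273 : PosOn (matEx 9 offI0 16 MI0)
    ⟨(65536, 32768, 65536), (61440, 36864, 65536), (53248, 28672, 65536)⟩ :=
  posOn_node 2 (A := ⟨(53248, 28672, 65536), (59392, 30720, 65536), (61440, 36864, 65536)⟩) (B := ⟨(59392, 30720, 65536), (65536, 32768, 65536), (61440, 36864, 65536)⟩) ⟨by decide +kernel, rfl, rfl⟩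
    (h₁ := (posOn_smul 4096 2048 4096 rfl (posOn_of_leaf okI0 leafI0_280)))
    (h₂ := (posOn_smul 2048 32768 4096 rfl (posOn_of_leaf okI0 leafI0_281)))

theorem nodeI0_274 : PosOn (matEx 9 offI0 16 MI0)
    ⟨(57344, 40960, 65536), (53248, 28672, 65536), (65536, 32768, 65536)⟩ :=
  posOn_node 2 (A := ⟨(65536, 32768, 65536), (61440, 36864, 65536), (53248, 28672, 65536)⟩) (B := ⟨(61440, 36864, 65536), (57344, 40960, 65536), (53248, 28672, 65536)⟩) ⟨by decide +kernel, rfl, rfl⟩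
    (h₁ := nodeI0_273)
    (h₂ := (posOn_smul 4096 8192 4096 rfl (posOn_of_leaf okI0 leafI0_282)))

theorem nodeI0_275 : PosOn (matEx 9 offI0 16 MI0)
    ⟨(57344, 40960, 65536), (49152, 16384, 65536), (65536, 32768, 65536)⟩ :=
  posOn_node 0 (A := ⟨(57344, 40960, 65536), (53248, 28672, 65536), (65536, 32768, 65536)⟩) (B := ⟨(53248, 28672, 65536), (49152, 16384, 65536), (65536, 32768, 65536)⟩) ⟨by decide +kernel, rfl, rfl⟩
    (h₁ := nodeI0_274)
    (h₂ := (posOn_smul 4096 16384 32768 rfl (posOn_of_leaf okI0 leafI0_283)))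

theorem nodeI0_276 : PosOn (matEx 9 offI0 16 MI0)
    ⟨(65536, 32768, 65536), (65536, 65536, 65536), (49152, 16384, 65536)⟩ :=
  posOn_node 1 (A := ⟨(65536, 65536, 65536), (57344, 40960, 65536), (65536, 32768, 65536)⟩) (B := ⟨(57344, 40960, 65536), (49152, 16384, 65536), (65536, 32768, 65536)⟩) ⟨by decide +kernel, rfl, rfl⟩
    (h₁ := nodeI0_272)
    (h₂ := nodeI0_275)

theorem nodeI0_277 : PosOn (matEx 9 offI0 16 MI0)
    ⟨(49152, 16384, 65536), (65536, 0, 65536), (65536, 65536, 65536)⟩ :=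
  posOn_node 1 (A := ⟨(65536, 0, 65536), (65536, 32768, 65536), (49152, 16384, 65536)⟩) (B := ⟨(65536, 32768, 65536), (65536, 65536, 65536), (49152, 16384, 65536)⟩) ⟨by decide +kernel, rfl, rfl⟩
    (h₁ := nodeI0_268)
    (h₂ := nodeI0_276)

theorem nodeI0_278 : PosOn (matEx 9 offI0 16 MI0)
    ⟨(32768, 32768, 65536), (65536, 0, 65536), (65536, 65536, 65536)⟩ :=
  posOn_node 0 (A := ⟨(32768, 32768, 65536), (49152, 16384, 65536), (65536, 65536, 65536)⟩) (B := ⟨(49152, 16384, 65536), (65536, 0, 65536), (65536, 65536, 65536)⟩) ⟨by decide +kernel, rfl, rfl⟩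
    (h₁ := nodeI0_266)
    (h₂ := nodeI0_277)

theorem nodeI0_279 : PosOn (matEx 9 offI0 16 MI0)
    ⟨(65536, 0, 65536), (65536, 65536, 65536), (0, 65536, 65536)⟩ :=
  posOn_node 2 (A := ⟨(0, 65536, 65536), (32768, 32768, 65536), (65536, 65536, 65536)⟩) (B := ⟨(32768, 32768, 65536), (65536, 0, 65536), (65536, 65536, 65536)⟩) ⟨by decide +kernel, rfl, rfl⟩
    (h₁ := nodeI0_254)
    (h₂ := nodeI0_278)

/-- Block I0 is nonnegative on root 0. -/
theorem posOnI0_0 : PosOn (matEx 9 offI0 16 MI0)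
    ⟨((-65536), 0, 65536), (0, 0, 65536), ((-65536), 65536, 65536)⟩ :=
  (posOn_cyc (posOn_cyc (posOn_flip (p₀ := ((-65536), 65536, 65536)) (p₁ := ((-65536), 0, 65536)) (p₂ := (0, 0, 65536)) (p₃ := (0, 65536, 65536)) (by decide) (posOn_cyc nodeI0_111) nodeI0_54)))

/-- Block I0 is nonnegative on root 1. -/
theorem posOnI0_1 : PosOn (matEx 9 offI0 16 MI0)
    ⟨(0, 0, 65536), (0, 65536, 65536), ((-65536), 65536, 65536)⟩ :=
  (posOn_flip (p₀ := (0, 0, 65536)) (p₁ := (0, 65536, 65536)) (p₂ := ((-65536), 65536, 65536)) (p₃ := ((-65536), 0, 65536)) (by decide) (posOn_cyc (posOn_cyc nodeI0_54)) (posOn_cyc (posOn_cyc nodeI0_111)))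

/-- Block I0 is nonnegative on root 2. -/
theorem posOnI0_2 : PosOn (matEx 9 offI0 16 MI0)
    ⟨(0, 0, 65536), (65536, 0, 65536), (65536, 65536, 65536)⟩ :=
  (posOn_flip (p₀ := (0, 0, 65536)) (p₁ := (65536, 0, 65536)) (p₂ := (65536, 65536, 65536)) (p₃ := (0, 65536, 65536)) (by decide) nodeI0_225 nodeI0_279)

/-- Block I0 is nonnegative on root 3. -/
theorem posOnI0_3 : PosOn (matEx 9 offI0 16 MI0)
    ⟨(0, 0, 65536), (65536, 65536, 65536), (0, 65536, 65536)⟩ :=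
  (posOn_cyc (posOn_flip (p₀ := (65536, 65536, 65536)) (p₁ := (0, 65536, 65536)) (p₂ := (0, 0, 65536)) (p₃ := (65536, 0, 65536)) (by decide) (posOn_cyc (posOn_cyc nodeI0_279)) (posOn_cyc nodeI0_225)))

end Vale.Agent.P252.General.Cert5.Trees
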