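import Vale.Agent.P252.Cert.PDCoef
import Vale.Agent.P252.Rigidity.General.Cert5.Flat.I0

/-! Leaves 264..274 of block I0, generated. -/

namespace Vale.Agent.P252.General.Cert5.Trees

open Vale.Agent.P252.PolyPSD Vale.Agent.P252.PDCoef

theorem leafI0_264 : checkLeaf 9 nbI0 offI0 16 MI0
    ⟨(7, 5, 8), (3, 2, 4), (13, 7, 16)⟩ = true := by decide +kernel

theorem leafI0_265 : checkLeaf 9 nbI0 offI0 16 MI0
    ⟨(3, 2, 4), (5, 3, 8), (13, 7, 16)⟩ = true := by decide +kernel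

theorem leafI0_266 : checkLeaf 9 nbI0 offI0 16 MI0
    ⟨(3, 3, 4), (13, 11, 16), (15, 13, 16)⟩ = true := by decide +kernel

theorem leafI0_267 : checkLeaf 9 nbI0 offI0 16 MI0
    ⟨(13, 11, 16), (7, 5, 8), (15, 13, 16)⟩ = true := by decide +kernel

theorem leafI0_268 : checkLeaf 9 nbI0 offI0 16 MI0
    ⟨(15, 13, 16), (1, 1, 1), (3, 3, 4)⟩ = true := by decide +kernel

theorem leafI0_269 : checkLeaf 9 nbI0 offI0 16 MI0
    ⟨(1, 1, 2), (11, 9, 16), (3, 3, 4)⟩ = true := by decide +kernel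

theorem leafI0_270 : checkLeaf 9 nbI0 offI0 16 MI0
    ⟨(7, 5, 8), (13, 11, 16), (11, 9, 16)⟩ = true := by decide +kernel

theorem leafI0_271 : checkLeaf 9 nbI0 offI0 16 MI0
    ⟨(13, 11, 16), (3, 3, 4), (11, 9, 16)⟩ = true := by decide +kernel

theorem leafI0_272 : checkLeaf 9 nbI0 offI0 16 MI0
    ⟨(3, 1, 4), (7, 1, 8), (4, 1, 4)⟩ = true := by decide +kernel

theorem leafI0_273 : checkLeaf 9 nbI0 offI0 16 MI0
    ⟨(7, 1, 8), (1, 0, 1), (4, 1, 4)⟩ = true := by decide +kernel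

theorem leafI0_274 : checkLeaf 9 nbI0 offI0 16 MI0
    ⟨(4, 1, 4), (2, 1, 2), (3, 1, 4)⟩ = true := by decide +kernel

end Vale.Agent.P252.General.Cert5.Trees
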