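import Vale.Agent.P252.Cert.PDCoef
import Vale.Agent.P252.Rigidity.General.Cert5.Flat.I0

/-! Leaves 88..98 of block I0, generated. -/

namespace Vale.Agent.P252.General.Cert5.Trees

open Vale.Agent.P252.PolyPSD Vale.Agent.P252.PDCoef

theorem leafI0_88 : checkLeaf 9 nbI0 offI0 16 MI0
    ⟨((-3), 13, 16), ((-7), 29, 32), ((-1), 3, 4)⟩ = true := by decide +kernel

theorem leafI0_89 : checkLeaf 9 nbI0 offI0 16 MI0
    ⟨((-1), 4, 4), ((-2), 7, 8), ((-7), 29, 32)⟩ = true := by decide +kernel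

theorem leafI0_90 : checkLeaf 9 nbI0 offI0 16 MI0
    ⟨((-2), 7, 8), ((-1), 3, 4), ((-7), 29, 32)⟩ = true := by decide +kernel

theorem leafI0_91 : checkLeaf 9 nbI0 offI0 16 MI0
    ⟨((-1), 7, 8), ((-3), 15, 16), ((-3), 13, 16)⟩ = true := by decide +kernel

theorem leafI0_92 : checkLeaf 9 nbI0 offI0 16 MI0
    ⟨((-3), 15, 16), ((-7), 31, 32), ((-7), 29, 32)⟩ = true := by decide +kernel

theorem leafI0_93 : checkLeaf 9 nbI0 offI0 16 MI0
    ⟨((-7), 31, 32), ((-1), 4, 4), ((-7), 29, 32)⟩ = true := by decide +kernel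

theorem leafI0_94 : checkLeaf 9 nbI0 offI0 16 MI0
    ⟨((-7), 29, 32), ((-3), 13, 16), ((-3), 15, 16)⟩ = true := by decide +kernel

theorem leafI0_95 : checkLeaf 9 nbI0 offI0 16 MI0
    ⟨(0, 1, 1), ((-1), 8, 8), ((-1), 7, 8)⟩ = true := by decide +kernel

theorem leafI0_96 : checkLeaf 9 nbI0 offI0 16 MI0
    ⟨((-1), 8, 8), ((-3), 16, 16), ((-3), 15, 16)⟩ = true := by decide +kernel

theorem leafI0_97 : checkLeaf 9 nbI0 offI0 16 MI0
    ⟨((-1), 4, 4), ((-7), 31, 32), ((-3), 16, 16)⟩ = true := by decide +kernel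

theorem leafI0_98 : checkLeaf 9 nbI0 offI0 16 MI0
    ⟨((-7), 31, 32), ((-3), 15, 16), ((-3), 16, 16)⟩ = true := by decide +kernel

end Vale.Agent.P252.General.Cert5.Trees
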