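import Vale.Agent.P252.Rigidity.General.Cert5.Trees.I1_0
import Vale.Agent.P252.Rigidity.General.Cert5.Trees.Glue

/-! Block I1 assembled from its leaves, generated. -/

namespace Vale.Agent.P252.General.Cert5.Trees

open Vale.Agent.P252.PolyPSD Vale.Agent.P252.PDCoef

theorem okI1 : blockOK 5 nbI1 offI1 14 MI1 = true := by decide +kernel

theorem nodeI1_0 : PosOn (matEx 5 offI1 14 MI1)
    ⟨((-65536), 32768, 65536), ((-65536), 0, 65536), ((-32768), 0, 65536)⟩ :=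
  posOn_node 2 (A := ⟨((-32768), 0, 65536), ((-49152), 16384, 65536), ((-65536), 0, 65536)⟩) (B := ⟨((-49152), 16384, 65536), ((-65536), 32768, 65536), ((-65536), 0, 65536)⟩) ⟨by decide +kernel, rfl, rfl⟩
    (h₁ := (posOn_smul 32768 16384 65536 rfl (posOn_of_leaf okI1 leafI1_1)))
    (h₂ := (posOn_smul 16384 32768 65536 rfl (posOn_of_leaf okI1 leafI1_2)))

theorem nodeI1_1 : PosOn (matEx 5 offI1 14 MI1)
    ⟨((-65536), 0, 65536), ((-32768), 0, 65536), ((-65536), 65536, 65536)⟩ :=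
  posOn_node 2 (A := ⟨((-65536), 65536, 65536), ((-65536), 32768, 65536), ((-32768), 0, 65536)⟩) (B := ⟨((-65536), 32768, 65536), ((-65536), 0, 65536), ((-32768), 0, 65536)⟩) ⟨by decide +kernel, rfl, rfl⟩
    (h₁ := (posOn_smul 65536 32768 32768 rfl (posOn_of_leaf okI1 leafI1_0)))
    (h₂ := nodeI1_0)

theorem nodeI1_2 : PosOn (matEx 5 offI1 14 MI1)
    ⟨((-65536), 0, 65536), (0, 0, 65536), ((-65536), 65536, 65536)⟩ :=
  posOn_node 0 (A := ⟨((-65536), 0, 65536), ((-32768), 0, 65536), ((-65536), 65536, 65536)⟩) (B := ⟨((-32768), 0, 65536), (0, 0, 65536), ((-65536), 65536, 65536)⟩) ⟨by decide +kernel, rfl, rfl⟩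
    (h₁ := nodeI1_1)
    (h₂ := (posOn_smul 32768 65536 65536 rfl (posOn_of_leaf okI1 leafI1_3)))

theorem nodeI1_3 : PosOn (matEx 5 offI1 14 MI1)
    ⟨(65536, 32768, 65536), (65536, 49152, 65536), (32768, 32768, 65536)⟩ :=
  posOn_node 1 (A := ⟨(65536, 49152, 65536), (49152, 40960, 65536), (65536, 32768, 65536)⟩) (B := ⟨(49152, 40960, 65536), (32768, 32768, 65536), (65536, 32768, 65536)⟩) ⟨by decide +kernel, rfl, rfl⟩
    (h₁ := (posOn_smul 16384 8192 32768 rfl (posOn_of_leaf okI1 leafI1_6)))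
    (h₂ := (posOn_smul 8192 32768 32768 rfl (posOn_of_leaf okI1 leafI1_7)))

theorem nodeI1_4 : PosOn (matEx 5 offI1 14 MI1)
    ⟨(65536, 49152, 65536), (65536, 65536, 65536), (32768, 32768, 65536)⟩ :=
  posOn_node 2 (A := ⟨(32768, 32768, 65536), (49152, 40960, 65536), (65536, 65536, 65536)⟩) (B := ⟨(49152, 40960, 65536), (65536, 49152, 65536), (65536, 65536, 65536)⟩) ⟨by decide +kernel, rfl, rfl⟩
    (h₁ := (posOn_smul 32768 8192 65536 rfl (posOn_of_leaf okI1 leafI1_8)))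
    (h₂ := (posOn_smul 8192 16384 65536 rfl (posOn_of_leaf okI1 leafI1_9)))

theorem nodeI1_5 : PosOn (matEx 5 offI1 14 MI1)
    ⟨(65536, 32768, 65536), (65536, 65536, 65536), (32768, 32768, 65536)⟩ :=
  posOn_node 0 (A := ⟨(65536, 32768, 65536), (65536, 49152, 65536), (32768, 32768, 65536)⟩) (B := ⟨(65536, 49152, 65536), (65536, 65536, 65536), (32768, 32768, 65536)⟩) ⟨by decide +kernel, rfl, rfl⟩
    (h₁ := nodeI1_3)
    (h₂ := nodeI1_4)

theorem nodeI1_6 : PosOn (matEx 5 offI1 14 MI1)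
    ⟨(65536, 65536, 65536), (32768, 32768, 65536), (65536, 0, 65536)⟩ :=
  posOn_node 2 (A := ⟨(65536, 0, 65536), (65536, 32768, 65536), (32768, 32768, 65536)⟩) (B := ⟨(65536, 32768, 65536), (65536, 65536, 65536), (32768, 32768, 65536)⟩) ⟨by decide +kernel, rfl, rfl⟩
    (h₁ := (posOn_smul 65536 32768 32768 rfl (posOn_of_leaf okI1 leafI1_5)))
    (h₂ := nodeI1_5)

theorem nodeI1_7 : PosOn (matEx 5 offI1 14 MI1)
    ⟨(14336, 8192, 65536), (12288, 0, 65536), (16384, 0, 65536)⟩ :=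
  posOn_node 1 (A := ⟨(12288, 0, 65536), (14336, 0, 65536), (14336, 8192, 65536)⟩) (B := ⟨(14336, 0, 65536), (16384, 0, 65536), (14336, 8192, 65536)⟩) ⟨by decide +kernel, rfl, rfl⟩
    (h₁ := (posOn_smul 4096 2048 2048 rfl (posOn_of_leaf okI1 leafI1_14)))
    (h₂ := (posOn_smul 2048 16384 2048 rfl (posOn_of_leaf okI1 leafI1_15)))

theorem nodeI1_8 : PosOn (matEx 5 offI1 14 MI1)
    ⟨(12288, 0, 65536), (16384, 0, 65536), (16384, 16384, 65536)⟩ :=
  posOn_node 2 (A := ⟨(16384, 16384, 65536), (14336, 8192, 65536), (16384, 0, 65536)⟩) (B := ⟨(14336, 8192, 65536), (12288, 0, 65536), (16384, 0, 65536)⟩) ⟨by decide +kernel, rfl, rfl⟩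
    (h₁ := (posOn_smul 16384 2048 16384 rfl (posOn_of_leaf okI1 leafI1_13)))
    (h₂ := nodeI1_7)

theorem nodeI1_9 : PosOn (matEx 5 offI1 14 MI1)
    ⟨(8192, 0, 65536), (16384, 0, 65536), (16384, 16384, 65536)⟩ :=
  posOn_node 0 (A := ⟨(8192, 0, 65536), (12288, 0, 65536), (16384, 16384, 65536)⟩) (B := ⟨(12288, 0, 65536), (16384, 0, 65536), (16384, 16384, 65536)⟩) ⟨by decide +kernel, rfl, rfl⟩
    (h₁ := (posOn_smul 8192 4096 16384 rfl (posOn_of_leaf okI1 leafI1_12)))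
    (h₂ := nodeI1_8)

theorem nodeI1_10 : PosOn (matEx 5 offI1 14 MI1)
    ⟨(16384, 16384, 65536), (0, 0, 65536), (16384, 0, 65536)⟩ :=
  posOn_node 1 (A := ⟨(0, 0, 65536), (8192, 0, 65536), (16384, 16384, 65536)⟩) (B := ⟨(8192, 0, 65536), (16384, 0, 65536), (16384, 16384, 65536)⟩) ⟨by decide +kernel, rfl, rfl⟩
    (h₁ := (posOn_smul 65536 8192 16384 rfl (posOn_of_leaf okI1 leafI1_11)))
    (h₂ := nodeI1_9)

theorem nodeI1_11 : PosOn (matEx 5 offI1 14 MI1)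
    ⟨(0, 0, 65536), (16384, 0, 65536), (32768, 32768, 65536)⟩ :=
  posOn_node 2 (A := ⟨(32768, 32768, 65536), (16384, 16384, 65536), (16384, 0, 65536)⟩) (B := ⟨(16384, 16384, 65536), (0, 0, 65536), (16384, 0, 65536)⟩) ⟨by decide +kernel, rfl, rfl⟩
    (h₁ := (posOn_smul 32768 16384 16384 rfl (posOn_of_leaf okI1 leafI1_10)))
    (h₂ := nodeI1_10)

theorem nodeI1_12 : PosOn (matEx 5 offI1 14 MI1)
    ⟨(0, 0, 65536), (32768, 0, 65536), (32768, 32768, 65536)⟩ :=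
  posOn_node 0 (A := ⟨(0, 0, 65536), (16384, 0, 65536), (32768, 32768, 65536)⟩) (B := ⟨(16384, 0, 65536), (32768, 0, 65536), (32768, 32768, 65536)⟩) ⟨by decide +kernel, rfl, rfl⟩
    (h₁ := nodeI1_11)
    (h₂ := (posOn_smul 16384 32768 32768 rfl (posOn_of_leaf okI1 leafI1_16)))

theorem nodeI1_13 : PosOn (matEx 5 offI1 14 MI1)
    ⟨(40960, 0, 65536), (36864, 16384, 65536), (32768, 0, 65536)⟩ :=
  posOn_node 2 (A := ⟨(32768, 0, 65536), (36864, 0, 65536), (36864, 16384, 65536)⟩) (B := ⟨(36864, 0, 65536), (40960, 0, 65536), (36864, 16384, 65536)⟩) ⟨by decide +kernel, rfl, rfl⟩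
    (h₁ := (posOn_smul 32768 4096 4096 rfl (posOn_of_leaf okI1 leafI1_17)))
    (h₂ := (posOn_smul 4096 8192 4096 rfl (posOn_of_leaf okI1 leafI1_18)))

theorem nodeI1_14 : PosOn (matEx 5 offI1 14 MI1)
    ⟨(32768, 0, 65536), (40960, 0, 65536), (32768, 32768, 65536)⟩ :=
  posOn_node 1 (A := ⟨(40960, 0, 65536), (36864, 16384, 65536), (32768, 0, 65536)⟩) (B := ⟨(36864, 16384, 65536), (32768, 32768, 65536), (32768, 0, 65536)⟩) ⟨by decide +kernel, rfl, rfl⟩
    (h₁ := nodeI1_13)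
    (h₂ := (posOn_smul 4096 32768 32768 rfl (posOn_of_leaf okI1 leafI1_19)))

theorem nodeI1_15 : PosOn (matEx 5 offI1 14 MI1)
    ⟨(32768, 0, 65536), (49152, 0, 65536), (32768, 32768, 65536)⟩ :=
  posOn_node 0 (A := ⟨(32768, 0, 65536), (40960, 0, 65536), (32768, 32768, 65536)⟩) (B := ⟨(40960, 0, 65536), (49152, 0, 65536), (32768, 32768, 65536)⟩) ⟨by decide +kernel, rfl, rfl⟩
    (h₁ := nodeI1_14)
    (h₂ := (posOn_smul 8192 16384 32768 rfl (posOn_of_leaf okI1 leafI1_20)))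

theorem nodeI1_16 : PosOn (matEx 5 offI1 14 MI1)
    ⟨(32768, 0, 65536), (65536, 0, 65536), (32768, 32768, 65536)⟩ :=
  posOn_node 0 (A := ⟨(32768, 0, 65536), (49152, 0, 65536), (32768, 32768, 65536)⟩) (B := ⟨(49152, 0, 65536), (65536, 0, 65536), (32768, 32768, 65536)⟩) ⟨by decide +kernel, rfl, rfl⟩
    (h₁ := nodeI1_15)
    (h₂ := (posOn_smul 16384 65536 32768 rfl (posOn_of_leaf okI1 leafI1_21)))

theorem nodeI1_17 : PosOn (matEx 5 offI1 14 MI1)
    ⟨(32768, 32768, 65536), (0, 0, 65536), (65536, 0, 65536)⟩ :=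
  posOn_node 1 (A := ⟨(0, 0, 65536), (32768, 0, 65536), (32768, 32768, 65536)⟩) (B := ⟨(32768, 0, 65536), (65536, 0, 65536), (32768, 32768, 65536)⟩) ⟨by decide +kernel, rfl, rfl⟩
    (h₁ := nodeI1_12)
    (h₂ := nodeI1_16)

theorem nodeI1_18 : PosOn (matEx 5 offI1 14 MI1)
    ⟨(0, 0, 65536), (65536, 0, 65536), (65536, 65536, 65536)⟩ :=
  posOn_node 2 (A := ⟨(65536, 65536, 65536), (32768, 32768, 65536), (65536, 0, 65536)⟩) (B := ⟨(32768, 32768, 65536), (0, 0, 65536), (65536, 0, 65536)⟩) ⟨by decide +kernel, rfl, rfl⟩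
    (h₁ := nodeI1_6)
    (h₂ := nodeI1_17)

theorem nodeI1_19 : PosOn (matEx 5 offI1 14 MI1)
    ⟨(16384, 16384, 65536), (16384, 32768, 65536), (8192, 24576, 65536)⟩ :=
  posOn_node 0 (A := ⟨(16384, 16384, 65536), (16384, 24576, 65536), (8192, 24576, 65536)⟩) (B := ⟨(16384, 24576, 65536), (16384, 32768, 65536), (8192, 24576, 65536)⟩) ⟨by decide +kernel, rfl, rfl⟩
    (h₁ := (posOn_smul 16384 8192 8192 rfl (posOn_of_leaf okI1 leafI1_22)))
    (h₂ := (posOn_smul 8192 16384 8192 rfl (posOn_of_leaf okI1 leafI1_23)))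

theorem nodeI1_20 : PosOn (matEx 5 offI1 14 MI1)
    ⟨(16384, 32768, 65536), (16384, 49152, 65536), (8192, 24576, 65536)⟩ :=
  posOn_node 1 (A := ⟨(16384, 49152, 65536), (12288, 36864, 65536), (16384, 32768, 65536)⟩) (B := ⟨(12288, 36864, 65536), (8192, 24576, 65536), (16384, 32768, 65536)⟩) ⟨by decide +kernel, rfl, rfl⟩
    (h₁ := (posOn_smul 16384 4096 16384 rfl (posOn_of_leaf okI1 leafI1_24)))
    (h₂ := (posOn_smul 4096 8192 16384 rfl (posOn_of_leaf okI1 leafI1_25)))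

theorem nodeI1_21 : PosOn (matEx 5 offI1 14 MI1)
    ⟨(16384, 49152, 65536), (8192, 24576, 65536), (16384, 16384, 65536)⟩ :=
  posOn_node 2 (A := ⟨(16384, 16384, 65536), (16384, 32768, 65536), (8192, 24576, 65536)⟩) (B := ⟨(16384, 32768, 65536), (16384, 49152, 65536), (8192, 24576, 65536)⟩) ⟨by decide +kernel, rfl, rfl⟩
    (h₁ := nodeI1_19)
    (h₂ := nodeI1_20)

theorem nodeI1_22 : PosOn (matEx 5 offI1 14 MI1)
    ⟨(0, 0, 65536), (16384, 16384, 65536), (16384, 49152, 65536)⟩ :=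
  posOn_node 2 (A := ⟨(16384, 49152, 65536), (8192, 24576, 65536), (16384, 16384, 65536)⟩) (B := ⟨(8192, 24576, 65536), (0, 0, 65536), (16384, 16384, 65536)⟩) ⟨by decide +kernel, rfl, rfl⟩
    (h₁ := nodeI1_21)
    (h₂ := (posOn_smul 8192 65536 16384 rfl (posOn_of_leaf okI1 leafI1_26)))

theorem nodeI1_23 : PosOn (matEx 5 offI1 14 MI1)
    ⟨(16384, 49152, 65536), (16384, 32768, 65536), (24576, 40960, 65536)⟩ :=
  posOn_node 2 (A := ⟨(24576, 40960, 65536), (20480, 45056, 65536), (16384, 32768, 65536)⟩) (B := ⟨(20480, 45056, 65536), (16384, 49152, 65536), (16384, 32768, 65536)⟩) ⟨by decide +kernel, rfl, rfl⟩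
    (h₁ := (posOn_smul 8192 4096 16384 rfl (posOn_of_leaf okI1 leafI1_28)))
    (h₂ := (posOn_smul 4096 16384 16384 rfl (posOn_of_leaf okI1 leafI1_29)))

theorem nodeI1_24 : PosOn (matEx 5 offI1 14 MI1)
    ⟨(24576, 40960, 65536), (16384, 49152, 65536), (16384, 16384, 65536)⟩ :=
  posOn_node 1 (A := ⟨(16384, 49152, 65536), (16384, 32768, 65536), (24576, 40960, 65536)⟩) (B := ⟨(16384, 32768, 65536), (16384, 16384, 65536), (24576, 40960, 65536)⟩) ⟨by decide +kernel, rfl, rfl⟩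
    (h₁ := nodeI1_23)
    (h₂ := (posOn_smul 16384 16384 8192 rfl (posOn_of_leaf okI1 leafI1_30)))

theorem nodeI1_25 : PosOn (matEx 5 offI1 14 MI1)
    ⟨(16384, 16384, 65536), (32768, 32768, 65536), (16384, 49152, 65536)⟩ :=
  posOn_node 1 (A := ⟨(32768, 32768, 65536), (24576, 40960, 65536), (16384, 16384, 65536)⟩) (B := ⟨(24576, 40960, 65536), (16384, 49152, 65536), (16384, 16384, 65536)⟩) ⟨by decide +kernel, rfl, rfl⟩
    (h₁ := (posOn_smul 32768 8192 16384 rfl (posOn_of_leaf okI1 leafI1_27)))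
    (h₂ := nodeI1_24)

theorem nodeI1_26 : PosOn (matEx 5 offI1 14 MI1)
    ⟨(32768, 32768, 65536), (16384, 49152, 65536), (0, 0, 65536)⟩ :=
  posOn_node 2 (A := ⟨(0, 0, 65536), (16384, 16384, 65536), (16384, 49152, 65536)⟩) (B := ⟨(16384, 16384, 65536), (32768, 32768, 65536), (16384, 49152, 65536)⟩) ⟨by decide +kernel, rfl, rfl⟩
    (h₁ := nodeI1_22)
    (h₂ := nodeI1_25)

theorem nodeI1_27 : PosOn (matEx 5 offI1 14 MI1)
    ⟨(0, 0, 65536), (32768, 32768, 65536), (0, 65536, 65536)⟩ :=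
  posOn_node 1 (A := ⟨(32768, 32768, 65536), (16384, 49152, 65536), (0, 0, 65536)⟩) (B := ⟨(16384, 49152, 65536), (0, 65536, 65536), (0, 0, 65536)⟩) ⟨by decide +kernel, rfl, rfl⟩
    (h₁ := nodeI1_26)
    (h₂ := (posOn_smul 16384 65536 65536 rfl (posOn_of_leaf okI1 leafI1_31)))

theorem nodeI1_28 : PosOn (matEx 5 offI1 14 MI1)
    ⟨(16384, 49152, 65536), (20480, 53248, 65536), (24576, 65536, 65536)⟩ :=
  posOn_node 2 (A := ⟨(24576, 65536, 65536), (20480, 57344, 65536), (20480, 53248, 65536)⟩) (B := ⟨(20480, 57344, 65536), (16384, 49152, 65536), (20480, 53248, 65536)⟩) ⟨by decide +kernel, rfl, rfl⟩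
    (h₁ := (posOn_smul 8192 4096 4096 rfl (posOn_of_leaf okI1 leafI1_33)))
    (h₂ := (posOn_smul 4096 16384 4096 rfl (posOn_of_leaf okI1 leafI1_34)))

theorem nodeI1_29 : PosOn (matEx 5 offI1 14 MI1)
    ⟨(16384, 49152, 65536), (24576, 57344, 65536), (24576, 65536, 65536)⟩ :=
  posOn_node 0 (A := ⟨(16384, 49152, 65536), (20480, 53248, 65536), (24576, 65536, 65536)⟩) (B := ⟨(20480, 53248, 65536), (24576, 57344, 65536), (24576, 65536, 65536)⟩) ⟨by decide +kernel, rfl, rfl⟩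
    (h₁ := nodeI1_28)
    (h₂ := (posOn_smul 4096 8192 8192 rfl (posOn_of_leaf okI1 leafI1_35)))

theorem nodeI1_30 : PosOn (matEx 5 offI1 14 MI1)
    ⟨(32768, 65536, 65536), (24576, 65536, 65536), (16384, 49152, 65536)⟩ :=
  posOn_node 2 (A := ⟨(16384, 49152, 65536), (24576, 57344, 65536), (24576, 65536, 65536)⟩) (B := ⟨(24576, 57344, 65536), (32768, 65536, 65536), (24576, 65536, 65536)⟩) ⟨by decide +kernel, rfl, rfl⟩
    (h₁ := nodeI1_29)
    (h₂ := (posOn_smul 8192 32768 8192 rfl (posOn_of_leaf okI1 leafI1_36)))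

theorem nodeI1_31 : PosOn (matEx 5 offI1 14 MI1)
    ⟨(24576, 65536, 65536), (16384, 65536, 65536), (16384, 49152, 65536)⟩ :=
  posOn_node 2 (A := ⟨(16384, 49152, 65536), (20480, 57344, 65536), (16384, 65536, 65536)⟩) (B := ⟨(20480, 57344, 65536), (24576, 65536, 65536), (16384, 65536, 65536)⟩) ⟨by decide +kernel, rfl, rfl⟩
    (h₁ := (posOn_smul 16384 4096 16384 rfl (posOn_of_leaf okI1 leafI1_37)))
    (h₂ := (posOn_smul 4096 8192 16384 rfl (posOn_of_leaf okI1 leafI1_38)))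

theorem nodeI1_32 : PosOn (matEx 5 offI1 14 MI1)
    ⟨(32768, 65536, 65536), (16384, 65536, 65536), (16384, 49152, 65536)⟩ :=
  posOn_node 0 (A := ⟨(32768, 65536, 65536), (24576, 65536, 65536), (16384, 49152, 65536)⟩) (B := ⟨(24576, 65536, 65536), (16384, 65536, 65536), (16384, 49152, 65536)⟩) ⟨by decide +kernel, rfl, rfl⟩
    (h₁ := nodeI1_30)
    (h₂ := nodeI1_31)

theorem nodeI1_33 : PosOn (matEx 5 offI1 14 MI1)
    ⟨(0, 65536, 65536), (16384, 49152, 65536), (32768, 65536, 65536)⟩ :=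
  posOn_node 2 (A := ⟨(32768, 65536, 65536), (16384, 65536, 65536), (16384, 49152, 65536)⟩) (B := ⟨(16384, 65536, 65536), (0, 65536, 65536), (16384, 49152, 65536)⟩) ⟨by decide +kernel, rfl, rfl⟩
    (h₁ := nodeI1_32)
    (h₂ := (posOn_smul 16384 65536 16384 rfl (posOn_of_leaf okI1 leafI1_39)))

theorem nodeI1_34 : PosOn (matEx 5 offI1 14 MI1)
    ⟨(20480, 53248, 65536), (16384, 49152, 65536), (24576, 40960, 65536)⟩ :=
  posOn_node 1 (A := ⟨(16384, 49152, 65536), (20480, 45056, 65536), (20480, 53248, 65536)⟩) (B := ⟨(20480, 45056, 65536), (24576, 40960, 65536), (20480, 53248, 65536)⟩) ⟨by decide +kernel, rfl, rfl⟩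
    (h₁ := (posOn_smul 16384 4096 4096 rfl (posOn_of_leaf okI1 leafI1_42)))
    (h₂ := (posOn_smul 4096 8192 4096 rfl (posOn_of_leaf okI1 leafI1_43)))

theorem nodeI1_35 : PosOn (matEx 5 offI1 14 MI1)
    ⟨(16384, 49152, 65536), (24576, 40960, 65536), (24576, 57344, 65536)⟩ :=
  posOn_node 2 (A := ⟨(24576, 57344, 65536), (20480, 53248, 65536), (24576, 40960, 65536)⟩) (B := ⟨(20480, 53248, 65536), (16384, 49152, 65536), (24576, 40960, 65536)⟩) ⟨by decide +kernel, rfl, rfl⟩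
    (h₁ := (posOn_smul 8192 4096 8192 rfl (posOn_of_leaf okI1 leafI1_41)))
    (h₂ := nodeI1_34)

theorem nodeI1_36 : PosOn (matEx 5 offI1 14 MI1)
    ⟨(24576, 57344, 65536), (16384, 49152, 65536), (32768, 32768, 65536)⟩ :=
  posOn_node 1 (A := ⟨(16384, 49152, 65536), (24576, 40960, 65536), (24576, 57344, 65536)⟩) (B := ⟨(24576, 40960, 65536), (32768, 32768, 65536), (24576, 57344, 65536)⟩) ⟨by decide +kernel, rfl, rfl⟩
    (h₁ := nodeI1_35)
    (h₂ := (posOn_smul 8192 32768 8192 rfl (posOn_of_leaf okI1 leafI1_44)))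

theorem nodeI1_37 : PosOn (matEx 5 offI1 14 MI1)
    ⟨(16384, 49152, 65536), (32768, 32768, 65536), (32768, 65536, 65536)⟩ :=
  posOn_node 2 (A := ⟨(32768, 65536, 65536), (24576, 57344, 65536), (32768, 32768, 65536)⟩) (B := ⟨(24576, 57344, 65536), (16384, 49152, 65536), (32768, 32768, 65536)⟩) ⟨by decide +kernel, rfl, rfl⟩
    (h₁ := (posOn_smul 32768 8192 32768 rfl (posOn_of_leaf okI1 leafI1_40)))
    (h₂ := nodeI1_36)

theorem nodeI1_38 : PosOn (matEx 5 offI1 14 MI1)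
    ⟨(32768, 65536, 65536), (0, 65536, 65536), (32768, 32768, 65536)⟩ :=
  posOn_node 1 (A := ⟨(0, 65536, 65536), (16384, 49152, 65536), (32768, 65536, 65536)⟩) (B := ⟨(16384, 49152, 65536), (32768, 32768, 65536), (32768, 65536, 65536)⟩) ⟨by decide +kernel, rfl, rfl⟩
    (h₁ := nodeI1_33)
    (h₂ := nodeI1_37)

theorem nodeI1_39 : PosOn (matEx 5 offI1 14 MI1)
    ⟨(32768, 32768, 65536), (65536, 65536, 65536), (0, 65536, 65536)⟩ :=
  posOn_node 1 (A := ⟨(65536, 65536, 65536), (32768, 65536, 65536), (32768, 32768, 65536)⟩) (B := ⟨(32768, 65536, 65536), (0, 65536, 65536), (32768, 32768, 65536)⟩) ⟨by decide +kernel, rfl, rfl⟩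
    (h₁ := (posOn_smul 65536 32768 32768 rfl (posOn_of_leaf okI1 leafI1_32)))
    (h₂ := nodeI1_38)

theorem nodeI1_40 : PosOn (matEx 5 offI1 14 MI1)
    ⟨(0, 0, 65536), (65536, 65536, 65536), (0, 65536, 65536)⟩ :=
  posOn_node 0 (A := ⟨(0, 0, 65536), (32768, 32768, 65536), (0, 65536, 65536)⟩) (B := ⟨(32768, 32768, 65536), (65536, 65536, 65536), (0, 65536, 65536)⟩) ⟨by decide +kernel, rfl, rfl⟩
    (h₁ := nodeI1_27)
    (h₂ := nodeI1_39)

/-- Block I1 is nonnegative on root 0. -/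
theorem posOnI1_0 : PosOn (matEx 5 offI1 14 MI1)
    ⟨((-65536), 0, 65536), (0, 0, 65536), ((-65536), 65536, 65536)⟩ :=
  nodeI1_2

/-- Block I1 is nonnegative on root 1. -/
theorem posOnI1_1 : PosOn (matEx 5 offI1 14 MI1)
    ⟨(0, 0, 65536), (0, 65536, 65536), ((-65536), 65536, 65536)⟩ :=
  (posOn_smul 65536 65536 65536 rfl (posOn_of_leaf okI1 leafI1_4))

/-- Block I1 is nonnegative on root 2. -/
theorem posOnI1_2 : PosOn (matEx 5 offI1 14 MI1)
    ⟨(0, 0, 65536), (65536, 0, 65536), (65536, 65536, 65536)⟩ :=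
  nodeI1_18

/-- Block I1 is nonnegative on root 3. -/
theorem posOnI1_3 : PosOn (matEx 5 offI1 14 MI1)
    ⟨(0, 0, 65536), (65536, 65536, 65536), (0, 65536, 65536)⟩ :=
  nodeI1_40

end Vale.Agent.P252.General.Cert5.Trees
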