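import Vale.Agent.P252.Cert.PDCoef
import Vale.Agent.P252.Rigidity.General.Cert5.Flat.I1

/-! Leaves 0..44 of block I1, generated. -/

namespace Vale.Agent.P252.General.Cert5.Trees

open Vale.Agent.P252.PolyPSD Vale.Agent.P252.PDCoef

theorem leafI1_0 : checkLeaf 5 nbI1 offI1 14 MI1
    ⟨((-1), 1, 1), ((-2), 1, 2), ((-1), 0, 2)⟩ = true := by decide +kernel

theorem leafI1_1 : checkLeaf 5 nbI1 offI1 14 MI1
    ⟨((-1), 0, 2), ((-3), 1, 4), ((-1), 0, 1)⟩ = true := by decide +kernel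

theorem leafI1_2 : checkLeaf 5 nbI1 offI1 14 MI1
    ⟨((-3), 1, 4), ((-2), 1, 2), ((-1), 0, 1)⟩ = true := by decide +kernel

theorem leafI1_3 : checkLeaf 5 nbI1 offI1 14 MI1
    ⟨((-1), 0, 2), (0, 0, 1), ((-1), 1, 1)⟩ = true := by decide +kernel

theorem leafI1_4 : checkLeaf 5 nbI1 offI1 14 MI1
    ⟨(0, 0, 1), (0, 1, 1), ((-1), 1, 1)⟩ = true := by decide +kernel

theorem leafI1_5 : checkLeaf 5 nbI1 offI1 14 MI1
    ⟨(1, 0, 1), (2, 1, 2), (1, 1, 2)⟩ = true := by decide +kernel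

theorem leafI1_6 : checkLeaf 5 nbI1 offI1 14 MI1
    ⟨(4, 3, 4), (6, 5, 8), (2, 1, 2)⟩ = true := by decide +kernel

theorem leafI1_7 : checkLeaf 5 nbI1 offI1 14 MI1
    ⟨(6, 5, 8), (1, 1, 2), (2, 1, 2)⟩ = true := by decide +kernel

theorem leafI1_8 : checkLeaf 5 nbI1 offI1 14 MI1
    ⟨(1, 1, 2), (6, 5, 8), (1, 1, 1)⟩ = true := by decide +kernel

theorem leafI1_9 : checkLeaf 5 nbI1 offI1 14 MI1
    ⟨(6, 5, 8), (4, 3, 4), (1, 1, 1)⟩ = true := by decide +kernel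

theorem leafI1_10 : checkLeaf 5 nbI1 offI1 14 MI1
    ⟨(1, 1, 2), (1, 1, 4), (1, 0, 4)⟩ = true := by decide +kernel

theorem leafI1_11 : checkLeaf 5 nbI1 offI1 14 MI1
    ⟨(0, 0, 1), (1, 0, 8), (1, 1, 4)⟩ = true := by decide +kernel

theorem leafI1_12 : checkLeaf 5 nbI1 offI1 14 MI1
    ⟨(1, 0, 8), (3, 0, 16), (1, 1, 4)⟩ = true := by decide +kernel

theorem leafI1_13 : checkLeaf 5 nbI1 offI1 14 MI1
    ⟨(1, 1, 4), (7, 4, 32), (1, 0, 4)⟩ = true := by decide +kernel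

theorem leafI1_14 : checkLeaf 5 nbI1 offI1 14 MI1
    ⟨(3, 0, 16), (7, 0, 32), (7, 4, 32)⟩ = true := by decide +kernel

theorem leafI1_15 : checkLeaf 5 nbI1 offI1 14 MI1
    ⟨(7, 0, 32), (1, 0, 4), (7, 4, 32)⟩ = true := by decide +kernel

theorem leafI1_16 : checkLeaf 5 nbI1 offI1 14 MI1
    ⟨(1, 0, 4), (1, 0, 2), (1, 1, 2)⟩ = true := by decide +kernel

theorem leafI1_17 : checkLeaf 5 nbI1 offI1 14 MI1
    ⟨(1, 0, 2), (9, 0, 16), (9, 4, 16)⟩ = true := by decide +kernel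

theorem leafI1_18 : checkLeaf 5 nbI1 offI1 14 MI1
    ⟨(9, 0, 16), (5, 0, 8), (9, 4, 16)⟩ = true := by decide +kernel

theorem leafI1_19 : checkLeaf 5 nbI1 offI1 14 MI1
    ⟨(9, 4, 16), (1, 1, 2), (1, 0, 2)⟩ = true := by decide +kernel

theorem leafI1_20 : checkLeaf 5 nbI1 offI1 14 MI1
    ⟨(5, 0, 8), (3, 0, 4), (1, 1, 2)⟩ = true := by decide +kernel

theorem leafI1_21 : checkLeaf 5 nbI1 offI1 14 MI1
    ⟨(3, 0, 4), (1, 0, 1), (1, 1, 2)⟩ = true := by decide +kernel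

theorem leafI1_22 : checkLeaf 5 nbI1 offI1 14 MI1
    ⟨(1, 1, 4), (2, 3, 8), (1, 3, 8)⟩ = true := by decide +kernel

theorem leafI1_23 : checkLeaf 5 nbI1 offI1 14 MI1
    ⟨(2, 3, 8), (1, 2, 4), (1, 3, 8)⟩ = true := by decide +kernel

theorem leafI1_24 : checkLeaf 5 nbI1 offI1 14 MI1
    ⟨(1, 3, 4), (3, 9, 16), (1, 2, 4)⟩ = true := by decide +kernel

theorem leafI1_25 : checkLeaf 5 nbI1 offI1 14 MI1
    ⟨(3, 9, 16), (1, 3, 8), (1, 2, 4)⟩ = true := by decide +kernel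

theorem leafI1_26 : checkLeaf 5 nbI1 offI1 14 MI1
    ⟨(1, 3, 8), (0, 0, 1), (1, 1, 4)⟩ = true := by decide +kernel

theorem leafI1_27 : checkLeaf 5 nbI1 offI1 14 MI1
    ⟨(1, 1, 2), (3, 5, 8), (1, 1, 4)⟩ = true := by decide +kernel

theorem leafI1_28 : checkLeaf 5 nbI1 offI1 14 MI1
    ⟨(3, 5, 8), (5, 11, 16), (1, 2, 4)⟩ = true := by decide +kernel

theorem leafI1_29 : checkLeaf 5 nbI1 offI1 14 MI1
    ⟨(5, 11, 16), (1, 3, 4), (1, 2, 4)⟩ = true := by decide +kernel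

theorem leafI1_30 : checkLeaf 5 nbI1 offI1 14 MI1
    ⟨(1, 2, 4), (1, 1, 4), (3, 5, 8)⟩ = true := by decide +kernel

theorem leafI1_31 : checkLeaf 5 nbI1 offI1 14 MI1
    ⟨(1, 3, 4), (0, 1, 1), (0, 0, 1)⟩ = true := by decide +kernel

theorem leafI1_32 : checkLeaf 5 nbI1 offI1 14 MI1
    ⟨(1, 1, 1), (1, 2, 2), (1, 1, 2)⟩ = true := by decide +kernel

theorem leafI1_33 : checkLeaf 5 nbI1 offI1 14 MI1
    ⟨(3, 8, 8), (5, 14, 16), (5, 13, 16)⟩ = true := by decide +kernel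

theorem leafI1_34 : checkLeaf 5 nbI1 offI1 14 MI1
    ⟨(5, 14, 16), (1, 3, 4), (5, 13, 16)⟩ = true := by decide +kernel

theorem leafI1_35 : checkLeaf 5 nbI1 offI1 14 MI1
    ⟨(5, 13, 16), (3, 7, 8), (3, 8, 8)⟩ = true := by decide +kernel

theorem leafI1_36 : checkLeaf 5 nbI1 offI1 14 MI1
    ⟨(3, 7, 8), (1, 2, 2), (3, 8, 8)⟩ = true := by decide +kernel

theorem leafI1_37 : checkLeaf 5 nbI1 offI1 14 MI1
    ⟨(1, 3, 4), (5, 14, 16), (1, 4, 4)⟩ = true := by decide +kernel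

theorem leafI1_38 : checkLeaf 5 nbI1 offI1 14 MI1
    ⟨(5, 14, 16), (3, 8, 8), (1, 4, 4)⟩ = true := by decide +kernel

theorem leafI1_39 : checkLeaf 5 nbI1 offI1 14 MI1
    ⟨(1, 4, 4), (0, 1, 1), (1, 3, 4)⟩ = true := by decide +kernel

theorem leafI1_40 : checkLeaf 5 nbI1 offI1 14 MI1
    ⟨(1, 2, 2), (3, 7, 8), (1, 1, 2)⟩ = true := by decide +kernel

theorem leafI1_41 : checkLeaf 5 nbI1 offI1 14 MI1
    ⟨(3, 7, 8), (5, 13, 16), (3, 5, 8)⟩ = true := by decide +kernel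

theorem leafI1_42 : checkLeaf 5 nbI1 offI1 14 MI1
    ⟨(1, 3, 4), (5, 11, 16), (5, 13, 16)⟩ = true := by decide +kernel

theorem leafI1_43 : checkLeaf 5 nbI1 offI1 14 MI1
    ⟨(5, 11, 16), (3, 5, 8), (5, 13, 16)⟩ = true := by decide +kernel

theorem leafI1_44 : checkLeaf 5 nbI1 offI1 14 MI1
    ⟨(3, 5, 8), (1, 1, 2), (3, 7, 8)⟩ = true := by decide +kernel

end Vale.Agent.P252.General.Cert5.Trees
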