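import Vale.Agent.P252.Rigidity.General.Cert5.Trees.I2_0
import Vale.Agent.P252.Rigidity.General.Cert5.Trees.Glue

/-! Block I2 assembled from its leaves, generated. -/

namespace Vale.Agent.P252.General.Cert5.Trees

open Vale.Agent.P252.PolyPSD Vale.Agent.P252.PDCoef

theorem okI2 : blockOK 3 nbI2 offI2 14 MI2 = true := by decide +kernel

theorem nodeI2_0 : PosOn (matEx 3 offI2 14 MI2)
    ⟨((-65536), 0, 65536), (0, 0, 65536), ((-65536), 65536, 65536)⟩ :=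
  posOn_node 0 (A := ⟨((-65536), 0, 65536), ((-32768), 0, 65536), ((-65536), 65536, 65536)⟩) (B := ⟨((-32768), 0, 65536), (0, 0, 65536), ((-65536), 65536, 65536)⟩) ⟨by decide +kernel, rfl, rfl⟩
    (h₁ := (posOn_smul 65536 32768 65536 rfl (posOn_of_leaf okI2 leafI2_0)))
    (h₂ := (posOn_smul 32768 65536 65536 rfl (posOn_of_leaf okI2 leafI2_1)))

theorem nodeI2_1 : PosOn (matEx 3 offI2 14 MI2)
    ⟨(14336, 8192, 65536), (12288, 0, 65536), (16384, 0, 65536)⟩ :=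
  posOn_node 1 (A := ⟨(12288, 0, 65536), (14336, 0, 65536), (14336, 8192, 65536)⟩) (B := ⟨(14336, 0, 65536), (16384, 0, 65536), (14336, 8192, 65536)⟩) ⟨by decide +kernel, rfl, rfl⟩
    (h₁ := (posOn_smul 4096 2048 2048 rfl (posOn_of_leaf okI2 leafI2_8)))
    (h₂ := (posOn_smul 2048 16384 2048 rfl (posOn_of_leaf okI2 leafI2_9)))

theorem nodeI2_2 : PosOn (matEx 3 offI2 14 MI2)
    ⟨(12288, 0, 65536), (16384, 0, 65536), (16384, 16384, 65536)⟩ :=
  posOn_node 2 (A := ⟨(16384, 16384, 65536), (14336, 8192, 65536), (16384, 0, 65536)⟩) (B := ⟨(14336, 8192, 65536), (12288, 0, 65536), (16384, 0, 65536)⟩) ⟨by decide +kernel, rfl, rfl⟩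
    (h₁ := (posOn_smul 16384 2048 16384 rfl (posOn_of_leaf okI2 leafI2_7)))
    (h₂ := nodeI2_1)

theorem nodeI2_3 : PosOn (matEx 3 offI2 14 MI2)
    ⟨(8192, 0, 65536), (16384, 0, 65536), (16384, 16384, 65536)⟩ :=
  posOn_node 0 (A := ⟨(8192, 0, 65536), (12288, 0, 65536), (16384, 16384, 65536)⟩) (B := ⟨(12288, 0, 65536), (16384, 0, 65536), (16384, 16384, 65536)⟩) ⟨by decide +kernel, rfl, rfl⟩
    (h₁ := (posOn_smul 8192 4096 16384 rfl (posOn_of_leaf okI2 leafI2_6)))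
    (h₂ := nodeI2_2)

theorem nodeI2_4 : PosOn (matEx 3 offI2 14 MI2)
    ⟨(0, 0, 65536), (16384, 0, 65536), (16384, 16384, 65536)⟩ :=
  posOn_node 0 (A := ⟨(0, 0, 65536), (8192, 0, 65536), (16384, 16384, 65536)⟩) (B := ⟨(8192, 0, 65536), (16384, 0, 65536), (16384, 16384, 65536)⟩) ⟨by decide +kernel, rfl, rfl⟩
    (h₁ := (posOn_smul 65536 8192 16384 rfl (posOn_of_leaf okI2 leafI2_5)))
    (h₂ := nodeI2_3)

theorem nodeI2_5 : PosOn (matEx 3 offI2 14 MI2)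
    ⟨(16384, 16384, 65536), (0, 0, 65536), (32768, 0, 65536)⟩ :=
  posOn_node 1 (A := ⟨(0, 0, 65536), (16384, 0, 65536), (16384, 16384, 65536)⟩) (B := ⟨(16384, 0, 65536), (32768, 0, 65536), (16384, 16384, 65536)⟩) ⟨by decide +kernel, rfl, rfl⟩
    (h₁ := nodeI2_4)
    (h₂ := (posOn_smul 16384 32768 16384 rfl (posOn_of_leaf okI2 leafI2_10)))

theorem nodeI2_6 : PosOn (matEx 3 offI2 14 MI2)
    ⟨(0, 0, 65536), (32768, 0, 65536), (32768, 32768, 65536)⟩ :=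
  posOn_node 2 (A := ⟨(32768, 32768, 65536), (16384, 16384, 65536), (32768, 0, 65536)⟩) (B := ⟨(16384, 16384, 65536), (0, 0, 65536), (32768, 0, 65536)⟩) ⟨by decide +kernel, rfl, rfl⟩
    (h₁ := (posOn_smul 32768 16384 32768 rfl (posOn_of_leaf okI2 leafI2_4)))
    (h₂ := nodeI2_5)

theorem nodeI2_7 : PosOn (matEx 3 offI2 14 MI2)
    ⟨(40960, 0, 65536), (36864, 16384, 65536), (32768, 0, 65536)⟩ :=
  posOn_node 2 (A := ⟨(32768, 0, 65536), (36864, 0, 65536), (36864, 16384, 65536)⟩) (B := ⟨(36864, 0, 65536), (40960, 0, 65536), (36864, 16384, 65536)⟩) ⟨by decide +kernel, rfl, rfl⟩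
    (h₁ := (posOn_smul 32768 4096 4096 rfl (posOn_of_leaf okI2 leafI2_11)))
    (h₂ := (posOn_smul 4096 8192 4096 rfl (posOn_of_leaf okI2 leafI2_12)))

theorem nodeI2_8 : PosOn (matEx 3 offI2 14 MI2)
    ⟨(32768, 0, 65536), (40960, 0, 65536), (32768, 32768, 65536)⟩ :=
  posOn_node 1 (A := ⟨(40960, 0, 65536), (36864, 16384, 65536), (32768, 0, 65536)⟩) (B := ⟨(36864, 16384, 65536), (32768, 32768, 65536), (32768, 0, 65536)⟩) ⟨by decide +kernel, rfl, rfl⟩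
    (h₁ := nodeI2_7)
    (h₂ := (posOn_smul 4096 32768 32768 rfl (posOn_of_leaf okI2 leafI2_13)))

theorem nodeI2_9 : PosOn (matEx 3 offI2 14 MI2)
    ⟨(32768, 0, 65536), (49152, 0, 65536), (32768, 32768, 65536)⟩ :=
  posOn_node 0 (A := ⟨(32768, 0, 65536), (40960, 0, 65536), (32768, 32768, 65536)⟩) (B := ⟨(40960, 0, 65536), (49152, 0, 65536), (32768, 32768, 65536)⟩) ⟨by decide +kernel, rfl, rfl⟩
    (h₁ := nodeI2_8)
    (h₂ := (posOn_smul 8192 16384 32768 rfl (posOn_of_leaf okI2 leafI2_14)))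

theorem nodeI2_10 : PosOn (matEx 3 offI2 14 MI2)
    ⟨(32768, 0, 65536), (65536, 0, 65536), (32768, 32768, 65536)⟩ :=
  posOn_node 0 (A := ⟨(32768, 0, 65536), (49152, 0, 65536), (32768, 32768, 65536)⟩) (B := ⟨(49152, 0, 65536), (65536, 0, 65536), (32768, 32768, 65536)⟩) ⟨by decide +kernel, rfl, rfl⟩
    (h₁ := nodeI2_9)
    (h₂ := (posOn_smul 16384 65536 32768 rfl (posOn_of_leaf okI2 leafI2_15)))

theorem nodeI2_11 : PosOn (matEx 3 offI2 14 MI2)
    ⟨(32768, 32768, 65536), (0, 0, 65536), (65536, 0, 65536)⟩ :=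
  posOn_node 1 (A := ⟨(0, 0, 65536), (32768, 0, 65536), (32768, 32768, 65536)⟩) (B := ⟨(32768, 0, 65536), (65536, 0, 65536), (32768, 32768, 65536)⟩) ⟨by decide +kernel, rfl, rfl⟩
    (h₁ := nodeI2_6)
    (h₂ := nodeI2_10)

theorem nodeI2_12 : PosOn (matEx 3 offI2 14 MI2)
    ⟨(0, 0, 65536), (65536, 0, 65536), (65536, 65536, 65536)⟩ :=
  posOn_node 2 (A := ⟨(65536, 65536, 65536), (32768, 32768, 65536), (65536, 0, 65536)⟩) (B := ⟨(32768, 32768, 65536), (0, 0, 65536), (65536, 0, 65536)⟩) ⟨by decide +kernel, rfl, rfl⟩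
    (h₁ := (posOn_smul 65536 32768 65536 rfl (posOn_of_leaf okI2 leafI2_3)))
    (h₂ := nodeI2_11)

theorem nodeI2_13 : PosOn (matEx 3 offI2 14 MI2)
    ⟨(0, 0, 65536), (32768, 32768, 65536), (0, 65536, 65536)⟩ :=
  posOn_node 0 (A := ⟨(0, 0, 65536), (16384, 16384, 65536), (0, 65536, 65536)⟩) (B := ⟨(16384, 16384, 65536), (32768, 32768, 65536), (0, 65536, 65536)⟩) ⟨by decide +kernel, rfl, rfl⟩
    (h₁ := (posOn_smul 65536 16384 65536 rfl (posOn_of_leaf okI2 leafI2_16)))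
    (h₂ := (posOn_smul 16384 32768 65536 rfl (posOn_of_leaf okI2 leafI2_17)))

theorem nodeI2_14 : PosOn (matEx 3 offI2 14 MI2)
    ⟨(0, 0, 65536), (65536, 65536, 65536), (0, 65536, 65536)⟩ :=
  posOn_node 0 (A := ⟨(0, 0, 65536), (32768, 32768, 65536), (0, 65536, 65536)⟩) (B := ⟨(32768, 32768, 65536), (65536, 65536, 65536), (0, 65536, 65536)⟩) ⟨by decide +kernel, rfl, rfl⟩
    (h₁ := nodeI2_13)
    (h₂ := (posOn_smul 32768 65536 65536 rfl (posOn_of_leaf okI2 leafI2_18)))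

/-- Block I2 is nonnegative on root 0. -/
theorem posOnI2_0 : PosOn (matEx 3 offI2 14 MI2)
    ⟨((-65536), 0, 65536), (0, 0, 65536), ((-65536), 65536, 65536)⟩ :=
  nodeI2_0

/-- Block I2 is nonnegative on root 1. -/
theorem posOnI2_1 : PosOn (matEx 3 offI2 14 MI2)
    ⟨(0, 0, 65536), (0, 65536, 65536), ((-65536), 65536, 65536)⟩ :=
  (posOn_smul 65536 65536 65536 rfl (posOn_of_leaf okI2 leafI2_2))

/-- Block I2 is nonnegative on root 2. -/
theorem posOnI2_2 : PosOn (matEx 3 offI2 14 MI2)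
    ⟨(0, 0, 65536), (65536, 0, 65536), (65536, 65536, 65536)⟩ :=
  nodeI2_12

/-- Block I2 is nonnegative on root 3. -/
theorem posOnI2_3 : PosOn (matEx 3 offI2 14 MI2)
    ⟨(0, 0, 65536), (65536, 65536, 65536), (0, 65536, 65536)⟩ :=
  nodeI2_14

end Vale.Agent.P252.General.Cert5.Trees
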