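import Vale.Agent.P252.Cert.PDCoef
import Vale.Agent.P252.Rigidity.General.Cert5.Flat.II0

/-! Leaves 11..21 of block II0, generated. -/

namespace Vale.Agent.P252.General.Cert5.Trees

open Vale.Agent.P252.PolyPSD Vale.Agent.P252.PDCoef

theorem leafII0_11 : checkLeaf 9 nbII0 offII0 16 MII0
    ⟨((-1), 15, 32), (0, 1, 2), ((-1), 8, 16)⟩ = true := by decide +kernel

theorem leafII0_12 : checkLeaf 9 nbII0 offII0 16 MII0
    ⟨((-1), 8, 16), ((-1), 4, 8), ((-1), 7, 16)⟩ = true := by decide +kernel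

theorem leafII0_13 : checkLeaf 9 nbII0 offII0 16 MII0
    ⟨((-1), 2, 4), ((-3), 7, 16), ((-1), 4, 8)⟩ = true := by decide +kernel

theorem leafII0_14 : checkLeaf 9 nbII0 offII0 16 MII0
    ⟨((-3), 7, 16), ((-5), 13, 32), ((-2), 7, 16)⟩ = true := by decide +kernel

theorem leafII0_15 : checkLeaf 9 nbII0 offII0 16 MII0
    ⟨((-5), 13, 32), ((-1), 3, 8), ((-2), 7, 16)⟩ = true := by decide +kernel

theorem leafII0_16 : checkLeaf 9 nbII0 offII0 16 MII0
    ⟨((-2), 7, 16), ((-1), 4, 8), ((-3), 7, 16)⟩ = true := by decide +kernel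

theorem leafII0_17 : checkLeaf 9 nbII0 offII0 16 MII0
    ⟨((-1), 2, 4), ((-1), 1, 2), ((-1), 1, 4)⟩ = true := by decide +kernel

theorem leafII0_18 : checkLeaf 9 nbII0 offII0 16 MII0
    ⟨((-1), 1, 8), ((-1), 3, 16), ((-1), 2, 8)⟩ = true := by decide +kernel

theorem leafII0_19 : checkLeaf 9 nbII0 offII0 16 MII0
    ⟨(0, 1, 4), ((-1), 4, 16), ((-1), 3, 16)⟩ = true := by decide +kernel

theorem leafII0_20 : checkLeaf 9 nbII0 offII0 16 MII0
    ⟨((-1), 4, 16), ((-1), 2, 8), ((-1), 3, 16)⟩ = true := by decide +kernel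

theorem leafII0_21 : checkLeaf 9 nbII0 offII0 16 MII0
    ⟨((-1), 1, 4), ((-3), 3, 16), ((-1), 2, 8)⟩ = true := by decide +kernel

end Vale.Agent.P252.General.Cert5.Trees
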