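import Vale.Agent.P252.Cert.PDCoef
import Vale.Agent.P252.Rigidity.General.Cert5.Flat.II0

/-! Leaves 110..120 of block II0, generated. -/

namespace Vale.Agent.P252.General.Cert5.Trees

open Vale.Agent.P252.PolyPSD Vale.Agent.P252.PDCoef

theorem leafII0_110 : checkLeaf 9 nbII0 offII0 16 MII0
    ⟨((-1), 1, 2), ((-3), 3, 4), ((-2), 1, 2)⟩ = true := by decide +kernel

theorem leafII0_111 : checkLeaf 9 nbII0 offII0 16 MII0
    ⟨((-3), 3, 4), ((-1), 1, 1), ((-2), 1, 2)⟩ = true := by decide +kernel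

theorem leafII0_112 : checkLeaf 9 nbII0 offII0 16 MII0
    ⟨((-3), 1, 4), ((-7), 3, 8), ((-4), 1, 4)⟩ = true := by decide +kernel

theorem leafII0_113 : checkLeaf 9 nbII0 offII0 16 MII0
    ⟨((-7), 3, 8), ((-2), 1, 2), ((-4), 1, 4)⟩ = true := by decide +kernel

theorem leafII0_114 : checkLeaf 9 nbII0 offII0 16 MII0
    ⟨((-4), 1, 4), ((-1), 0, 1), ((-3), 1, 4)⟩ = true := by decide +kernel

theorem leafII0_115 : checkLeaf 9 nbII0 offII0 16 MII0
    ⟨((-1), 1, 2), ((-3), 2, 4), ((-3), 1, 4)⟩ = true := by decide +kernel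

theorem leafII0_116 : checkLeaf 9 nbII0 offII0 16 MII0
    ⟨((-2), 1, 2), ((-7), 3, 8), ((-3), 2, 4)⟩ = true := by decide +kernel

theorem leafII0_117 : checkLeaf 9 nbII0 offII0 16 MII0
    ⟨((-7), 3, 8), ((-3), 1, 4), ((-3), 2, 4)⟩ = true := by decide +kernel

theorem leafII0_118 : checkLeaf 9 nbII0 offII0 16 MII0
    ⟨((-2), 3, 4), ((-3), 6, 8), ((-3), 7, 8)⟩ = true := by decide +kernel

theorem leafII0_119 : checkLeaf 9 nbII0 offII0 16 MII0
    ⟨((-1), 3, 4), ((-5), 13, 16), ((-3), 6, 8)⟩ = true := by decide +kernel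

theorem leafII0_120 : checkLeaf 9 nbII0 offII0 16 MII0
    ⟨((-5), 13, 16), ((-3), 7, 8), ((-3), 6, 8)⟩ = true := by decide +kernel

end Vale.Agent.P252.General.Cert5.Trees
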