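import Vale.Agent.P252.Cert.PDCoef
import Vale.Agent.P252.Rigidity.General.Cert5.Flat.II0

/-! Leaves 121..131 of block II0, generated. -/

namespace Vale.Agent.P252.General.Cert5.Trees

open Vale.Agent.P252.PolyPSD Vale.Agent.P252.PDCoef

theorem leafII0_121 : checkLeaf 9 nbII0 offII0 16 MII0
    ⟨((-3), 7, 8), ((-1), 2, 2), ((-2), 3, 4)⟩ = true := by decide +kernel

theorem leafII0_122 : checkLeaf 9 nbII0 offII0 16 MII0
    ⟨((-1), 1, 2), ((-3), 5, 8), ((-2), 3, 4)⟩ = true := by decide +kernel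

theorem leafII0_123 : checkLeaf 9 nbII0 offII0 16 MII0
    ⟨((-3), 5, 8), ((-1), 3, 4), ((-2), 3, 4)⟩ = true := by decide +kernel

theorem leafII0_124 : checkLeaf 9 nbII0 offII0 16 MII0
    ⟨((-1), 7, 8), ((-3), 15, 16), ((-2), 7, 8)⟩ = true := by decide +kernel

theorem leafII0_125 : checkLeaf 9 nbII0 offII0 16 MII0
    ⟨((-1), 4, 4), ((-4), 15, 16), ((-3), 15, 16)⟩ = true := by decide +kernel

theorem leafII0_126 : checkLeaf 9 nbII0 offII0 16 MII0
    ⟨((-4), 15, 16), ((-2), 7, 8), ((-3), 15, 16)⟩ = true := by decide +kernel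

theorem leafII0_127 : checkLeaf 9 nbII0 offII0 16 MII0
    ⟨((-2), 7, 8), ((-4), 13, 16), ((-3), 13, 16)⟩ = true := by decide +kernel

theorem leafII0_128 : checkLeaf 9 nbII0 offII0 16 MII0
    ⟨((-4), 13, 16), ((-1), 3, 4), ((-3), 13, 16)⟩ = true := by decide +kernel

theorem leafII0_129 : checkLeaf 9 nbII0 offII0 16 MII0
    ⟨((-3), 13, 16), ((-1), 7, 8), ((-2), 7, 8)⟩ = true := by decide +kernel

theorem leafII0_130 : checkLeaf 9 nbII0 offII0 16 MII0
    ⟨((-1), 8, 8), ((-2), 15, 16), ((-1), 15, 16)⟩ = true := by decide +kernel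

theorem leafII0_131 : checkLeaf 9 nbII0 offII0 16 MII0
    ⟨((-2), 15, 16), ((-1), 7, 8), ((-1), 15, 16)⟩ = true := by decide +kernel

end Vale.Agent.P252.General.Cert5.Trees
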