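import Vale.Agent.P252.Cert.PDCoef
import Vale.Agent.P252.Rigidity.General.Cert5.Flat.II0

/-! Leaves 132..142 of block II0, generated. -/

namespace Vale.Agent.P252.General.Cert5.Trees

open Vale.Agent.P252.PolyPSD Vale.Agent.P252.PDCoef

theorem leafII0_132 : checkLeaf 9 nbII0 offII0 16 MII0
    ⟨((-1), 15, 16), (0, 1, 1), ((-1), 8, 8)⟩ = true := by decide +kernel

theorem leafII0_133 : checkLeaf 9 nbII0 offII0 16 MII0
    ⟨((-1), 4, 4), ((-3), 15, 16), ((-1), 8, 8)⟩ = true := by decide +kernel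

theorem leafII0_134 : checkLeaf 9 nbII0 offII0 16 MII0
    ⟨((-1), 7, 8), ((-2), 15, 16), ((-3), 15, 16)⟩ = true := by decide +kernel

theorem leafII0_135 : checkLeaf 9 nbII0 offII0 16 MII0
    ⟨((-2), 15, 16), ((-1), 8, 8), ((-3), 15, 16)⟩ = true := by decide +kernel

theorem leafII0_136 : checkLeaf 9 nbII0 offII0 16 MII0
    ⟨((-3), 7, 8), ((-5), 15, 16), ((-3), 8, 8)⟩ = true := by decide +kernel

theorem leafII0_137 : checkLeaf 9 nbII0 offII0 16 MII0
    ⟨((-5), 15, 16), ((-1), 4, 4), ((-3), 8, 8)⟩ = true := by decide +kernel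

theorem leafII0_138 : checkLeaf 9 nbII0 offII0 16 MII0
    ⟨((-3), 8, 8), ((-1), 2, 2), ((-3), 7, 8)⟩ = true := by decide +kernel

theorem leafII0_139 : checkLeaf 9 nbII0 offII0 16 MII0
    ⟨((-3), 7, 8), ((-5), 13, 16), ((-2), 7, 8)⟩ = true := by decide +kernel

theorem leafII0_140 : checkLeaf 9 nbII0 offII0 16 MII0
    ⟨((-1), 3, 4), ((-4), 13, 16), ((-5), 13, 16)⟩ = true := by decide +kernel

theorem leafII0_141 : checkLeaf 9 nbII0 offII0 16 MII0
    ⟨((-4), 13, 16), ((-2), 7, 8), ((-5), 13, 16)⟩ = true := by decide +kernel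

theorem leafII0_142 : checkLeaf 9 nbII0 offII0 16 MII0
    ⟨((-2), 7, 8), ((-4), 15, 16), ((-5), 15, 16)⟩ = true := by decide +kernel

end Vale.Agent.P252.General.Cert5.Trees
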