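import Vale.Agent.P252.Cert.PDCoef
import Vale.Agent.P252.Rigidity.General.Cert5.Flat.II0

/-! Leaves 143..153 of block II0, generated. -/

namespace Vale.Agent.P252.General.Cert5.Trees

open Vale.Agent.P252.PolyPSD Vale.Agent.P252.PDCoef

theorem leafII0_143 : checkLeaf 9 nbII0 offII0 16 MII0
    ⟨((-4), 15, 16), ((-1), 4, 4), ((-5), 15, 16)⟩ = true := by decide +kernel

theorem leafII0_144 : checkLeaf 9 nbII0 offII0 16 MII0
    ⟨((-5), 15, 16), ((-3), 7, 8), ((-2), 7, 8)⟩ = true := by decide +kernel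

theorem leafII0_145 : checkLeaf 9 nbII0 offII0 16 MII0
    ⟨((-5), 7, 8), ((-11), 15, 16), ((-6), 7, 8)⟩ = true := by decide +kernel

theorem leafII0_146 : checkLeaf 9 nbII0 offII0 16 MII0
    ⟨((-11), 15, 16), ((-3), 4, 4), ((-6), 7, 8)⟩ = true := by decide +kernel

theorem leafII0_147 : checkLeaf 9 nbII0 offII0 16 MII0
    ⟨((-6), 7, 8), ((-3), 3, 4), ((-5), 7, 8)⟩ = true := by decide +kernel

theorem leafII0_148 : checkLeaf 9 nbII0 offII0 16 MII0
    ⟨((-1), 2, 2), ((-5), 8, 8), ((-5), 7, 8)⟩ = true := by decide +kernel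

theorem leafII0_149 : checkLeaf 9 nbII0 offII0 16 MII0
    ⟨((-5), 8, 8), ((-11), 16, 16), ((-11), 15, 16)⟩ = true := by decide +kernel

theorem leafII0_150 : checkLeaf 9 nbII0 offII0 16 MII0
    ⟨((-3), 4, 4), ((-23), 31, 32), ((-11), 16, 16)⟩ = true := by decide +kernel

theorem leafII0_151 : checkLeaf 9 nbII0 offII0 16 MII0
    ⟨((-23), 31, 32), ((-11), 15, 16), ((-11), 16, 16)⟩ = true := by decide +kernel

theorem leafII0_152 : checkLeaf 9 nbII0 offII0 16 MII0
    ⟨((-11), 15, 16), ((-5), 7, 8), ((-5), 8, 8)⟩ = true := by decide +kernel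

theorem leafII0_153 : checkLeaf 9 nbII0 offII0 16 MII0
    ⟨((-1), 1, 1), ((-7), 7, 8), ((-3), 4, 4)⟩ = true := by decide +kernel

end Vale.Agent.P252.General.Cert5.Trees
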