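import Vale.Agent.P252.Cert.PDCoef
import Vale.Agent.P252.Rigidity.General.Cert5.Flat.II0

/-! Leaves 154..164 of block II0, generated. -/

namespace Vale.Agent.P252.General.Cert5.Trees

open Vale.Agent.P252.PolyPSD Vale.Agent.P252.PDCoef

theorem leafII0_154 : checkLeaf 9 nbII0 offII0 16 MII0
    ⟨((-3), 3, 4), ((-6), 7, 8), ((-7), 7, 8)⟩ = true := by decide +kernel

theorem leafII0_155 : checkLeaf 9 nbII0 offII0 16 MII0
    ⟨((-6), 7, 8), ((-3), 4, 4), ((-7), 7, 8)⟩ = true := by decide +kernel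

theorem leafII0_156 : checkLeaf 9 nbII0 offII0 16 MII0
    ⟨((-1), 1, 2), ((-2), 3, 4), ((-3), 3, 4)⟩ = true := by decide +kernel

theorem leafII0_157 : checkLeaf 9 nbII0 offII0 16 MII0
    ⟨((-1), 2, 2), ((-5), 7, 8), ((-2), 3, 4)⟩ = true := by decide +kernel

theorem leafII0_158 : checkLeaf 9 nbII0 offII0 16 MII0
    ⟨((-5), 7, 8), ((-3), 3, 4), ((-2), 3, 4)⟩ = true := by decide +kernel

theorem leafII0_159 : checkLeaf 9 nbII0 offII0 16 MII0
    ⟨(2, 1, 4), (3, 2, 8), (3, 1, 8)⟩ = true := by decide +kernel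

theorem leafII0_160 : checkLeaf 9 nbII0 offII0 16 MII0
    ⟨(3, 2, 8), (5, 4, 16), (5, 3, 16)⟩ = true := by decide +kernel

theorem leafII0_161 : checkLeaf 9 nbII0 offII0 16 MII0
    ⟨(5, 4, 16), (1, 1, 4), (5, 3, 16)⟩ = true := by decide +kernel

theorem leafII0_162 : checkLeaf 9 nbII0 offII0 16 MII0
    ⟨(5, 3, 16), (3, 1, 8), (3, 2, 8)⟩ = true := by decide +kernel

theorem leafII0_163 : checkLeaf 9 nbII0 offII0 16 MII0
    ⟨(3, 1, 8), (1, 0, 2), (2, 1, 4)⟩ = true := by decide +kernel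

theorem leafII0_164 : checkLeaf 9 nbII0 offII0 16 MII0
    ⟨(1, 1, 2), (3, 3, 8), (2, 1, 4)⟩ = true := by decide +kernel

end Vale.Agent.P252.General.Cert5.Trees
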