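import Vale.Agent.P252.Cert.PDCoef
import Vale.Agent.P252.Rigidity.General.Cert5.Flat.II0

/-! Leaves 165..175 of block II0, generated. -/

namespace Vale.Agent.P252.General.Cert5.Trees

open Vale.Agent.P252.PolyPSD Vale.Agent.P252.PDCoef

theorem leafII0_165 : checkLeaf 9 nbII0 offII0 16 MII0
    ⟨(3, 3, 8), (5, 5, 16), (3, 2, 8)⟩ = true := by decide +kernel

theorem leafII0_166 : checkLeaf 9 nbII0 offII0 16 MII0
    ⟨(1, 1, 4), (5, 4, 16), (5, 5, 16)⟩ = true := by decide +kernel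

theorem leafII0_167 : checkLeaf 9 nbII0 offII0 16 MII0
    ⟨(5, 4, 16), (3, 2, 8), (5, 5, 16)⟩ = true := by decide +kernel

theorem leafII0_168 : checkLeaf 9 nbII0 offII0 16 MII0
    ⟨(3, 2, 8), (2, 1, 4), (3, 3, 8)⟩ = true := by decide +kernel

theorem leafII0_169 : checkLeaf 9 nbII0 offII0 16 MII0
    ⟨(1, 1, 8), (3, 1, 16), (2, 1, 8)⟩ = true := by decide +kernel

theorem leafII0_170 : checkLeaf 9 nbII0 offII0 16 MII0
    ⟨(3, 1, 16), (7, 1, 32), (4, 1, 16)⟩ = true := by decide +kernel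

theorem leafII0_171 : checkLeaf 9 nbII0 offII0 16 MII0
    ⟨(7, 1, 32), (15, 1, 64), (8, 1, 32)⟩ = true := by decide +kernel

theorem leafII0_172 : checkLeaf 9 nbII0 offII0 16 MII0
    ⟨(15, 1, 64), (1, 0, 4), (8, 1, 32)⟩ = true := by decide +kernel

theorem leafII0_173 : checkLeaf 9 nbII0 offII0 16 MII0
    ⟨(8, 1, 32), (4, 1, 16), (7, 1, 32)⟩ = true := by decide +kernel

theorem leafII0_174 : checkLeaf 9 nbII0 offII0 16 MII0
    ⟨(4, 1, 16), (2, 1, 8), (3, 1, 16)⟩ = true := by decide +kernel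

theorem leafII0_175 : checkLeaf 9 nbII0 offII0 16 MII0
    ⟨(2, 1, 8), (1, 1, 4), (1, 1, 8)⟩ = true := by decide +kernel

end Vale.Agent.P252.General.Cert5.Trees
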