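import Vale.Agent.P252.Cert.PDCoef
import Vale.Agent.P252.Rigidity.General.Cert5.Flat.II0

/-! Leaves 187..197 of block II0, generated. -/

namespace Vale.Agent.P252.General.Cert5.Trees

open Vale.Agent.P252.PolyPSD Vale.Agent.P252.PDCoef

theorem leafII0_187 : checkLeaf 9 nbII0 offII0 16 MII0
    ⟨(15, 1, 64), (7, 1, 32), (7, 0, 32)⟩ = true := by decide +kernel

theorem leafII0_188 : checkLeaf 9 nbII0 offII0 16 MII0
    ⟨(7, 1, 32), (3, 1, 16), (3, 0, 16)⟩ = true := by decide +kernel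

theorem leafII0_189 : checkLeaf 9 nbII0 offII0 16 MII0
    ⟨(3, 1, 16), (1, 1, 8), (1, 0, 8)⟩ = true := by decide +kernel

theorem leafII0_190 : checkLeaf 9 nbII0 offII0 16 MII0
    ⟨(3, 1, 8), (5, 1, 16), (3, 0, 8)⟩ = true := by decide +kernel

theorem leafII0_191 : checkLeaf 9 nbII0 offII0 16 MII0
    ⟨(1, 0, 4), (5, 0, 16), (5, 1, 16)⟩ = true := by decide +kernel

theorem leafII0_192 : checkLeaf 9 nbII0 offII0 16 MII0
    ⟨(5, 0, 16), (3, 0, 8), (5, 1, 16)⟩ = true := by decide +kernel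

theorem leafII0_193 : checkLeaf 9 nbII0 offII0 16 MII0
    ⟨(3, 0, 8), (1, 0, 2), (3, 1, 8)⟩ = true := by decide +kernel

theorem leafII0_194 : checkLeaf 9 nbII0 offII0 16 MII0
    ⟨(3, 1, 8), (5, 3, 16), (2, 1, 8)⟩ = true := by decide +kernel

theorem leafII0_195 : checkLeaf 9 nbII0 offII0 16 MII0
    ⟨(5, 3, 16), (1, 1, 4), (2, 1, 8)⟩ = true := by decide +kernel

theorem leafII0_196 : checkLeaf 9 nbII0 offII0 16 MII0
    ⟨(2, 1, 8), (4, 1, 16), (5, 1, 16)⟩ = true := by decide +kernel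

theorem leafII0_197 : checkLeaf 9 nbII0 offII0 16 MII0
    ⟨(4, 1, 16), (1, 0, 4), (5, 1, 16)⟩ = true := by decide +kernel

end Vale.Agent.P252.General.Cert5.Trees
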