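import Vale.Agent.P252.Cert.PDCoef
import Vale.Agent.P252.Rigidity.General.Cert5.Flat.II0

/-! Leaves 198..208 of block II0, generated. -/

namespace Vale.Agent.P252.General.Cert5.Trees

open Vale.Agent.P252.PolyPSD Vale.Agent.P252.PDCoef

theorem leafII0_198 : checkLeaf 9 nbII0 offII0 16 MII0
    ⟨(5, 1, 16), (3, 1, 8), (2, 1, 8)⟩ = true := by decide +kernel

theorem leafII0_199 : checkLeaf 9 nbII0 offII0 16 MII0
    ⟨(3, 1, 4), (5, 1, 8), (3, 0, 4)⟩ = true := by decide +kernel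

theorem leafII0_200 : checkLeaf 9 nbII0 offII0 16 MII0
    ⟨(5, 1, 8), (9, 1, 16), (5, 0, 8)⟩ = true := by decide +kernel

theorem leafII0_201 : checkLeaf 9 nbII0 offII0 16 MII0
    ⟨(1, 0, 2), (9, 0, 16), (9, 1, 16)⟩ = true := by decide +kernel

theorem leafII0_202 : checkLeaf 9 nbII0 offII0 16 MII0
    ⟨(9, 0, 16), (5, 0, 8), (9, 1, 16)⟩ = true := by decide +kernel

theorem leafII0_203 : checkLeaf 9 nbII0 offII0 16 MII0
    ⟨(5, 0, 8), (3, 0, 4), (5, 1, 8)⟩ = true := by decide +kernel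

theorem leafII0_204 : checkLeaf 9 nbII0 offII0 16 MII0
    ⟨(1, 0, 1), (7, 1, 8), (3, 0, 4)⟩ = true := by decide +kernel

theorem leafII0_205 : checkLeaf 9 nbII0 offII0 16 MII0
    ⟨(7, 1, 8), (13, 3, 16), (6, 1, 8)⟩ = true := by decide +kernel

theorem leafII0_206 : checkLeaf 9 nbII0 offII0 16 MII0
    ⟨(13, 3, 16), (3, 1, 4), (6, 1, 8)⟩ = true := by decide +kernel

theorem leafII0_207 : checkLeaf 9 nbII0 offII0 16 MII0
    ⟨(6, 1, 8), (3, 0, 4), (7, 1, 8)⟩ = true := by decide +kernel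

theorem leafII0_208 : checkLeaf 9 nbII0 offII0 16 MII0
    ⟨(5, 3, 8), (9, 5, 16), (5, 2, 8)⟩ = true := by decide +kernel

end Vale.Agent.P252.General.Cert5.Trees
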