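import Vale.Agent.P252.Cert.PDCoef
import Vale.Agent.P252.Rigidity.General.Cert5.Flat.II0

/-! Leaves 209..219 of block II0, generated. -/

namespace Vale.Agent.P252.General.Cert5.Trees

open Vale.Agent.P252.PolyPSD Vale.Agent.P252.PDCoef

theorem leafII0_209 : checkLeaf 9 nbII0 offII0 16 MII0
    ⟨(9, 5, 16), (2, 1, 4), (5, 2, 8)⟩ = true := by decide +kernel

theorem leafII0_210 : checkLeaf 9 nbII0 offII0 16 MII0
    ⟨(5, 2, 8), (3, 1, 4), (5, 3, 8)⟩ = true := by decide +kernel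

theorem leafII0_211 : checkLeaf 9 nbII0 offII0 16 MII0
    ⟨(1, 1, 2), (4, 3, 8), (5, 3, 8)⟩ = true := by decide +kernel

theorem leafII0_212 : checkLeaf 9 nbII0 offII0 16 MII0
    ⟨(2, 1, 4), (9, 5, 16), (4, 3, 8)⟩ = true := by decide +kernel

theorem leafII0_213 : checkLeaf 9 nbII0 offII0 16 MII0
    ⟨(9, 5, 16), (5, 3, 8), (4, 3, 8)⟩ = true := by decide +kernel

theorem leafII0_214 : checkLeaf 9 nbII0 offII0 16 MII0
    ⟨(2, 1, 4), (4, 1, 8), (5, 1, 8)⟩ = true := by decide +kernel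

theorem leafII0_215 : checkLeaf 9 nbII0 offII0 16 MII0
    ⟨(1, 0, 2), (9, 1, 16), (4, 1, 8)⟩ = true := by decide +kernel

theorem leafII0_216 : checkLeaf 9 nbII0 offII0 16 MII0
    ⟨(9, 1, 16), (5, 1, 8), (4, 1, 8)⟩ = true := by decide +kernel

theorem leafII0_217 : checkLeaf 9 nbII0 offII0 16 MII0
    ⟨(3, 1, 4), (5, 2, 8), (5, 1, 8)⟩ = true := by decide +kernel

theorem leafII0_218 : checkLeaf 9 nbII0 offII0 16 MII0
    ⟨(5, 2, 8), (2, 1, 4), (5, 1, 8)⟩ = true := by decide +kernel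

theorem leafII0_219 : checkLeaf 9 nbII0 offII0 16 MII0
    ⟨(2, 5, 8), (3, 10, 16), (3, 9, 16)⟩ = true := by decide +kernel

end Vale.Agent.P252.General.Cert5.Trees
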