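import Vale.Agent.P252.Cert.PDCoef
import Vale.Agent.P252.Rigidity.General.Cert5.Flat.II0

/-! Leaves 22..32 of block II0, generated. -/

namespace Vale.Agent.P252.General.Cert5.Trees

open Vale.Agent.P252.PolyPSD Vale.Agent.P252.PDCoef

theorem leafII0_22 : checkLeaf 9 nbII0 offII0 16 MII0
    ⟨((-3), 3, 16), ((-1), 1, 8), ((-1), 2, 8)⟩ = true := by decide +kernel

theorem leafII0_23 : checkLeaf 9 nbII0 offII0 16 MII0
    ⟨(0, 1, 8), ((-1), 2, 16), ((-1), 1, 16)⟩ = true := by decide +kernel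

theorem leafII0_24 : checkLeaf 9 nbII0 offII0 16 MII0
    ⟨((-1), 2, 16), ((-1), 1, 8), ((-1), 1, 16)⟩ = true := by decide +kernel

theorem leafII0_25 : checkLeaf 9 nbII0 offII0 16 MII0
    ⟨((-1), 1, 16), (0, 0, 1), (0, 1, 8)⟩ = true := by decide +kernel

theorem leafII0_26 : checkLeaf 9 nbII0 offII0 16 MII0
    ⟨(0, 1, 4), ((-1), 3, 16), (0, 1, 8)⟩ = true := by decide +kernel

theorem leafII0_27 : checkLeaf 9 nbII0 offII0 16 MII0
    ⟨((-1), 1, 8), ((-1), 2, 16), ((-1), 3, 16)⟩ = true := by decide +kernel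

theorem leafII0_28 : checkLeaf 9 nbII0 offII0 16 MII0
    ⟨((-1), 2, 16), (0, 1, 8), ((-1), 3, 16)⟩ = true := by decide +kernel

theorem leafII0_29 : checkLeaf 9 nbII0 offII0 16 MII0
    ⟨((-1), 5, 16), ((-1), 11, 32), ((-1), 6, 16)⟩ = true := by decide +kernel

theorem leafII0_30 : checkLeaf 9 nbII0 offII0 16 MII0
    ⟨((-1), 11, 32), (0, 3, 8), ((-1), 6, 16)⟩ = true := by decide +kernel

theorem leafII0_31 : checkLeaf 9 nbII0 offII0 16 MII0
    ⟨((-1), 6, 16), ((-1), 3, 8), ((-1), 5, 16)⟩ = true := by decide +kernel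

theorem leafII0_32 : checkLeaf 9 nbII0 offII0 16 MII0
    ⟨(0, 1, 4), (0, 5, 16), ((-1), 5, 16)⟩ = true := by decide +kernel

end Vale.Agent.P252.General.Cert5.Trees
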