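import Vale.Agent.P252.Cert.PDCoef
import Vale.Agent.P252.Rigidity.General.Cert5.Flat.II0

/-! Leaves 220..230 of block II0, generated. -/

namespace Vale.Agent.P252.General.Cert5.Trees

open Vale.Agent.P252.PolyPSD Vale.Agent.P252.PDCoef

theorem leafII0_220 : checkLeaf 9 nbII0 offII0 16 MII0
    ⟨(3, 10, 16), (1, 5, 8), (3, 9, 16)⟩ = true := by decide +kernel

theorem leafII0_221 : checkLeaf 9 nbII0 offII0 16 MII0
    ⟨(3, 9, 16), (1, 2, 4), (2, 5, 8)⟩ = true := by decide +kernel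

theorem leafII0_222 : checkLeaf 9 nbII0 offII0 16 MII0
    ⟨(3, 11, 16), (7, 21, 32), (4, 11, 16)⟩ = true := by decide +kernel

theorem leafII0_223 : checkLeaf 9 nbII0 offII0 16 MII0
    ⟨(7, 21, 32), (2, 5, 8), (4, 11, 16)⟩ = true := by decide +kernel

theorem leafII0_224 : checkLeaf 9 nbII0 offII0 16 MII0
    ⟨(4, 11, 16), (1, 3, 4), (3, 11, 16)⟩ = true := by decide +kernel

theorem leafII0_225 : checkLeaf 9 nbII0 offII0 16 MII0
    ⟨(1, 5, 8), (3, 10, 16), (3, 11, 16)⟩ = true := by decide +kernel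

theorem leafII0_226 : checkLeaf 9 nbII0 offII0 16 MII0
    ⟨(2, 5, 8), (7, 21, 32), (3, 10, 16)⟩ = true := by decide +kernel

theorem leafII0_227 : checkLeaf 9 nbII0 offII0 16 MII0
    ⟨(7, 21, 32), (3, 11, 16), (3, 10, 16)⟩ = true := by decide +kernel

theorem leafII0_228 : checkLeaf 9 nbII0 offII0 16 MII0
    ⟨(1, 4, 8), (2, 9, 16), (1, 9, 16)⟩ = true := by decide +kernel

theorem leafII0_229 : checkLeaf 9 nbII0 offII0 16 MII0
    ⟨(2, 9, 16), (1, 5, 8), (1, 9, 16)⟩ = true := by decide +kernel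

theorem leafII0_230 : checkLeaf 9 nbII0 offII0 16 MII0
    ⟨(1, 9, 16), (1, 17, 32), (1, 8, 16)⟩ = true := by decide +kernel

end Vale.Agent.P252.General.Cert5.Trees
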