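import Vale.Agent.P252.Cert.PDCoef
import Vale.Agent.P252.Rigidity.General.Cert5.Flat.II0

/-! Leaves 231..241 of block II0, generated. -/

namespace Vale.Agent.P252.General.Cert5.Trees

open Vale.Agent.P252.PolyPSD Vale.Agent.P252.PDCoef

theorem leafII0_231 : checkLeaf 9 nbII0 offII0 16 MII0
    ⟨(1, 17, 32), (0, 1, 2), (1, 8, 16)⟩ = true := by decide +kernel

theorem leafII0_232 : checkLeaf 9 nbII0 offII0 16 MII0
    ⟨(1, 8, 16), (1, 4, 8), (1, 9, 16)⟩ = true := by decide +kernel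

theorem leafII0_233 : checkLeaf 9 nbII0 offII0 16 MII0
    ⟨(1, 4, 8), (3, 8, 16), (3, 9, 16)⟩ = true := by decide +kernel

theorem leafII0_234 : checkLeaf 9 nbII0 offII0 16 MII0
    ⟨(3, 8, 16), (1, 2, 4), (3, 9, 16)⟩ = true := by decide +kernel

theorem leafII0_235 : checkLeaf 9 nbII0 offII0 16 MII0
    ⟨(3, 9, 16), (1, 5, 8), (1, 4, 8)⟩ = true := by decide +kernel

theorem leafII0_236 : checkLeaf 9 nbII0 offII0 16 MII0
    ⟨(3, 5, 8), (5, 9, 16), (3, 4, 8)⟩ = true := by decide +kernel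

theorem leafII0_237 : checkLeaf 9 nbII0 offII0 16 MII0
    ⟨(5, 9, 16), (1, 2, 4), (3, 4, 8)⟩ = true := by decide +kernel

theorem leafII0_238 : checkLeaf 9 nbII0 offII0 16 MII0
    ⟨(3, 4, 8), (1, 1, 2), (3, 5, 8)⟩ = true := by decide +kernel

theorem leafII0_239 : checkLeaf 9 nbII0 offII0 16 MII0
    ⟨(3, 5, 8), (5, 11, 16), (2, 5, 8)⟩ = true := by decide +kernel

theorem leafII0_240 : checkLeaf 9 nbII0 offII0 16 MII0
    ⟨(1, 3, 4), (4, 11, 16), (5, 11, 16)⟩ = true := by decide +kernel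

theorem leafII0_241 : checkLeaf 9 nbII0 offII0 16 MII0
    ⟨(4, 11, 16), (2, 5, 8), (5, 11, 16)⟩ = true := by decide +kernel

end Vale.Agent.P252.General.Cert5.Trees
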