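import Vale.Agent.P252.Cert.PDCoef
import Vale.Agent.P252.Rigidity.General.Cert5.Flat.II0

/-! Leaves 242..252 of block II0, generated. -/

namespace Vale.Agent.P252.General.Cert5.Trees

open Vale.Agent.P252.PolyPSD Vale.Agent.P252.PDCoef

theorem leafII0_242 : checkLeaf 9 nbII0 offII0 16 MII0
    ⟨(1, 2, 4), (5, 9, 16), (2, 5, 8)⟩ = true := by decide +kernel

theorem leafII0_243 : checkLeaf 9 nbII0 offII0 16 MII0
    ⟨(5, 9, 16), (3, 5, 8), (2, 5, 8)⟩ = true := by decide +kernel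

theorem leafII0_244 : checkLeaf 9 nbII0 offII0 16 MII0
    ⟨(1, 7, 8), (1, 13, 16), (1, 6, 8)⟩ = true := by decide +kernel

theorem leafII0_245 : checkLeaf 9 nbII0 offII0 16 MII0
    ⟨(1, 13, 16), (0, 3, 4), (1, 6, 8)⟩ = true := by decide +kernel

theorem leafII0_246 : checkLeaf 9 nbII0 offII0 16 MII0
    ⟨(1, 3, 4), (3, 13, 16), (1, 6, 8)⟩ = true := by decide +kernel

theorem leafII0_247 : checkLeaf 9 nbII0 offII0 16 MII0
    ⟨(3, 13, 16), (1, 7, 8), (1, 6, 8)⟩ = true := by decide +kernel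

theorem leafII0_248 : checkLeaf 9 nbII0 offII0 16 MII0
    ⟨(0, 1, 1), (0, 7, 8), (1, 7, 8)⟩ = true := by decide +kernel

theorem leafII0_249 : checkLeaf 9 nbII0 offII0 16 MII0
    ⟨(0, 3, 4), (1, 13, 16), (0, 7, 8)⟩ = true := by decide +kernel

theorem leafII0_250 : checkLeaf 9 nbII0 offII0 16 MII0
    ⟨(1, 13, 16), (1, 7, 8), (0, 7, 8)⟩ = true := by decide +kernel

theorem leafII0_251 : checkLeaf 9 nbII0 offII0 16 MII0
    ⟨(1, 5, 8), (1, 11, 16), (0, 5, 8)⟩ = true := by decide +kernel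

theorem leafII0_252 : checkLeaf 9 nbII0 offII0 16 MII0
    ⟨(1, 11, 16), (0, 3, 4), (0, 5, 8)⟩ = true := by decide +kernel

end Vale.Agent.P252.General.Cert5.Trees
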