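import Vale.Agent.P252.Cert.PDCoef
import Vale.Agent.P252.Rigidity.General.Cert5.Flat.II0

/-! Leaves 253..263 of block II0, generated. -/

namespace Vale.Agent.P252.General.Cert5.Trees

open Vale.Agent.P252.PolyPSD Vale.Agent.P252.PDCoef

theorem leafII0_253 : checkLeaf 9 nbII0 offII0 16 MII0
    ⟨(0, 5, 8), (0, 9, 16), (1, 9, 16)⟩ = true := by decide +kernel

theorem leafII0_254 : checkLeaf 9 nbII0 offII0 16 MII0
    ⟨(0, 1, 2), (1, 17, 32), (0, 9, 16)⟩ = true := by decide +kernel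

theorem leafII0_255 : checkLeaf 9 nbII0 offII0 16 MII0
    ⟨(1, 17, 32), (1, 9, 16), (0, 9, 16)⟩ = true := by decide +kernel

theorem leafII0_256 : checkLeaf 9 nbII0 offII0 16 MII0
    ⟨(1, 5, 8), (1, 10, 16), (1, 9, 16)⟩ = true := by decide +kernel

theorem leafII0_257 : checkLeaf 9 nbII0 offII0 16 MII0
    ⟨(1, 10, 16), (0, 5, 8), (1, 9, 16)⟩ = true := by decide +kernel

theorem leafII0_258 : checkLeaf 9 nbII0 offII0 16 MII0
    ⟨(1, 5, 8), (3, 11, 16), (1, 6, 8)⟩ = true := by decide +kernel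

theorem leafII0_259 : checkLeaf 9 nbII0 offII0 16 MII0
    ⟨(3, 11, 16), (1, 3, 4), (1, 6, 8)⟩ = true := by decide +kernel

theorem leafII0_260 : checkLeaf 9 nbII0 offII0 16 MII0
    ⟨(0, 3, 4), (1, 11, 16), (1, 6, 8)⟩ = true := by decide +kernel

theorem leafII0_261 : checkLeaf 9 nbII0 offII0 16 MII0
    ⟨(1, 11, 16), (1, 5, 8), (1, 6, 8)⟩ = true := by decide +kernel

theorem leafII0_262 : checkLeaf 9 nbII0 offII0 16 MII0
    ⟨(1, 3, 8), (1, 5, 16), (1, 2, 8)⟩ = true := by decide +kernel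

theorem leafII0_263 : checkLeaf 9 nbII0 offII0 16 MII0
    ⟨(0, 1, 4), (1, 4, 16), (1, 5, 16)⟩ = true := by decide +kernel

end Vale.Agent.P252.General.Cert5.Trees
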