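import Vale.Agent.P252.Cert.PDCoef
import Vale.Agent.P252.Rigidity.General.Cert5.Flat.II0

/-! Leaves 275..285 of block II0, generated. -/

namespace Vale.Agent.P252.General.Cert5.Trees

open Vale.Agent.P252.PolyPSD Vale.Agent.P252.PDCoef

theorem leafII0_275 : checkLeaf 9 nbII0 offII0 16 MII0
    ⟨(1, 7, 16), (1, 14, 32), (1, 13, 32)⟩ = true := by decide +kernel

theorem leafII0_276 : checkLeaf 9 nbII0 offII0 16 MII0
    ⟨(1, 14, 32), (0, 7, 16), (1, 13, 32)⟩ = true := by decide +kernel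

theorem leafII0_277 : checkLeaf 9 nbII0 offII0 16 MII0
    ⟨(0, 3, 8), (0, 5, 16), (1, 5, 16)⟩ = true := by decide +kernel

theorem leafII0_278 : checkLeaf 9 nbII0 offII0 16 MII0
    ⟨(0, 5, 16), (0, 1, 4), (1, 5, 16)⟩ = true := by decide +kernel

theorem leafII0_279 : checkLeaf 9 nbII0 offII0 16 MII0
    ⟨(1, 3, 8), (1, 6, 16), (1, 5, 16)⟩ = true := by decide +kernel

theorem leafII0_280 : checkLeaf 9 nbII0 offII0 16 MII0
    ⟨(1, 6, 16), (0, 3, 8), (1, 5, 16)⟩ = true := by decide +kernel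

theorem leafII0_281 : checkLeaf 9 nbII0 offII0 16 MII0
    ⟨(0, 1, 8), (1, 2, 16), (1, 3, 16)⟩ = true := by decide +kernel

theorem leafII0_282 : checkLeaf 9 nbII0 offII0 16 MII0
    ⟨(1, 2, 16), (1, 1, 8), (1, 3, 16)⟩ = true := by decide +kernel

theorem leafII0_283 : checkLeaf 9 nbII0 offII0 16 MII0
    ⟨(1, 3, 16), (0, 1, 4), (0, 1, 8)⟩ = true := by decide +kernel

theorem leafII0_284 : checkLeaf 9 nbII0 offII0 16 MII0
    ⟨(0, 0, 1), (1, 1, 16), (0, 1, 8)⟩ = true := by decide +kernel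

theorem leafII0_285 : checkLeaf 9 nbII0 offII0 16 MII0
    ⟨(1, 1, 8), (1, 2, 16), (1, 1, 16)⟩ = true := by decide +kernel

end Vale.Agent.P252.General.Cert5.Trees
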