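import Vale.Agent.P252.Cert.PDCoef
import Vale.Agent.P252.Rigidity.General.Cert5.Flat.II0

/-! Leaves 308..318 of block II0, generated. -/

namespace Vale.Agent.P252.General.Cert5.Trees

open Vale.Agent.P252.PolyPSD Vale.Agent.P252.PDCoef

theorem leafII0_308 : checkLeaf 9 nbII0 offII0 16 MII0
    ⟨(1, 15, 32), (1, 7, 16), (1, 8, 16)⟩ = true := by decide +kernel

theorem leafII0_309 : checkLeaf 9 nbII0 offII0 16 MII0
    ⟨(1, 3, 8), (2, 7, 16), (1, 7, 16)⟩ = true := by decide +kernel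

theorem leafII0_310 : checkLeaf 9 nbII0 offII0 16 MII0
    ⟨(1, 4, 8), (3, 15, 32), (2, 7, 16)⟩ = true := by decide +kernel

theorem leafII0_311 : checkLeaf 9 nbII0 offII0 16 MII0
    ⟨(3, 15, 32), (1, 7, 16), (2, 7, 16)⟩ = true := by decide +kernel

theorem leafII0_312 : checkLeaf 9 nbII0 offII0 16 MII0
    ⟨(2, 3, 8), (3, 6, 16), (3, 5, 16)⟩ = true := by decide +kernel

theorem leafII0_313 : checkLeaf 9 nbII0 offII0 16 MII0
    ⟨(3, 6, 16), (1, 3, 8), (3, 5, 16)⟩ = true := by decide +kernel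

theorem leafII0_314 : checkLeaf 9 nbII0 offII0 16 MII0
    ⟨(3, 5, 16), (1, 1, 4), (2, 3, 8)⟩ = true := by decide +kernel

theorem leafII0_315 : checkLeaf 9 nbII0 offII0 16 MII0
    ⟨(1, 2, 4), (3, 7, 16), (2, 3, 8)⟩ = true := by decide +kernel

theorem leafII0_316 : checkLeaf 9 nbII0 offII0 16 MII0
    ⟨(1, 3, 8), (3, 6, 16), (3, 7, 16)⟩ = true := by decide +kernel

theorem leafII0_317 : checkLeaf 9 nbII0 offII0 16 MII0
    ⟨(3, 6, 16), (2, 3, 8), (3, 7, 16)⟩ = true := by decide +kernel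

theorem leafII0_318 : checkLeaf 9 nbII0 offII0 16 MII0
    ⟨(3, 3, 4), (5, 7, 8), (2, 3, 4)⟩ = true := by decide +kernel

end Vale.Agent.P252.General.Cert5.Trees
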