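import Vale.Agent.P252.Cert.PDCoef
import Vale.Agent.P252.Rigidity.General.Cert5.Flat.II0

/-! Leaves 33..43 of block II0, generated. -/

namespace Vale.Agent.P252.General.Cert5.Trees

open Vale.Agent.P252.PolyPSD Vale.Agent.P252.PDCoef

theorem leafII0_33 : checkLeaf 9 nbII0 offII0 16 MII0
    ⟨(0, 3, 8), ((-1), 11, 32), (0, 5, 16)⟩ = true := by decide +kernel

theorem leafII0_34 : checkLeaf 9 nbII0 offII0 16 MII0
    ⟨((-1), 11, 32), ((-1), 5, 16), (0, 5, 16)⟩ = true := by decide +kernel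

theorem leafII0_35 : checkLeaf 9 nbII0 offII0 16 MII0
    ⟨(0, 3, 8), (0, 7, 16), ((-1), 7, 16)⟩ = true := by decide +kernel

theorem leafII0_36 : checkLeaf 9 nbII0 offII0 16 MII0
    ⟨(0, 1, 2), ((-1), 15, 32), (0, 7, 16)⟩ = true := by decide +kernel

theorem leafII0_37 : checkLeaf 9 nbII0 offII0 16 MII0
    ⟨((-1), 15, 32), ((-1), 7, 16), (0, 7, 16)⟩ = true := by decide +kernel

theorem leafII0_38 : checkLeaf 9 nbII0 offII0 16 MII0
    ⟨((-1), 7, 16), ((-3), 13, 32), ((-1), 6, 16)⟩ = true := by decide +kernel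

theorem leafII0_39 : checkLeaf 9 nbII0 offII0 16 MII0
    ⟨((-3), 13, 32), ((-1), 3, 8), ((-1), 6, 16)⟩ = true := by decide +kernel

theorem leafII0_40 : checkLeaf 9 nbII0 offII0 16 MII0
    ⟨((-1), 6, 16), (0, 3, 8), ((-1), 7, 16)⟩ = true := by decide +kernel

theorem leafII0_41 : checkLeaf 9 nbII0 offII0 16 MII0
    ⟨((-1), 2, 8), ((-2), 5, 16), ((-3), 5, 16)⟩ = true := by decide +kernel

theorem leafII0_42 : checkLeaf 9 nbII0 offII0 16 MII0
    ⟨((-1), 3, 8), ((-5), 11, 32), ((-2), 5, 16)⟩ = true := by decide +kernel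

theorem leafII0_43 : checkLeaf 9 nbII0 offII0 16 MII0
    ⟨((-5), 11, 32), ((-3), 5, 16), ((-2), 5, 16)⟩ = true := by decide +kernel

end Vale.Agent.P252.General.Cert5.Trees
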