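import Vale.Agent.P252.Cert.PDCoef
import Vale.Agent.P252.Rigidity.General.Cert5.Flat.II0

/-! Leaves 330..340 of block II0, generated. -/

namespace Vale.Agent.P252.General.Cert5.Trees

open Vale.Agent.P252.PolyPSD Vale.Agent.P252.PDCoef

theorem leafII0_330 : checkLeaf 9 nbII0 offII0 16 MII0
    ⟨(1, 4, 4), (2, 7, 8), (3, 7, 8)⟩ = true := by decide +kernel

theorem leafII0_331 : checkLeaf 9 nbII0 offII0 16 MII0
    ⟨(2, 7, 8), (1, 3, 4), (3, 7, 8)⟩ = true := by decide +kernel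

theorem leafII0_332 : checkLeaf 9 nbII0 offII0 16 MII0
    ⟨(1, 2, 2), (3, 8, 8), (3, 7, 8)⟩ = true := by decide +kernel

theorem leafII0_333 : checkLeaf 9 nbII0 offII0 16 MII0
    ⟨(3, 8, 8), (1, 4, 4), (3, 7, 8)⟩ = true := by decide +kernel

theorem leafII0_334 : checkLeaf 9 nbII0 offII0 16 MII0
    ⟨(1, 7, 8), (3, 15, 16), (1, 8, 8)⟩ = true := by decide +kernel

theorem leafII0_335 : checkLeaf 9 nbII0 offII0 16 MII0
    ⟨(3, 15, 16), (1, 4, 4), (1, 8, 8)⟩ = true := by decide +kernel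

theorem leafII0_336 : checkLeaf 9 nbII0 offII0 16 MII0
    ⟨(1, 8, 8), (0, 1, 1), (1, 7, 8)⟩ = true := by decide +kernel

theorem leafII0_337 : checkLeaf 9 nbII0 offII0 16 MII0
    ⟨(1, 7, 8), (3, 13, 16), (2, 7, 8)⟩ = true := by decide +kernel

theorem leafII0_338 : checkLeaf 9 nbII0 offII0 16 MII0
    ⟨(3, 13, 16), (1, 3, 4), (2, 7, 8)⟩ = true := by decide +kernel

theorem leafII0_339 : checkLeaf 9 nbII0 offII0 16 MII0
    ⟨(1, 4, 4), (3, 15, 16), (2, 7, 8)⟩ = true := by decide +kernel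

theorem leafII0_340 : checkLeaf 9 nbII0 offII0 16 MII0
    ⟨(3, 15, 16), (1, 7, 8), (2, 7, 8)⟩ = true := by decide +kernel

end Vale.Agent.P252.General.Cert5.Trees
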