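import Vale.Agent.P252.Cert.PDCoef
import Vale.Agent.P252.Rigidity.General.Cert5.Flat.II0

/-! Leaves 341..351 of block II0, generated. -/

namespace Vale.Agent.P252.General.Cert5.Trees

open Vale.Agent.P252.PolyPSD Vale.Agent.P252.PDCoef

theorem leafII0_341 : checkLeaf 9 nbII0 offII0 16 MII0
    ⟨(2, 3, 4), (3, 6, 8), (3, 5, 8)⟩ = true := by decide +kernel

theorem leafII0_342 : checkLeaf 9 nbII0 offII0 16 MII0
    ⟨(3, 6, 8), (5, 12, 16), (5, 11, 16)⟩ = true := by decide +kernel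

theorem leafII0_343 : checkLeaf 9 nbII0 offII0 16 MII0
    ⟨(5, 12, 16), (1, 3, 4), (5, 11, 16)⟩ = true := by decide +kernel

theorem leafII0_344 : checkLeaf 9 nbII0 offII0 16 MII0
    ⟨(5, 11, 16), (3, 5, 8), (3, 6, 8)⟩ = true := by decide +kernel

theorem leafII0_345 : checkLeaf 9 nbII0 offII0 16 MII0
    ⟨(3, 5, 8), (1, 1, 2), (2, 3, 4)⟩ = true := by decide +kernel

theorem leafII0_346 : checkLeaf 9 nbII0 offII0 16 MII0
    ⟨(4, 7, 8), (7, 14, 16), (7, 13, 16)⟩ = true := by decide +kernel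

theorem leafII0_347 : checkLeaf 9 nbII0 offII0 16 MII0
    ⟨(7, 14, 16), (3, 7, 8), (7, 13, 16)⟩ = true := by decide +kernel

theorem leafII0_348 : checkLeaf 9 nbII0 offII0 16 MII0
    ⟨(7, 13, 16), (2, 3, 4), (4, 7, 8)⟩ = true := by decide +kernel

theorem leafII0_349 : checkLeaf 9 nbII0 offII0 16 MII0
    ⟨(1, 2, 2), (7, 15, 16), (4, 7, 8)⟩ = true := by decide +kernel

theorem leafII0_350 : checkLeaf 9 nbII0 offII0 16 MII0
    ⟨(3, 7, 8), (7, 14, 16), (7, 15, 16)⟩ = true := by decide +kernel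

theorem leafII0_351 : checkLeaf 9 nbII0 offII0 16 MII0
    ⟨(7, 14, 16), (4, 7, 8), (7, 15, 16)⟩ = true := by decide +kernel

end Vale.Agent.P252.General.Cert5.Trees
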