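import Vale.Agent.P252.Cert.PDCoef
import Vale.Agent.P252.Rigidity.General.Cert5.Flat.II0

/-! Leaves 363..373 of block II0, generated. -/

namespace Vale.Agent.P252.General.Cert5.Trees

open Vale.Agent.P252.PolyPSD Vale.Agent.P252.PDCoef

theorem leafII0_363 : checkLeaf 9 nbII0 offII0 16 MII0
    ⟨(6, 3, 8), (3, 1, 4), (7, 3, 8)⟩ = true := by decide +kernel

theorem leafII0_364 : checkLeaf 9 nbII0 offII0 16 MII0
    ⟨(2, 1, 2), (7, 4, 8), (7, 3, 8)⟩ = true := by decide +kernel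

theorem leafII0_365 : checkLeaf 9 nbII0 offII0 16 MII0
    ⟨(3, 2, 4), (13, 7, 16), (7, 4, 8)⟩ = true := by decide +kernel

theorem leafII0_366 : checkLeaf 9 nbII0 offII0 16 MII0
    ⟨(7, 3, 8), (14, 7, 16), (13, 7, 16)⟩ = true := by decide +kernel

theorem leafII0_367 : checkLeaf 9 nbII0 offII0 16 MII0
    ⟨(14, 7, 16), (7, 4, 8), (13, 7, 16)⟩ = true := by decide +kernel

theorem leafII0_368 : checkLeaf 9 nbII0 offII0 16 MII0
    ⟨(3, 2, 4), (5, 4, 8), (5, 3, 8)⟩ = true := by decide +kernel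

theorem leafII0_369 : checkLeaf 9 nbII0 offII0 16 MII0
    ⟨(5, 4, 8), (1, 1, 2), (5, 3, 8)⟩ = true := by decide +kernel

theorem leafII0_370 : checkLeaf 9 nbII0 offII0 16 MII0
    ⟨(3, 1, 4), (6, 3, 8), (5, 3, 8)⟩ = true := by decide +kernel

theorem leafII0_371 : checkLeaf 9 nbII0 offII0 16 MII0
    ⟨(6, 3, 8), (3, 2, 4), (5, 3, 8)⟩ = true := by decide +kernel

theorem leafII0_372 : checkLeaf 9 nbII0 offII0 16 MII0
    ⟨(4, 1, 4), (7, 2, 8), (7, 1, 8)⟩ = true := by decide +kernel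

theorem leafII0_373 : checkLeaf 9 nbII0 offII0 16 MII0
    ⟨(7, 2, 8), (13, 4, 16), (13, 3, 16)⟩ = true := by decide +kernel

end Vale.Agent.P252.General.Cert5.Trees
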