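import Vale.Agent.P252.Cert.PDCoef
import Vale.Agent.P252.Rigidity.General.Cert5.Flat.II0

/-! Leaves 374..384 of block II0, generated. -/

namespace Vale.Agent.P252.General.Cert5.Trees

open Vale.Agent.P252.PolyPSD Vale.Agent.P252.PDCoef

theorem leafII0_374 : checkLeaf 9 nbII0 offII0 16 MII0
    ⟨(13, 4, 16), (3, 1, 4), (13, 3, 16)⟩ = true := by decide +kernel

theorem leafII0_375 : checkLeaf 9 nbII0 offII0 16 MII0
    ⟨(13, 3, 16), (7, 1, 8), (7, 2, 8)⟩ = true := by decide +kernel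

theorem leafII0_376 : checkLeaf 9 nbII0 offII0 16 MII0
    ⟨(7, 1, 8), (1, 0, 1), (4, 1, 4)⟩ = true := by decide +kernel

theorem leafII0_377 : checkLeaf 9 nbII0 offII0 16 MII0
    ⟨(2, 1, 2), (7, 3, 8), (4, 1, 4)⟩ = true := by decide +kernel

theorem leafII0_378 : checkLeaf 9 nbII0 offII0 16 MII0
    ⟨(7, 3, 8), (13, 5, 16), (7, 2, 8)⟩ = true := by decide +kernel

theorem leafII0_379 : checkLeaf 9 nbII0 offII0 16 MII0
    ⟨(3, 1, 4), (13, 4, 16), (13, 5, 16)⟩ = true := by decide +kernel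

theorem leafII0_380 : checkLeaf 9 nbII0 offII0 16 MII0
    ⟨(13, 4, 16), (7, 2, 8), (13, 5, 16)⟩ = true := by decide +kernel

theorem leafII0_381 : checkLeaf 9 nbII0 offII0 16 MII0
    ⟨(7, 2, 8), (4, 1, 4), (7, 3, 8)⟩ = true := by decide +kernel

theorem leafII0_382 : checkLeaf 9 nbII0 offII0 16 MII0
    ⟨(3, 3, 4), (7, 5, 8), (4, 3, 4)⟩ = true := by decide +kernel

theorem leafII0_383 : checkLeaf 9 nbII0 offII0 16 MII0
    ⟨(7, 5, 8), (2, 1, 2), (4, 3, 4)⟩ = true := by decide +kernel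

theorem leafII0_384 : checkLeaf 9 nbII0 offII0 16 MII0
    ⟨(1, 1, 1), (7, 7, 8), (4, 3, 4)⟩ = true := by decide +kernel

end Vale.Agent.P252.General.Cert5.Trees
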