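import Vale.Agent.P252.Cert.PDCoef
import Vale.Agent.P252.Rigidity.General.Cert5.Flat.II0

/-! Leaves 385..392 of block II0, generated. -/

namespace Vale.Agent.P252.General.Cert5.Trees

open Vale.Agent.P252.PolyPSD Vale.Agent.P252.PDCoef

theorem leafII0_385 : checkLeaf 9 nbII0 offII0 16 MII0
    ⟨(7, 7, 8), (3, 3, 4), (4, 3, 4)⟩ = true := by decide +kernel

theorem leafII0_386 : checkLeaf 9 nbII0 offII0 16 MII0
    ⟨(3, 2, 4), (6, 5, 8), (5, 5, 8)⟩ = true := by decide +kernel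

theorem leafII0_387 : checkLeaf 9 nbII0 offII0 16 MII0
    ⟨(6, 5, 8), (3, 3, 4), (5, 5, 8)⟩ = true := by decide +kernel

theorem leafII0_388 : checkLeaf 9 nbII0 offII0 16 MII0
    ⟨(1, 1, 2), (5, 4, 8), (5, 5, 8)⟩ = true := by decide +kernel

theorem leafII0_389 : checkLeaf 9 nbII0 offII0 16 MII0
    ⟨(5, 4, 8), (3, 2, 4), (5, 5, 8)⟩ = true := by decide +kernel

theorem leafII0_390 : checkLeaf 9 nbII0 offII0 16 MII0
    ⟨(3, 2, 4), (7, 4, 8), (7, 5, 8)⟩ = true := by decide +kernel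

theorem leafII0_391 : checkLeaf 9 nbII0 offII0 16 MII0
    ⟨(7, 4, 8), (2, 1, 2), (7, 5, 8)⟩ = true := by decide +kernel

theorem leafII0_392 : checkLeaf 9 nbII0 offII0 16 MII0
    ⟨(7, 5, 8), (3, 3, 4), (3, 2, 4)⟩ = true := by decide +kernel

end Vale.Agent.P252.General.Cert5.Trees
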