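import Vale.Agent.P252.Cert.PDCoef
import Vale.Agent.P252.Rigidity.General.Cert5.Flat.II0

/-! Leaves 44..54 of block II0, generated. -/

namespace Vale.Agent.P252.General.Cert5.Trees

open Vale.Agent.P252.PolyPSD Vale.Agent.P252.PDCoef

theorem leafII0_44 : checkLeaf 9 nbII0 offII0 16 MII0
    ⟨((-3), 5, 16), ((-1), 1, 4), ((-1), 2, 8)⟩ = true := by decide +kernel

theorem leafII0_45 : checkLeaf 9 nbII0 offII0 16 MII0
    ⟨((-1), 2, 8), ((-1), 4, 16), ((-1), 5, 16)⟩ = true := by decide +kernel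

theorem leafII0_46 : checkLeaf 9 nbII0 offII0 16 MII0
    ⟨((-1), 4, 16), (0, 1, 4), ((-1), 5, 16)⟩ = true := by decide +kernel

theorem leafII0_47 : checkLeaf 9 nbII0 offII0 16 MII0
    ⟨((-1), 3, 8), ((-2), 5, 16), ((-1), 5, 16)⟩ = true := by decide +kernel

theorem leafII0_48 : checkLeaf 9 nbII0 offII0 16 MII0
    ⟨((-2), 5, 16), ((-1), 2, 8), ((-1), 5, 16)⟩ = true := by decide +kernel

theorem leafII0_49 : checkLeaf 9 nbII0 offII0 16 MII0
    ⟨((-1), 5, 8), ((-1), 11, 16), ((-1), 6, 8)⟩ = true := by decide +kernel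

theorem leafII0_50 : checkLeaf 9 nbII0 offII0 16 MII0
    ⟨((-1), 11, 16), (0, 3, 4), ((-1), 6, 8)⟩ = true := by decide +kernel

theorem leafII0_51 : checkLeaf 9 nbII0 offII0 16 MII0
    ⟨((-1), 3, 4), ((-3), 11, 16), ((-1), 6, 8)⟩ = true := by decide +kernel

theorem leafII0_52 : checkLeaf 9 nbII0 offII0 16 MII0
    ⟨((-3), 11, 16), ((-1), 5, 8), ((-1), 6, 8)⟩ = true := by decide +kernel

theorem leafII0_53 : checkLeaf 9 nbII0 offII0 16 MII0
    ⟨((-1), 5, 8), ((-1), 9, 16), (0, 5, 8)⟩ = true := by decide +kernel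

theorem leafII0_54 : checkLeaf 9 nbII0 offII0 16 MII0
    ⟨((-1), 9, 16), (0, 1, 2), (0, 5, 8)⟩ = true := by decide +kernel

end Vale.Agent.P252.General.Cert5.Trees
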