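import Vale.Agent.P252.Cert.PDCoef
import Vale.Agent.P252.Rigidity.General.Cert5.Flat.II0

/-! Leaves 55..65 of block II0, generated. -/

namespace Vale.Agent.P252.General.Cert5.Trees

open Vale.Agent.P252.PolyPSD Vale.Agent.P252.PDCoef

theorem leafII0_55 : checkLeaf 9 nbII0 offII0 16 MII0
    ⟨(0, 3, 4), ((-1), 11, 16), (0, 5, 8)⟩ = true := by decide +kernel

theorem leafII0_56 : checkLeaf 9 nbII0 offII0 16 MII0
    ⟨((-1), 11, 16), ((-1), 5, 8), (0, 5, 8)⟩ = true := by decide +kernel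

theorem leafII0_57 : checkLeaf 9 nbII0 offII0 16 MII0
    ⟨(0, 3, 4), (0, 7, 8), ((-1), 7, 8)⟩ = true := by decide +kernel

theorem leafII0_58 : checkLeaf 9 nbII0 offII0 16 MII0
    ⟨(0, 1, 1), ((-1), 15, 16), (0, 7, 8)⟩ = true := by decide +kernel

theorem leafII0_59 : checkLeaf 9 nbII0 offII0 16 MII0
    ⟨((-1), 15, 16), ((-1), 7, 8), (0, 7, 8)⟩ = true := by decide +kernel

theorem leafII0_60 : checkLeaf 9 nbII0 offII0 16 MII0
    ⟨((-1), 6, 8), ((-2), 13, 16), ((-3), 13, 16)⟩ = true := by decide +kernel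

theorem leafII0_61 : checkLeaf 9 nbII0 offII0 16 MII0
    ⟨((-2), 13, 16), ((-1), 7, 8), ((-3), 13, 16)⟩ = true := by decide +kernel

theorem leafII0_62 : checkLeaf 9 nbII0 offII0 16 MII0
    ⟨((-3), 13, 16), ((-1), 3, 4), ((-1), 6, 8)⟩ = true := by decide +kernel

theorem leafII0_63 : checkLeaf 9 nbII0 offII0 16 MII0
    ⟨(0, 3, 4), ((-1), 13, 16), ((-1), 6, 8)⟩ = true := by decide +kernel

theorem leafII0_64 : checkLeaf 9 nbII0 offII0 16 MII0
    ⟨((-1), 7, 8), ((-2), 13, 16), ((-1), 13, 16)⟩ = true := by decide +kernel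

theorem leafII0_65 : checkLeaf 9 nbII0 offII0 16 MII0
    ⟨((-2), 13, 16), ((-1), 6, 8), ((-1), 13, 16)⟩ = true := by decide +kernel

end Vale.Agent.P252.General.Cert5.Trees
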