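import Vale.Agent.P252.Cert.PDCoef
import Vale.Agent.P252.Rigidity.General.Cert5.Flat.II0

/-! Leaves 66..76 of block II0, generated. -/

namespace Vale.Agent.P252.General.Cert5.Trees

open Vale.Agent.P252.PolyPSD Vale.Agent.P252.PDCoef

theorem leafII0_66 : checkLeaf 9 nbII0 offII0 16 MII0
    ⟨((-1), 2, 4), ((-2), 5, 8), ((-3), 5, 8)⟩ = true := by decide +kernel

theorem leafII0_67 : checkLeaf 9 nbII0 offII0 16 MII0
    ⟨((-2), 5, 8), ((-1), 3, 4), ((-3), 5, 8)⟩ = true := by decide +kernel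

theorem leafII0_68 : checkLeaf 9 nbII0 offII0 16 MII0
    ⟨((-3), 5, 8), ((-1), 1, 2), ((-1), 2, 4)⟩ = true := by decide +kernel

theorem leafII0_69 : checkLeaf 9 nbII0 offII0 16 MII0
    ⟨((-1), 5, 8), ((-3), 9, 16), ((-1), 4, 8)⟩ = true := by decide +kernel

theorem leafII0_70 : checkLeaf 9 nbII0 offII0 16 MII0
    ⟨((-3), 9, 16), ((-1), 2, 4), ((-1), 4, 8)⟩ = true := by decide +kernel

theorem leafII0_71 : checkLeaf 9 nbII0 offII0 16 MII0
    ⟨((-1), 4, 8), ((-1), 8, 16), ((-1), 9, 16)⟩ = true := by decide +kernel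

theorem leafII0_72 : checkLeaf 9 nbII0 offII0 16 MII0
    ⟨((-1), 8, 16), (0, 1, 2), ((-1), 9, 16)⟩ = true := by decide +kernel

theorem leafII0_73 : checkLeaf 9 nbII0 offII0 16 MII0
    ⟨((-1), 9, 16), ((-1), 5, 8), ((-1), 4, 8)⟩ = true := by decide +kernel

theorem leafII0_74 : checkLeaf 9 nbII0 offII0 16 MII0
    ⟨((-1), 5, 8), ((-3), 11, 16), ((-2), 5, 8)⟩ = true := by decide +kernel

theorem leafII0_75 : checkLeaf 9 nbII0 offII0 16 MII0
    ⟨((-3), 11, 16), ((-1), 3, 4), ((-2), 5, 8)⟩ = true := by decide +kernel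

theorem leafII0_76 : checkLeaf 9 nbII0 offII0 16 MII0
    ⟨((-1), 2, 4), ((-3), 9, 16), ((-2), 5, 8)⟩ = true := by decide +kernel

end Vale.Agent.P252.General.Cert5.Trees
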