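import Vale.Agent.P252.Cert.PDCoef
import Vale.Agent.P252.Rigidity.General.Cert5.Flat.II0

/-! Leaves 77..87 of block II0, generated. -/

namespace Vale.Agent.P252.General.Cert5.Trees

open Vale.Agent.P252.PolyPSD Vale.Agent.P252.PDCoef

theorem leafII0_77 : checkLeaf 9 nbII0 offII0 16 MII0
    ⟨((-3), 9, 16), ((-1), 5, 8), ((-2), 5, 8)⟩ = true := by decide +kernel

theorem leafII0_78 : checkLeaf 9 nbII0 offII0 16 MII0
    ⟨((-1), 1, 2), ((-3), 1, 4), ((-1), 0, 2)⟩ = true := by decide +kernel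

theorem leafII0_79 : checkLeaf 9 nbII0 offII0 16 MII0
    ⟨((-3), 1, 4), ((-7), 1, 8), ((-3), 0, 4)⟩ = true := by decide +kernel

theorem leafII0_80 : checkLeaf 9 nbII0 offII0 16 MII0
    ⟨((-1), 0, 1), ((-7), 0, 8), ((-7), 1, 8)⟩ = true := by decide +kernel

theorem leafII0_81 : checkLeaf 9 nbII0 offII0 16 MII0
    ⟨((-13), 1, 16), ((-27), 1, 32), ((-13), 0, 16)⟩ = true := by decide +kernel

theorem leafII0_82 : checkLeaf 9 nbII0 offII0 16 MII0
    ⟨((-27), 1, 32), ((-55), 1, 64), ((-27), 0, 32)⟩ = true := by decide +kernel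

theorem leafII0_83 : checkLeaf 9 nbII0 offII0 16 MII0
    ⟨((-7), 0, 8), ((-55), 0, 64), ((-55), 1, 64)⟩ = true := by decide +kernel

theorem leafII0_84 : checkLeaf 9 nbII0 offII0 16 MII0
    ⟨((-55), 0, 64), ((-27), 0, 32), ((-55), 1, 64)⟩ = true := by decide +kernel

theorem leafII0_85 : checkLeaf 9 nbII0 offII0 16 MII0
    ⟨((-27), 0, 32), ((-53), 0, 64), ((-53), 1, 64)⟩ = true := by decide +kernel

theorem leafII0_86 : checkLeaf 9 nbII0 offII0 16 MII0
    ⟨((-53), 0, 64), ((-13), 0, 16), ((-53), 1, 64)⟩ = true := by decide +kernel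

theorem leafII0_87 : checkLeaf 9 nbII0 offII0 16 MII0
    ⟨((-53), 1, 64), ((-27), 1, 32), ((-27), 0, 32)⟩ = true := by decide +kernel

end Vale.Agent.P252.General.Cert5.Trees
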