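import Vale.Agent.P252.Cert.PDCoef
import Vale.Agent.P252.Rigidity.General.Cert5.Flat.II0

/-! Leaves 99..109 of block II0, generated. -/

namespace Vale.Agent.P252.General.Cert5.Trees

open Vale.Agent.P252.PolyPSD Vale.Agent.P252.PDCoef

theorem leafII0_99 : checkLeaf 9 nbII0 offII0 16 MII0
    ⟨((-2), 1, 16), ((-1), 1, 8), ((-3), 1, 16)⟩ = true := by decide +kernel

theorem leafII0_100 : checkLeaf 9 nbII0 offII0 16 MII0
    ⟨((-1), 0, 4), ((-3), 0, 16), ((-3), 1, 16)⟩ = true := by decide +kernel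

theorem leafII0_101 : checkLeaf 9 nbII0 offII0 16 MII0
    ⟨((-3), 0, 16), ((-1), 0, 8), ((-3), 1, 16)⟩ = true := by decide +kernel

theorem leafII0_102 : checkLeaf 9 nbII0 offII0 16 MII0
    ⟨((-1), 0, 8), ((-1), 0, 16), ((-1), 1, 16)⟩ = true := by decide +kernel

theorem leafII0_103 : checkLeaf 9 nbII0 offII0 16 MII0
    ⟨((-1), 0, 16), (0, 0, 1), ((-1), 1, 16)⟩ = true := by decide +kernel

theorem leafII0_104 : checkLeaf 9 nbII0 offII0 16 MII0
    ⟨((-1), 1, 16), ((-1), 1, 8), ((-1), 0, 8)⟩ = true := by decide +kernel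

theorem leafII0_105 : checkLeaf 9 nbII0 offII0 16 MII0
    ⟨((-1), 1, 8), ((-3), 3, 16), ((-2), 1, 8)⟩ = true := by decide +kernel

theorem leafII0_106 : checkLeaf 9 nbII0 offII0 16 MII0
    ⟨((-3), 3, 16), ((-1), 1, 4), ((-2), 1, 8)⟩ = true := by decide +kernel

theorem leafII0_107 : checkLeaf 9 nbII0 offII0 16 MII0
    ⟨((-1), 0, 4), ((-3), 1, 16), ((-2), 1, 8)⟩ = true := by decide +kernel

theorem leafII0_108 : checkLeaf 9 nbII0 offII0 16 MII0
    ⟨((-3), 1, 16), ((-1), 1, 8), ((-2), 1, 8)⟩ = true := by decide +kernel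

theorem leafII0_109 : checkLeaf 9 nbII0 offII0 16 MII0
    ⟨((-1), 1, 4), ((-1), 1, 2), ((-1), 0, 2)⟩ = true := by decide +kernel

end Vale.Agent.P252.General.Cert5.Trees
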