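import Vale.Agent.P252.Rigidity.General.Cert5.Trees.II0_0
import Vale.Agent.P252.Rigidity.General.Cert5.Trees.II0_1
import Vale.Agent.P252.Rigidity.General.Cert5.Trees.II0_2
import Vale.Agent.P252.Rigidity.General.Cert5.Trees.II0_3
import Vale.Agent.P252.Rigidity.General.Cert5.Trees.II0_4
import Vale.Agent.P252.Rigidity.General.Cert5.Trees.II0_5
import Vale.Agent.P252.Rigidity.General.Cert5.Trees.II0_6
import Vale.Agent.P252.Rigidity.General.Cert5.Trees.II0_7
import Vale.Agent.P252.Rigidity.General.Cert5.Trees.II0_8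
import Vale.Agent.P252.Rigidity.General.Cert5.Trees.II0_9
import Vale.Agent.P252.Rigidity.General.Cert5.Trees.II0_10
import Vale.Agent.P252.Rigidity.General.Cert5.Trees.II0_11
import Vale.Agent.P252.Rigidity.General.Cert5.Trees.II0_12
import Vale.Agent.P252.Rigidity.General.Cert5.Trees.II0_13
import Vale.Agent.P252.Rigidity.General.Cert5.Trees.II0_14
import Vale.Agent.P252.Rigidity.General.Cert5.Trees.II0_15
import Vale.Agent.P252.Rigidity.General.Cert5.Trees.II0_16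
import Vale.Agent.P252.Rigidity.General.Cert5.Trees.II0_17
import Vale.Agent.P252.Rigidity.General.Cert5.Trees.II0_18
import Vale.Agent.P252.Rigidity.General.Cert5.Trees.II0_19
import Vale.Agent.P252.Rigidity.General.Cert5.Trees.II0_20
import Vale.Agent.P252.Rigidity.General.Cert5.Trees.II0_21
import Vale.Agent.P252.Rigidity.General.Cert5.Trees.II0_22
import Vale.Agent.P252.Rigidity.General.Cert5.Trees.II0_23
import Vale.Agent.P252.Rigidity.General.Cert5.Trees.II0_24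
import Vale.Agent.P252.Rigidity.General.Cert5.Trees.II0_25
import Vale.Agent.P252.Rigidity.General.Cert5.Trees.II0_26
import Vale.Agent.P252.Rigidity.General.Cert5.Trees.II0_27
import Vale.Agent.P252.Rigidity.General.Cert5.Trees.II0_28
import Vale.Agent.P252.Rigidity.General.Cert5.Trees.II0_29
import Vale.Agent.P252.Rigidity.General.Cert5.Trees.II0_30
import Vale.Agent.P252.Rigidity.General.Cert5.Trees.II0_31
import Vale.Agent.P252.Rigidity.General.Cert5.Trees.II0_32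
import Vale.Agent.P252.Rigidity.General.Cert5.Trees.II0_33
import Vale.Agent.P252.Rigidity.General.Cert5.Trees.II0_34
import Vale.Agent.P252.Rigidity.General.Cert5.Trees.II0_35
import Vale.Agent.P252.Rigidity.General.Cert5.Trees.Glue

/-! Block II0 assembled from its leaves, generated. -/

namespace Vale.Agent.P252.General.Cert5.Trees

open Vale.Agent.P252.PolyPSD Vale.Agent.P252.PDCoef

theorem okII0 : blockOK 9 nbII0 offII0 16 MII0 = true := by decide +kernel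

theorem nodeII0_0 : PosOn (matEx 9 offII0 16 MII0)
    ⟨((-8192), 24576, 65536), ((-12288), 28672, 65536), ((-16384), 24576, 65536)⟩ :=
  posOn_node 2 (A := ⟨((-16384), 24576, 65536), ((-12288), 24576, 65536), ((-12288), 28672, 65536)⟩) (B := ⟨((-12288), 24576, 65536), ((-8192), 24576, 65536), ((-12288), 28672, 65536)⟩) ⟨by decide +kernel, rfl, rfl⟩
    (h₁ := (posOn_smul 8192 4096 4096 rfl (posOn_of_leaf okII0 leafII0_0)))
    (h₂ := (posOn_smul 4096 8192 4096 rfl (posOn_of_leaf okII0 leafII0_1)))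

theorem nodeII0_1 : PosOn (matEx 9 offII0 16 MII0)
    ⟨((-16384), 32768, 65536), ((-16384), 24576, 65536), ((-8192), 24576, 65536)⟩ :=
  posOn_node 2 (A := ⟨((-8192), 24576, 65536), ((-12288), 28672, 65536), ((-16384), 24576, 65536)⟩) (B := ⟨((-12288), 28672, 65536), ((-16384), 32768, 65536), ((-16384), 24576, 65536)⟩) ⟨by decide +kernel, rfl, rfl⟩
    (h₁ := nodeII0_0)
    (h₂ := (posOn_smul 4096 16384 8192 rfl (posOn_of_leaf okII0 leafII0_2)))

theorem nodeII0_2 : PosOn (matEx 9 offII0 16 MII0)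
    ⟨((-8192), 24576, 65536), ((-12288), 24576, 65536), ((-12288), 20480, 65536)⟩ :=
  posOn_node 2 (A := ⟨((-12288), 20480, 65536), ((-10240), 22528, 65536), ((-12288), 24576, 65536)⟩) (B := ⟨((-10240), 22528, 65536), ((-8192), 24576, 65536), ((-12288), 24576, 65536)⟩) ⟨by decide +kernel, rfl, rfl⟩
    (h₁ := (posOn_smul 4096 2048 4096 rfl (posOn_of_leaf okII0 leafII0_4)))
    (h₂ := (posOn_smul 2048 8192 4096 rfl (posOn_of_leaf okII0 leafII0_5)))

theorem nodeII0_3 : PosOn (matEx 9 offII0 16 MII0)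
    ⟨((-12288), 20480, 65536), ((-8192), 24576, 65536), ((-16384), 24576, 65536)⟩ :=
  posOn_node 1 (A := ⟨((-8192), 24576, 65536), ((-12288), 24576, 65536), ((-12288), 20480, 65536)⟩) (B := ⟨((-12288), 24576, 65536), ((-16384), 24576, 65536), ((-12288), 20480, 65536)⟩) ⟨by decide +kernel, rfl, rfl⟩
    (h₁ := nodeII0_2)
    (h₂ := (posOn_smul 4096 8192 4096 rfl (posOn_of_leaf okII0 leafII0_6)))

theorem nodeII0_4 : PosOn (matEx 9 offII0 16 MII0)
    ⟨((-16384), 24576, 65536), ((-16384), 16384, 65536), ((-8192), 24576, 65536)⟩ :=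
  posOn_node 1 (A := ⟨((-16384), 16384, 65536), ((-12288), 20480, 65536), ((-16384), 24576, 65536)⟩) (B := ⟨((-12288), 20480, 65536), ((-8192), 24576, 65536), ((-16384), 24576, 65536)⟩) ⟨by decide +kernel, rfl, rfl⟩
    (h₁ := (posOn_smul 16384 4096 8192 rfl (posOn_of_leaf okII0 leafII0_3)))
    (h₂ := nodeII0_3)

theorem nodeII0_5 : PosOn (matEx 9 offII0 16 MII0)
    ⟨((-16384), 16384, 65536), ((-8192), 24576, 65536), ((-16384), 32768, 65536)⟩ :=
  posOn_node 2 (A := ⟨((-16384), 32768, 65536), ((-16384), 24576, 65536), ((-8192), 24576, 65536)⟩) (B := ⟨((-16384), 24576, 65536), ((-16384), 16384, 65536), ((-8192), 24576, 65536)⟩) ⟨by decide +kernel, rfl, rfl⟩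
    (h₁ := nodeII0_1)
    (h₂ := nodeII0_4)

theorem nodeII0_6 : PosOn (matEx 9 offII0 16 MII0)
    ⟨((-8192), 28672, 65536), ((-8192), 24576, 65536), ((-4096), 28672, 65536)⟩ :=
  posOn_node 1 (A := ⟨((-8192), 24576, 65536), ((-6144), 26624, 65536), ((-8192), 28672, 65536)⟩) (B := ⟨((-6144), 26624, 65536), ((-4096), 28672, 65536), ((-8192), 28672, 65536)⟩) ⟨by decide +kernel, rfl, rfl⟩
    (h₁ := (posOn_smul 8192 2048 4096 rfl (posOn_of_leaf okII0 leafII0_8)))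
    (h₂ := (posOn_smul 2048 4096 4096 rfl (posOn_of_leaf okII0 leafII0_9)))

theorem nodeII0_7 : PosOn (matEx 9 offII0 16 MII0)
    ⟨((-8192), 24576, 65536), ((-4096), 28672, 65536), ((-8192), 32768, 65536)⟩ :=
  posOn_node 2 (A := ⟨((-8192), 32768, 65536), ((-8192), 28672, 65536), ((-4096), 28672, 65536)⟩) (B := ⟨((-8192), 28672, 65536), ((-8192), 24576, 65536), ((-4096), 28672, 65536)⟩) ⟨by decide +kernel, rfl, rfl⟩
    (h₁ := (posOn_smul 8192 4096 4096 rfl (posOn_of_leaf okII0 leafII0_7)))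
    (h₂ := nodeII0_6)

theorem nodeII0_8 : PosOn (matEx 9 offII0 16 MII0)
    ⟨(0, 32768, 65536), ((-4096), 32768, 65536), ((-4096), 28672, 65536)⟩ :=
  posOn_node 2 (A := ⟨((-4096), 28672, 65536), ((-2048), 30720, 65536), ((-4096), 32768, 65536)⟩) (B := ⟨((-2048), 30720, 65536), (0, 32768, 65536), ((-4096), 32768, 65536)⟩) ⟨by decide +kernel, rfl, rfl⟩
    (h₁ := (posOn_smul 4096 2048 4096 rfl (posOn_of_leaf okII0 leafII0_10)))
    (h₂ := (posOn_smul 2048 32768 4096 rfl (posOn_of_leaf okII0 leafII0_11)))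

theorem nodeII0_9 : PosOn (matEx 9 offII0 16 MII0)
    ⟨((-4096), 28672, 65536), (0, 32768, 65536), ((-8192), 32768, 65536)⟩ :=
  posOn_node 1 (A := ⟨(0, 32768, 65536), ((-4096), 32768, 65536), ((-4096), 28672, 65536)⟩) (B := ⟨((-4096), 32768, 65536), ((-8192), 32768, 65536), ((-4096), 28672, 65536)⟩) ⟨by decide +kernel, rfl, rfl⟩
    (h₁ := nodeII0_8)
    (h₂ := (posOn_smul 4096 8192 4096 rfl (posOn_of_leaf okII0 leafII0_12)))

theorem nodeII0_10 : PosOn (matEx 9 offII0 16 MII0)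
    ⟨(0, 32768, 65536), ((-8192), 32768, 65536), ((-8192), 24576, 65536)⟩ :=
  posOn_node 2 (A := ⟨((-8192), 24576, 65536), ((-4096), 28672, 65536), ((-8192), 32768, 65536)⟩) (B := ⟨((-4096), 28672, 65536), (0, 32768, 65536), ((-8192), 32768, 65536)⟩) ⟨by decide +kernel, rfl, rfl⟩
    (h₁ := nodeII0_7)
    (h₂ := nodeII0_9)

theorem nodeII0_11 : PosOn (matEx 9 offII0 16 MII0)
    ⟨((-8192), 24576, 65536), ((-8192), 28672, 65536), ((-12288), 28672, 65536)⟩ :=
  posOn_node 2 (A := ⟨((-12288), 28672, 65536), ((-10240), 26624, 65536), ((-8192), 28672, 65536)⟩) (B := ⟨((-10240), 26624, 65536), ((-8192), 24576, 65536), ((-8192), 28672, 65536)⟩) ⟨by decide +kernel, rfl, rfl⟩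
    (h₁ := (posOn_smul 4096 2048 4096 rfl (posOn_of_leaf okII0 leafII0_14)))
    (h₂ := (posOn_smul 2048 8192 4096 rfl (posOn_of_leaf okII0 leafII0_15)))

theorem nodeII0_12 : PosOn (matEx 9 offII0 16 MII0)
    ⟨((-12288), 28672, 65536), ((-8192), 24576, 65536), ((-8192), 32768, 65536)⟩ :=
  posOn_node 1 (A := ⟨((-8192), 24576, 65536), ((-8192), 28672, 65536), ((-12288), 28672, 65536)⟩) (B := ⟨((-8192), 28672, 65536), ((-8192), 32768, 65536), ((-12288), 28672, 65536)⟩) ⟨by decide +kernel, rfl, rfl⟩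
    (h₁ := nodeII0_11)
    (h₂ := (posOn_smul 4096 8192 4096 rfl (posOn_of_leaf okII0 leafII0_16)))

theorem nodeII0_13 : PosOn (matEx 9 offII0 16 MII0)
    ⟨((-8192), 32768, 65536), ((-16384), 32768, 65536), ((-8192), 24576, 65536)⟩ :=
  posOn_node 1 (A := ⟨((-16384), 32768, 65536), ((-12288), 28672, 65536), ((-8192), 32768, 65536)⟩) (B := ⟨((-12288), 28672, 65536), ((-8192), 24576, 65536), ((-8192), 32768, 65536)⟩) ⟨by decide +kernel, rfl, rfl⟩
    (h₁ := (posOn_smul 16384 4096 8192 rfl (posOn_of_leaf okII0 leafII0_13)))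
    (h₂ := nodeII0_12)

theorem nodeII0_14 : PosOn (matEx 9 offII0 16 MII0)
    ⟨((-8192), 24576, 65536), (0, 32768, 65536), ((-16384), 32768, 65536)⟩ :=
  posOn_node 1 (A := ⟨(0, 32768, 65536), ((-8192), 32768, 65536), ((-8192), 24576, 65536)⟩) (B := ⟨((-8192), 32768, 65536), ((-16384), 32768, 65536), ((-8192), 24576, 65536)⟩) ⟨by decide +kernel, rfl, rfl⟩
    (h₁ := nodeII0_10)
    (h₂ := nodeII0_13)

theorem nodeII0_15 : PosOn (matEx 9 offII0 16 MII0)
    ⟨(0, 32768, 65536), ((-16384), 32768, 65536), ((-16384), 16384, 65536)⟩ :=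
  posOn_node 2 (A := ⟨((-16384), 16384, 65536), ((-8192), 24576, 65536), ((-16384), 32768, 65536)⟩) (B := ⟨((-8192), 24576, 65536), (0, 32768, 65536), ((-16384), 32768, 65536)⟩) ⟨by decide +kernel, rfl, rfl⟩
    (h₁ := nodeII0_5)
    (h₂ := nodeII0_14)

theorem nodeII0_16 : PosOn (matEx 9 offII0 16 MII0)
    ⟨((-32768), 32768, 65536), ((-16384), 16384, 65536), (0, 32768, 65536)⟩ :=
  posOn_node 2 (A := ⟨(0, 32768, 65536), ((-16384), 32768, 65536), ((-16384), 16384, 65536)⟩) (B := ⟨((-16384), 32768, 65536), ((-32768), 32768, 65536), ((-16384), 16384, 65536)⟩) ⟨by decide +kernel, rfl, rfl⟩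
    (h₁ := nodeII0_15)
    (h₂ := (posOn_smul 16384 32768 16384 rfl (posOn_of_leaf okII0 leafII0_17)))

theorem nodeII0_17 : PosOn (matEx 9 offII0 16 MII0)
    ⟨((-4096), 12288, 65536), (0, 16384, 65536), ((-8192), 16384, 65536)⟩ :=
  posOn_node 1 (A := ⟨(0, 16384, 65536), ((-4096), 16384, 65536), ((-4096), 12288, 65536)⟩) (B := ⟨((-4096), 16384, 65536), ((-8192), 16384, 65536), ((-4096), 12288, 65536)⟩) ⟨by decide +kernel, rfl, rfl⟩
    (h₁ := (posOn_smul 16384 4096 4096 rfl (posOn_of_leaf okII0 leafII0_19)))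
    (h₂ := (posOn_smul 4096 8192 4096 rfl (posOn_of_leaf okII0 leafII0_20)))

theorem nodeII0_18 : PosOn (matEx 9 offII0 16 MII0)
    ⟨(0, 16384, 65536), ((-8192), 16384, 65536), ((-8192), 8192, 65536)⟩ :=
  posOn_node 2 (A := ⟨((-8192), 8192, 65536), ((-4096), 12288, 65536), ((-8192), 16384, 65536)⟩) (B := ⟨((-4096), 12288, 65536), (0, 16384, 65536), ((-8192), 16384, 65536)⟩) ⟨by decide +kernel, rfl, rfl⟩
    (h₁ := (posOn_smul 8192 4096 8192 rfl (posOn_of_leaf okII0 leafII0_18)))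
    (h₂ := nodeII0_17)

theorem nodeII0_19 : PosOn (matEx 9 offII0 16 MII0)
    ⟨((-8192), 16384, 65536), ((-16384), 16384, 65536), ((-8192), 8192, 65536)⟩ :=
  posOn_node 1 (A := ⟨((-16384), 16384, 65536), ((-12288), 12288, 65536), ((-8192), 16384, 65536)⟩) (B := ⟨((-12288), 12288, 65536), ((-8192), 8192, 65536), ((-8192), 16384, 65536)⟩) ⟨by decide +kernel, rfl, rfl⟩
    (h₁ := (posOn_smul 16384 4096 8192 rfl (posOn_of_leaf okII0 leafII0_21)))
    (h₂ := (posOn_smul 4096 8192 8192 rfl (posOn_of_leaf okII0 leafII0_22)))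

theorem nodeII0_20 : PosOn (matEx 9 offII0 16 MII0)
    ⟨((-16384), 16384, 65536), ((-8192), 8192, 65536), (0, 16384, 65536)⟩ :=
  posOn_node 2 (A := ⟨(0, 16384, 65536), ((-8192), 16384, 65536), ((-8192), 8192, 65536)⟩) (B := ⟨((-8192), 16384, 65536), ((-16384), 16384, 65536), ((-8192), 8192, 65536)⟩) ⟨by decide +kernel, rfl, rfl⟩
    (h₁ := nodeII0_18)
    (h₂ := nodeII0_19)

theorem nodeII0_21 : PosOn (matEx 9 offII0 16 MII0)
    ⟨((-8192), 8192, 65536), ((-4096), 4096, 65536), (0, 8192, 65536)⟩ :=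
  posOn_node 2 (A := ⟨(0, 8192, 65536), ((-4096), 8192, 65536), ((-4096), 4096, 65536)⟩) (B := ⟨((-4096), 8192, 65536), ((-8192), 8192, 65536), ((-4096), 4096, 65536)⟩) ⟨by decide +kernel, rfl, rfl⟩
    (h₁ := (posOn_smul 8192 4096 4096 rfl (posOn_of_leaf okII0 leafII0_23)))
    (h₂ := (posOn_smul 4096 8192 4096 rfl (posOn_of_leaf okII0 leafII0_24)))

theorem nodeII0_22 : PosOn (matEx 9 offII0 16 MII0)
    ⟨(0, 0, 65536), (0, 8192, 65536), ((-8192), 8192, 65536)⟩ :=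
  posOn_node 2 (A := ⟨((-8192), 8192, 65536), ((-4096), 4096, 65536), (0, 8192, 65536)⟩) (B := ⟨((-4096), 4096, 65536), (0, 0, 65536), (0, 8192, 65536)⟩) ⟨by decide +kernel, rfl, rfl⟩
    (h₁ := nodeII0_21)
    (h₂ := (posOn_smul 4096 65536 8192 rfl (posOn_of_leaf okII0 leafII0_25)))

theorem nodeII0_23 : PosOn (matEx 9 offII0 16 MII0)
    ⟨((-4096), 12288, 65536), ((-8192), 8192, 65536), (0, 8192, 65536)⟩ :=
  posOn_node 1 (A := ⟨((-8192), 8192, 65536), ((-4096), 8192, 65536), ((-4096), 12288, 65536)⟩) (B := ⟨((-4096), 8192, 65536), (0, 8192, 65536), ((-4096), 12288, 65536)⟩) ⟨by decide +kernel, rfl, rfl⟩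
    (h₁ := (posOn_smul 8192 4096 4096 rfl (posOn_of_leaf okII0 leafII0_27)))
    (h₂ := (posOn_smul 4096 8192 4096 rfl (posOn_of_leaf okII0 leafII0_28)))

theorem nodeII0_24 : PosOn (matEx 9 offII0 16 MII0)
    ⟨(0, 8192, 65536), (0, 16384, 65536), ((-8192), 8192, 65536)⟩ :=
  posOn_node 1 (A := ⟨(0, 16384, 65536), ((-4096), 12288, 65536), (0, 8192, 65536)⟩) (B := ⟨((-4096), 12288, 65536), ((-8192), 8192, 65536), (0, 8192, 65536)⟩) ⟨by decide +kernel, rfl, rfl⟩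
    (h₁ := (posOn_smul 16384 4096 8192 rfl (posOn_of_leaf okII0 leafII0_26)))
    (h₂ := nodeII0_23)

theorem nodeII0_25 : PosOn (matEx 9 offII0 16 MII0)
    ⟨((-8192), 8192, 65536), (0, 0, 65536), (0, 16384, 65536)⟩ :=
  posOn_node 1 (A := ⟨(0, 0, 65536), (0, 8192, 65536), ((-8192), 8192, 65536)⟩) (B := ⟨(0, 8192, 65536), (0, 16384, 65536), ((-8192), 8192, 65536)⟩) ⟨by decide +kernel, rfl, rfl⟩
    (h₁ := nodeII0_22)
    (h₂ := nodeII0_24)

theorem nodeII0_26 : PosOn (matEx 9 offII0 16 MII0)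
    ⟨(0, 0, 65536), (0, 16384, 65536), ((-16384), 16384, 65536)⟩ :=
  posOn_node 2 (A := ⟨((-16384), 16384, 65536), ((-8192), 8192, 65536), (0, 16384, 65536)⟩) (B := ⟨((-8192), 8192, 65536), (0, 0, 65536), (0, 16384, 65536)⟩) ⟨by decide +kernel, rfl, rfl⟩
    (h₁ := nodeII0_20)
    (h₂ := nodeII0_25)

theorem nodeII0_27 : PosOn (matEx 9 offII0 16 MII0)
    ⟨(0, 24576, 65536), ((-4096), 24576, 65536), ((-4096), 20480, 65536)⟩ :=
  posOn_node 2 (A := ⟨((-4096), 20480, 65536), ((-2048), 22528, 65536), ((-4096), 24576, 65536)⟩) (B := ⟨((-2048), 22528, 65536), (0, 24576, 65536), ((-4096), 24576, 65536)⟩) ⟨by decide +kernel, rfl, rfl⟩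
    (h₁ := (posOn_smul 4096 2048 4096 rfl (posOn_of_leaf okII0 leafII0_29)))
    (h₂ := (posOn_smul 2048 8192 4096 rfl (posOn_of_leaf okII0 leafII0_30)))

theorem nodeII0_28 : PosOn (matEx 9 offII0 16 MII0)
    ⟨((-8192), 24576, 65536), ((-4096), 20480, 65536), (0, 24576, 65536)⟩ :=
  posOn_node 2 (A := ⟨(0, 24576, 65536), ((-4096), 24576, 65536), ((-4096), 20480, 65536)⟩) (B := ⟨((-4096), 24576, 65536), ((-8192), 24576, 65536), ((-4096), 20480, 65536)⟩) ⟨by decide +kernel, rfl, rfl⟩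
    (h₁ := nodeII0_27)
    (h₂ := (posOn_smul 4096 8192 4096 rfl (posOn_of_leaf okII0 leafII0_31)))

theorem nodeII0_29 : PosOn (matEx 9 offII0 16 MII0)
    ⟨(0, 20480, 65536), (0, 24576, 65536), ((-4096), 20480, 65536)⟩ :=
  posOn_node 1 (A := ⟨(0, 24576, 65536), ((-2048), 22528, 65536), (0, 20480, 65536)⟩) (B := ⟨((-2048), 22528, 65536), ((-4096), 20480, 65536), (0, 20480, 65536)⟩) ⟨by decide +kernel, rfl, rfl⟩
    (h₁ := (posOn_smul 8192 2048 4096 rfl (posOn_of_leaf okII0 leafII0_33)))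
    (h₂ := (posOn_smul 2048 4096 4096 rfl (posOn_of_leaf okII0 leafII0_34)))

theorem nodeII0_30 : PosOn (matEx 9 offII0 16 MII0)
    ⟨((-4096), 20480, 65536), (0, 16384, 65536), (0, 24576, 65536)⟩ :=
  posOn_node 1 (A := ⟨(0, 16384, 65536), (0, 20480, 65536), ((-4096), 20480, 65536)⟩) (B := ⟨(0, 20480, 65536), (0, 24576, 65536), ((-4096), 20480, 65536)⟩) ⟨by decide +kernel, rfl, rfl⟩
    (h₁ := (posOn_smul 16384 4096 4096 rfl (posOn_of_leaf okII0 leafII0_32)))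
    (h₂ := nodeII0_29)

theorem nodeII0_31 : PosOn (matEx 9 offII0 16 MII0)
    ⟨(0, 16384, 65536), (0, 24576, 65536), ((-8192), 24576, 65536)⟩ :=
  posOn_node 2 (A := ⟨((-8192), 24576, 65536), ((-4096), 20480, 65536), (0, 24576, 65536)⟩) (B := ⟨((-4096), 20480, 65536), (0, 16384, 65536), (0, 24576, 65536)⟩) ⟨by decide +kernel, rfl, rfl⟩
    (h₁ := nodeII0_28)
    (h₂ := nodeII0_30)

theorem nodeII0_32 : PosOn (matEx 9 offII0 16 MII0)
    ⟨(0, 28672, 65536), (0, 32768, 65536), ((-4096), 28672, 65536)⟩ :=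
  posOn_node 1 (A := ⟨(0, 32768, 65536), ((-2048), 30720, 65536), (0, 28672, 65536)⟩) (B := ⟨((-2048), 30720, 65536), ((-4096), 28672, 65536), (0, 28672, 65536)⟩) ⟨by decide +kernel, rfl, rfl⟩
    (h₁ := (posOn_smul 32768 2048 4096 rfl (posOn_of_leaf okII0 leafII0_36)))
    (h₂ := (posOn_smul 2048 4096 4096 rfl (posOn_of_leaf okII0 leafII0_37)))

theorem nodeII0_33 : PosOn (matEx 9 offII0 16 MII0)
    ⟨(0, 32768, 65536), ((-4096), 28672, 65536), (0, 24576, 65536)⟩ :=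
  posOn_node 2 (A := ⟨(0, 24576, 65536), (0, 28672, 65536), ((-4096), 28672, 65536)⟩) (B := ⟨(0, 28672, 65536), (0, 32768, 65536), ((-4096), 28672, 65536)⟩) ⟨by decide +kernel, rfl, rfl⟩
    (h₁ := (posOn_smul 8192 4096 4096 rfl (posOn_of_leaf okII0 leafII0_35)))
    (h₂ := nodeII0_32)

theorem nodeII0_34 : PosOn (matEx 9 offII0 16 MII0)
    ⟨((-8192), 24576, 65536), ((-4096), 24576, 65536), ((-4096), 28672, 65536)⟩ :=
  posOn_node 2 (A := ⟨((-4096), 28672, 65536), ((-6144), 26624, 65536), ((-4096), 24576, 65536)⟩) (B := ⟨((-6144), 26624, 65536), ((-8192), 24576, 65536), ((-4096), 24576, 65536)⟩) ⟨by decide +kernel, rfl, rfl⟩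
    (h₁ := (posOn_smul 4096 2048 4096 rfl (posOn_of_leaf okII0 leafII0_38)))
    (h₂ := (posOn_smul 2048 8192 4096 rfl (posOn_of_leaf okII0 leafII0_39)))

theorem nodeII0_35 : PosOn (matEx 9 offII0 16 MII0)
    ⟨((-4096), 28672, 65536), ((-8192), 24576, 65536), (0, 24576, 65536)⟩ :=
  posOn_node 1 (A := ⟨((-8192), 24576, 65536), ((-4096), 24576, 65536), ((-4096), 28672, 65536)⟩) (B := ⟨((-4096), 24576, 65536), (0, 24576, 65536), ((-4096), 28672, 65536)⟩) ⟨by decide +kernel, rfl, rfl⟩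
    (h₁ := nodeII0_34)
    (h₂ := (posOn_smul 4096 8192 4096 rfl (posOn_of_leaf okII0 leafII0_40)))

theorem nodeII0_36 : PosOn (matEx 9 offII0 16 MII0)
    ⟨(0, 24576, 65536), (0, 32768, 65536), ((-8192), 24576, 65536)⟩ :=
  posOn_node 1 (A := ⟨(0, 32768, 65536), ((-4096), 28672, 65536), (0, 24576, 65536)⟩) (B := ⟨((-4096), 28672, 65536), ((-8192), 24576, 65536), (0, 24576, 65536)⟩) ⟨by decide +kernel, rfl, rfl⟩
    (h₁ := nodeII0_33)
    (h₂ := nodeII0_35)

theorem nodeII0_37 : PosOn (matEx 9 offII0 16 MII0)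
    ⟨(0, 32768, 65536), ((-8192), 24576, 65536), (0, 16384, 65536)⟩ :=
  posOn_node 2 (A := ⟨(0, 16384, 65536), (0, 24576, 65536), ((-8192), 24576, 65536)⟩) (B := ⟨(0, 24576, 65536), (0, 32768, 65536), ((-8192), 24576, 65536)⟩) ⟨by decide +kernel, rfl, rfl⟩
    (h₁ := nodeII0_31)
    (h₂ := nodeII0_36)

theorem nodeII0_38 : PosOn (matEx 9 offII0 16 MII0)
    ⟨((-8192), 20480, 65536), ((-8192), 24576, 65536), ((-12288), 20480, 65536)⟩ :=
  posOn_node 1 (A := ⟨((-8192), 24576, 65536), ((-10240), 22528, 65536), ((-8192), 20480, 65536)⟩) (B := ⟨((-10240), 22528, 65536), ((-12288), 20480, 65536), ((-8192), 20480, 65536)⟩) ⟨by decide +kernel, rfl, rfl⟩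
    (h₁ := (posOn_smul 8192 2048 4096 rfl (posOn_of_leaf okII0 leafII0_42)))
    (h₂ := (posOn_smul 2048 4096 4096 rfl (posOn_of_leaf okII0 leafII0_43)))

theorem nodeII0_39 : PosOn (matEx 9 offII0 16 MII0)
    ⟨((-8192), 24576, 65536), ((-12288), 20480, 65536), ((-8192), 16384, 65536)⟩ :=
  posOn_node 2 (A := ⟨((-8192), 16384, 65536), ((-8192), 20480, 65536), ((-12288), 20480, 65536)⟩) (B := ⟨((-8192), 20480, 65536), ((-8192), 24576, 65536), ((-12288), 20480, 65536)⟩) ⟨by decide +kernel, rfl, rfl⟩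
    (h₁ := (posOn_smul 8192 4096 4096 rfl (posOn_of_leaf okII0 leafII0_41)))
    (h₂ := nodeII0_38)

theorem nodeII0_40 : PosOn (matEx 9 offII0 16 MII0)
    ⟨((-16384), 16384, 65536), ((-8192), 16384, 65536), ((-8192), 24576, 65536)⟩ :=
  posOn_node 2 (A := ⟨((-8192), 24576, 65536), ((-12288), 20480, 65536), ((-8192), 16384, 65536)⟩) (B := ⟨((-12288), 20480, 65536), ((-16384), 16384, 65536), ((-8192), 16384, 65536)⟩) ⟨by decide +kernel, rfl, rfl⟩
    (h₁ := nodeII0_39)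
    (h₂ := (posOn_smul 4096 16384 8192 rfl (posOn_of_leaf okII0 leafII0_44)))

theorem nodeII0_41 : PosOn (matEx 9 offII0 16 MII0)
    ⟨(0, 16384, 65536), ((-4096), 20480, 65536), ((-8192), 16384, 65536)⟩ :=
  posOn_node 2 (A := ⟨((-8192), 16384, 65536), ((-4096), 16384, 65536), ((-4096), 20480, 65536)⟩) (B := ⟨((-4096), 16384, 65536), (0, 16384, 65536), ((-4096), 20480, 65536)⟩) ⟨by decide +kernel, rfl, rfl⟩
    (h₁ := (posOn_smul 8192 4096 4096 rfl (posOn_of_leaf okII0 leafII0_45)))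
    (h₂ := (posOn_smul 4096 16384 4096 rfl (posOn_of_leaf okII0 leafII0_46)))

theorem nodeII0_42 : PosOn (matEx 9 offII0 16 MII0)
    ⟨((-4096), 20480, 65536), ((-8192), 24576, 65536), ((-8192), 16384, 65536)⟩ :=
  posOn_node 1 (A := ⟨((-8192), 24576, 65536), ((-8192), 20480, 65536), ((-4096), 20480, 65536)⟩) (B := ⟨((-8192), 20480, 65536), ((-8192), 16384, 65536), ((-4096), 20480, 65536)⟩) ⟨by decide +kernel, rfl, rfl⟩
    (h₁ := (posOn_smul 8192 4096 4096 rfl (posOn_of_leaf okII0 leafII0_47)))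
    (h₂ := (posOn_smul 4096 8192 4096 rfl (posOn_of_leaf okII0 leafII0_48)))

theorem nodeII0_43 : PosOn (matEx 9 offII0 16 MII0)
    ⟨((-8192), 16384, 65536), (0, 16384, 65536), ((-8192), 24576, 65536)⟩ :=
  posOn_node 1 (A := ⟨(0, 16384, 65536), ((-4096), 20480, 65536), ((-8192), 16384, 65536)⟩) (B := ⟨((-4096), 20480, 65536), ((-8192), 24576, 65536), ((-8192), 16384, 65536)⟩) ⟨by decide +kernel, rfl, rfl⟩
    (h₁ := nodeII0_41)
    (h₂ := nodeII0_42)

theorem nodeII0_44 : PosOn (matEx 9 offII0 16 MII0)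
    ⟨((-8192), 24576, 65536), ((-16384), 16384, 65536), (0, 16384, 65536)⟩ :=
  posOn_node 1 (A := ⟨((-16384), 16384, 65536), ((-8192), 16384, 65536), ((-8192), 24576, 65536)⟩) (B := ⟨((-8192), 16384, 65536), (0, 16384, 65536), ((-8192), 24576, 65536)⟩) ⟨by decide +kernel, rfl, rfl⟩
    (h₁ := nodeII0_40)
    (h₂ := nodeII0_43)

theorem nodeII0_45 : PosOn (matEx 9 offII0 16 MII0)
    ⟨(0, 16384, 65536), (0, 32768, 65536), ((-16384), 16384, 65536)⟩ :=
  posOn_node 1 (A := ⟨(0, 32768, 65536), ((-8192), 24576, 65536), (0, 16384, 65536)⟩) (B := ⟨((-8192), 24576, 65536), ((-16384), 16384, 65536), (0, 16384, 65536)⟩) ⟨by decide +kernel, rfl, rfl⟩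
    (h₁ := nodeII0_37)
    (h₂ := nodeII0_44)

theorem nodeII0_46 : PosOn (matEx 9 offII0 16 MII0)
    ⟨((-16384), 16384, 65536), (0, 0, 65536), (0, 32768, 65536)⟩ :=
  posOn_node 1 (A := ⟨(0, 0, 65536), (0, 16384, 65536), ((-16384), 16384, 65536)⟩) (B := ⟨(0, 16384, 65536), (0, 32768, 65536), ((-16384), 16384, 65536)⟩) ⟨by decide +kernel, rfl, rfl⟩
    (h₁ := nodeII0_26)
    (h₂ := nodeII0_45)

theorem nodeII0_47 : PosOn (matEx 9 offII0 16 MII0)
    ⟨(0, 0, 65536), (0, 32768, 65536), ((-32768), 32768, 65536)⟩ :=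
  posOn_node 2 (A := ⟨((-32768), 32768, 65536), ((-16384), 16384, 65536), (0, 32768, 65536)⟩) (B := ⟨((-16384), 16384, 65536), (0, 0, 65536), (0, 32768, 65536)⟩) ⟨by decide +kernel, rfl, rfl⟩
    (h₁ := nodeII0_16)
    (h₂ := nodeII0_46)

theorem nodeII0_48 : PosOn (matEx 9 offII0 16 MII0)
    ⟨(0, 49152, 65536), ((-8192), 49152, 65536), ((-8192), 40960, 65536)⟩ :=
  posOn_node 2 (A := ⟨((-8192), 40960, 65536), ((-4096), 45056, 65536), ((-8192), 49152, 65536)⟩) (B := ⟨((-4096), 45056, 65536), (0, 49152, 65536), ((-8192), 49152, 65536)⟩) ⟨by decide +kernel, rfl, rfl⟩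
    (h₁ := (posOn_smul 8192 4096 8192 rfl (posOn_of_leaf okII0 leafII0_49)))
    (h₂ := (posOn_smul 4096 16384 8192 rfl (posOn_of_leaf okII0 leafII0_50)))

theorem nodeII0_49 : PosOn (matEx 9 offII0 16 MII0)
    ⟨((-8192), 49152, 65536), ((-16384), 49152, 65536), ((-8192), 40960, 65536)⟩ :=
  posOn_node 1 (A := ⟨((-16384), 49152, 65536), ((-12288), 45056, 65536), ((-8192), 49152, 65536)⟩) (B := ⟨((-12288), 45056, 65536), ((-8192), 40960, 65536), ((-8192), 49152, 65536)⟩) ⟨by decide +kernel, rfl, rfl⟩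
    (h₁ := (posOn_smul 16384 4096 8192 rfl (posOn_of_leaf okII0 leafII0_51)))
    (h₂ := (posOn_smul 4096 8192 8192 rfl (posOn_of_leaf okII0 leafII0_52)))

theorem nodeII0_50 : PosOn (matEx 9 offII0 16 MII0)
    ⟨((-16384), 49152, 65536), ((-8192), 40960, 65536), (0, 49152, 65536)⟩ :=
  posOn_node 2 (A := ⟨(0, 49152, 65536), ((-8192), 49152, 65536), ((-8192), 40960, 65536)⟩) (B := ⟨((-8192), 49152, 65536), ((-16384), 49152, 65536), ((-8192), 40960, 65536)⟩) ⟨by decide +kernel, rfl, rfl⟩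
    (h₁ := nodeII0_48)
    (h₂ := nodeII0_49)

theorem nodeII0_51 : PosOn (matEx 9 offII0 16 MII0)
    ⟨(0, 32768, 65536), (0, 40960, 65536), ((-8192), 40960, 65536)⟩ :=
  posOn_node 2 (A := ⟨((-8192), 40960, 65536), ((-4096), 36864, 65536), (0, 40960, 65536)⟩) (B := ⟨((-4096), 36864, 65536), (0, 32768, 65536), (0, 40960, 65536)⟩) ⟨by decide +kernel, rfl, rfl⟩
    (h₁ := (posOn_smul 8192 4096 8192 rfl (posOn_of_leaf okII0 leafII0_53)))
    (h₂ := (posOn_smul 4096 32768 8192 rfl (posOn_of_leaf okII0 leafII0_54)))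

theorem nodeII0_52 : PosOn (matEx 9 offII0 16 MII0)
    ⟨(0, 40960, 65536), (0, 49152, 65536), ((-8192), 40960, 65536)⟩ :=
  posOn_node 1 (A := ⟨(0, 49152, 65536), ((-4096), 45056, 65536), (0, 40960, 65536)⟩) (B := ⟨((-4096), 45056, 65536), ((-8192), 40960, 65536), (0, 40960, 65536)⟩) ⟨by decide +kernel, rfl, rfl⟩
    (h₁ := (posOn_smul 16384 4096 8192 rfl (posOn_of_leaf okII0 leafII0_55)))
    (h₂ := (posOn_smul 4096 8192 8192 rfl (posOn_of_leaf okII0 leafII0_56)))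

theorem nodeII0_53 : PosOn (matEx 9 offII0 16 MII0)
    ⟨((-8192), 40960, 65536), (0, 32768, 65536), (0, 49152, 65536)⟩ :=
  posOn_node 1 (A := ⟨(0, 32768, 65536), (0, 40960, 65536), ((-8192), 40960, 65536)⟩) (B := ⟨(0, 40960, 65536), (0, 49152, 65536), ((-8192), 40960, 65536)⟩) ⟨by decide +kernel, rfl, rfl⟩
    (h₁ := nodeII0_51)
    (h₂ := nodeII0_52)

theorem nodeII0_54 : PosOn (matEx 9 offII0 16 MII0)
    ⟨(0, 32768, 65536), (0, 49152, 65536), ((-16384), 49152, 65536)⟩ :=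
  posOn_node 2 (A := ⟨((-16384), 49152, 65536), ((-8192), 40960, 65536), (0, 49152, 65536)⟩) (B := ⟨((-8192), 40960, 65536), (0, 32768, 65536), (0, 49152, 65536)⟩) ⟨by decide +kernel, rfl, rfl⟩
    (h₁ := nodeII0_50)
    (h₂ := nodeII0_53)

theorem nodeII0_55 : PosOn (matEx 9 offII0 16 MII0)
    ⟨(0, 57344, 65536), (0, 65536, 65536), ((-8192), 57344, 65536)⟩ :=
  posOn_node 1 (A := ⟨(0, 65536, 65536), ((-4096), 61440, 65536), (0, 57344, 65536)⟩) (B := ⟨((-4096), 61440, 65536), ((-8192), 57344, 65536), (0, 57344, 65536)⟩) ⟨by decide +kernel, rfl, rfl⟩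
    (h₁ := (posOn_smul 65536 4096 8192 rfl (posOn_of_leaf okII0 leafII0_58)))
    (h₂ := (posOn_smul 4096 8192 8192 rfl (posOn_of_leaf okII0 leafII0_59)))

theorem nodeII0_56 : PosOn (matEx 9 offII0 16 MII0)
    ⟨(0, 65536, 65536), ((-8192), 57344, 65536), (0, 49152, 65536)⟩ :=
  posOn_node 2 (A := ⟨(0, 49152, 65536), (0, 57344, 65536), ((-8192), 57344, 65536)⟩) (B := ⟨(0, 57344, 65536), (0, 65536, 65536), ((-8192), 57344, 65536)⟩) ⟨by decide +kernel, rfl, rfl⟩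
    (h₁ := (posOn_smul 16384 8192 8192 rfl (posOn_of_leaf okII0 leafII0_57)))
    (h₂ := nodeII0_55)

theorem nodeII0_57 : PosOn (matEx 9 offII0 16 MII0)
    ⟨((-8192), 57344, 65536), ((-12288), 53248, 65536), ((-8192), 49152, 65536)⟩ :=
  posOn_node 2 (A := ⟨((-8192), 49152, 65536), ((-8192), 53248, 65536), ((-12288), 53248, 65536)⟩) (B := ⟨((-8192), 53248, 65536), ((-8192), 57344, 65536), ((-12288), 53248, 65536)⟩) ⟨by decide +kernel, rfl, rfl⟩
    (h₁ := (posOn_smul 8192 4096 4096 rfl (posOn_of_leaf okII0 leafII0_60)))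
    (h₂ := (posOn_smul 4096 8192 4096 rfl (posOn_of_leaf okII0 leafII0_61)))

theorem nodeII0_58 : PosOn (matEx 9 offII0 16 MII0)
    ⟨((-16384), 49152, 65536), ((-8192), 49152, 65536), ((-8192), 57344, 65536)⟩ :=
  posOn_node 2 (A := ⟨((-8192), 57344, 65536), ((-12288), 53248, 65536), ((-8192), 49152, 65536)⟩) (B := ⟨((-12288), 53248, 65536), ((-16384), 49152, 65536), ((-8192), 49152, 65536)⟩) ⟨by decide +kernel, rfl, rfl⟩
    (h₁ := nodeII0_57)
    (h₂ := (posOn_smul 4096 16384 8192 rfl (posOn_of_leaf okII0 leafII0_62)))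

theorem nodeII0_59 : PosOn (matEx 9 offII0 16 MII0)
    ⟨((-4096), 53248, 65536), ((-8192), 57344, 65536), ((-8192), 49152, 65536)⟩ :=
  posOn_node 1 (A := ⟨((-8192), 57344, 65536), ((-8192), 53248, 65536), ((-4096), 53248, 65536)⟩) (B := ⟨((-8192), 53248, 65536), ((-8192), 49152, 65536), ((-4096), 53248, 65536)⟩) ⟨by decide +kernel, rfl, rfl⟩
    (h₁ := (posOn_smul 8192 4096 4096 rfl (posOn_of_leaf okII0 leafII0_64)))
    (h₂ := (posOn_smul 4096 8192 4096 rfl (posOn_of_leaf okII0 leafII0_65)))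

theorem nodeII0_60 : PosOn (matEx 9 offII0 16 MII0)
    ⟨((-8192), 49152, 65536), (0, 49152, 65536), ((-8192), 57344, 65536)⟩ :=
  posOn_node 1 (A := ⟨(0, 49152, 65536), ((-4096), 53248, 65536), ((-8192), 49152, 65536)⟩) (B := ⟨((-4096), 53248, 65536), ((-8192), 57344, 65536), ((-8192), 49152, 65536)⟩) ⟨by decide +kernel, rfl, rfl⟩
    (h₁ := (posOn_smul 16384 4096 8192 rfl (posOn_of_leaf okII0 leafII0_63)))
    (h₂ := nodeII0_59)

theorem nodeII0_61 : PosOn (matEx 9 offII0 16 MII0)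
    ⟨((-8192), 57344, 65536), ((-16384), 49152, 65536), (0, 49152, 65536)⟩ :=
  posOn_node 1 (A := ⟨((-16384), 49152, 65536), ((-8192), 49152, 65536), ((-8192), 57344, 65536)⟩) (B := ⟨((-8192), 49152, 65536), (0, 49152, 65536), ((-8192), 57344, 65536)⟩) ⟨by decide +kernel, rfl, rfl⟩
    (h₁ := nodeII0_58)
    (h₂ := nodeII0_60)

theorem nodeII0_62 : PosOn (matEx 9 offII0 16 MII0)
    ⟨(0, 49152, 65536), (0, 65536, 65536), ((-16384), 49152, 65536)⟩ :=
  posOn_node 1 (A := ⟨(0, 65536, 65536), ((-8192), 57344, 65536), (0, 49152, 65536)⟩) (B := ⟨((-8192), 57344, 65536), ((-16384), 49152, 65536), (0, 49152, 65536)⟩) ⟨by decide +kernel, rfl, rfl⟩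
    (h₁ := nodeII0_56)
    (h₂ := nodeII0_61)

theorem nodeII0_63 : PosOn (matEx 9 offII0 16 MII0)
    ⟨(0, 65536, 65536), ((-16384), 49152, 65536), (0, 32768, 65536)⟩ :=
  posOn_node 2 (A := ⟨(0, 32768, 65536), (0, 49152, 65536), ((-16384), 49152, 65536)⟩) (B := ⟨(0, 49152, 65536), (0, 65536, 65536), ((-16384), 49152, 65536)⟩) ⟨by decide +kernel, rfl, rfl⟩
    (h₁ := nodeII0_54)
    (h₂ := nodeII0_62)

theorem nodeII0_64 : PosOn (matEx 9 offII0 16 MII0)
    ⟨((-16384), 49152, 65536), ((-24576), 40960, 65536), ((-16384), 32768, 65536)⟩ :=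
  posOn_node 2 (A := ⟨((-16384), 32768, 65536), ((-16384), 40960, 65536), ((-24576), 40960, 65536)⟩) (B := ⟨((-16384), 40960, 65536), ((-16384), 49152, 65536), ((-24576), 40960, 65536)⟩) ⟨by decide +kernel, rfl, rfl⟩
    (h₁ := (posOn_smul 16384 8192 8192 rfl (posOn_of_leaf okII0 leafII0_66)))
    (h₂ := (posOn_smul 8192 16384 8192 rfl (posOn_of_leaf okII0 leafII0_67)))

theorem nodeII0_65 : PosOn (matEx 9 offII0 16 MII0)
    ⟨((-32768), 32768, 65536), ((-16384), 32768, 65536), ((-16384), 49152, 65536)⟩ :=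
  posOn_node 2 (A := ⟨((-16384), 49152, 65536), ((-24576), 40960, 65536), ((-16384), 32768, 65536)⟩) (B := ⟨((-24576), 40960, 65536), ((-32768), 32768, 65536), ((-16384), 32768, 65536)⟩) ⟨by decide +kernel, rfl, rfl⟩
    (h₁ := nodeII0_64)
    (h₂ := (posOn_smul 8192 32768 16384 rfl (posOn_of_leaf okII0 leafII0_68)))

theorem nodeII0_66 : PosOn (matEx 9 offII0 16 MII0)
    ⟨((-16384), 32768, 65536), ((-8192), 32768, 65536), ((-8192), 40960, 65536)⟩ :=
  posOn_node 2 (A := ⟨((-8192), 40960, 65536), ((-12288), 36864, 65536), ((-8192), 32768, 65536)⟩) (B := ⟨((-12288), 36864, 65536), ((-16384), 32768, 65536), ((-8192), 32768, 65536)⟩) ⟨by decide +kernel, rfl, rfl⟩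
    (h₁ := (posOn_smul 8192 4096 8192 rfl (posOn_of_leaf okII0 leafII0_69)))
    (h₂ := (posOn_smul 4096 16384 8192 rfl (posOn_of_leaf okII0 leafII0_70)))

theorem nodeII0_67 : PosOn (matEx 9 offII0 16 MII0)
    ⟨(0, 32768, 65536), ((-4096), 36864, 65536), ((-8192), 32768, 65536)⟩ :=
  posOn_node 2 (A := ⟨((-8192), 32768, 65536), ((-4096), 32768, 65536), ((-4096), 36864, 65536)⟩) (B := ⟨((-4096), 32768, 65536), (0, 32768, 65536), ((-4096), 36864, 65536)⟩) ⟨by decide +kernel, rfl, rfl⟩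
    (h₁ := (posOn_smul 8192 4096 4096 rfl (posOn_of_leaf okII0 leafII0_71)))
    (h₂ := (posOn_smul 4096 32768 4096 rfl (posOn_of_leaf okII0 leafII0_72)))

theorem nodeII0_68 : PosOn (matEx 9 offII0 16 MII0)
    ⟨((-8192), 32768, 65536), (0, 32768, 65536), ((-8192), 40960, 65536)⟩ :=
  posOn_node 1 (A := ⟨(0, 32768, 65536), ((-4096), 36864, 65536), ((-8192), 32768, 65536)⟩) (B := ⟨((-4096), 36864, 65536), ((-8192), 40960, 65536), ((-8192), 32768, 65536)⟩) ⟨by decide +kernel, rfl, rfl⟩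
    (h₁ := nodeII0_67)
    (h₂ := (posOn_smul 4096 8192 8192 rfl (posOn_of_leaf okII0 leafII0_73)))

theorem nodeII0_69 : PosOn (matEx 9 offII0 16 MII0)
    ⟨(0, 32768, 65536), ((-8192), 40960, 65536), ((-16384), 32768, 65536)⟩ :=
  posOn_node 2 (A := ⟨((-16384), 32768, 65536), ((-8192), 32768, 65536), ((-8192), 40960, 65536)⟩) (B := ⟨((-8192), 32768, 65536), (0, 32768, 65536), ((-8192), 40960, 65536)⟩) ⟨by decide +kernel, rfl, rfl⟩
    (h₁ := nodeII0_66)
    (h₂ := nodeII0_68)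

theorem nodeII0_70 : PosOn (matEx 9 offII0 16 MII0)
    ⟨((-16384), 49152, 65536), ((-16384), 40960, 65536), ((-8192), 40960, 65536)⟩ :=
  posOn_node 2 (A := ⟨((-8192), 40960, 65536), ((-12288), 45056, 65536), ((-16384), 40960, 65536)⟩) (B := ⟨((-12288), 45056, 65536), ((-16384), 49152, 65536), ((-16384), 40960, 65536)⟩) ⟨by decide +kernel, rfl, rfl⟩
    (h₁ := (posOn_smul 8192 4096 8192 rfl (posOn_of_leaf okII0 leafII0_74)))
    (h₂ := (posOn_smul 4096 16384 8192 rfl (posOn_of_leaf okII0 leafII0_75)))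

theorem nodeII0_71 : PosOn (matEx 9 offII0 16 MII0)
    ⟨((-16384), 40960, 65536), ((-16384), 32768, 65536), ((-8192), 40960, 65536)⟩ :=
  posOn_node 1 (A := ⟨((-16384), 32768, 65536), ((-12288), 36864, 65536), ((-16384), 40960, 65536)⟩) (B := ⟨((-12288), 36864, 65536), ((-8192), 40960, 65536), ((-16384), 40960, 65536)⟩) ⟨by decide +kernel, rfl, rfl⟩
    (h₁ := (posOn_smul 16384 4096 8192 rfl (posOn_of_leaf okII0 leafII0_76)))
    (h₂ := (posOn_smul 4096 8192 8192 rfl (posOn_of_leaf okII0 leafII0_77)))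

theorem nodeII0_72 : PosOn (matEx 9 offII0 16 MII0)
    ⟨((-8192), 40960, 65536), ((-16384), 49152, 65536), ((-16384), 32768, 65536)⟩ :=
  posOn_node 1 (A := ⟨((-16384), 49152, 65536), ((-16384), 40960, 65536), ((-8192), 40960, 65536)⟩) (B := ⟨((-16384), 40960, 65536), ((-16384), 32768, 65536), ((-8192), 40960, 65536)⟩) ⟨by decide +kernel, rfl, rfl⟩
    (h₁ := nodeII0_70)
    (h₂ := nodeII0_71)

theorem nodeII0_73 : PosOn (matEx 9 offII0 16 MII0)
    ⟨((-16384), 32768, 65536), (0, 32768, 65536), ((-16384), 49152, 65536)⟩ :=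
  posOn_node 1 (A := ⟨(0, 32768, 65536), ((-8192), 40960, 65536), ((-16384), 32768, 65536)⟩) (B := ⟨((-8192), 40960, 65536), ((-16384), 49152, 65536), ((-16384), 32768, 65536)⟩) ⟨by decide +kernel, rfl, rfl⟩
    (h₁ := nodeII0_69)
    (h₂ := nodeII0_72)

theorem nodeII0_74 : PosOn (matEx 9 offII0 16 MII0)
    ⟨((-16384), 49152, 65536), ((-32768), 32768, 65536), (0, 32768, 65536)⟩ :=
  posOn_node 1 (A := ⟨((-32768), 32768, 65536), ((-16384), 32768, 65536), ((-16384), 49152, 65536)⟩) (B := ⟨((-16384), 32768, 65536), (0, 32768, 65536), ((-16384), 49152, 65536)⟩) ⟨by decide +kernel, rfl, rfl⟩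
    (h₁ := nodeII0_65)
    (h₂ := nodeII0_73)

theorem nodeII0_75 : PosOn (matEx 9 offII0 16 MII0)
    ⟨(0, 32768, 65536), (0, 65536, 65536), ((-32768), 32768, 65536)⟩ :=
  posOn_node 1 (A := ⟨(0, 65536, 65536), ((-16384), 49152, 65536), (0, 32768, 65536)⟩) (B := ⟨((-16384), 49152, 65536), ((-32768), 32768, 65536), (0, 32768, 65536)⟩) ⟨by decide +kernel, rfl, rfl⟩
    (h₁ := nodeII0_63)
    (h₂ := nodeII0_74)

theorem nodeII0_76 : PosOn (matEx 9 offII0 16 MII0)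
    ⟨(0, 65536, 65536), ((-32768), 32768, 65536), (0, 0, 65536)⟩ :=
  posOn_node 2 (A := ⟨(0, 0, 65536), (0, 32768, 65536), ((-32768), 32768, 65536)⟩) (B := ⟨(0, 32768, 65536), (0, 65536, 65536), ((-32768), 32768, 65536)⟩) ⟨by decide +kernel, rfl, rfl⟩
    (h₁ := nodeII0_47)
    (h₂ := nodeII0_75)

theorem nodeII0_77 : PosOn (matEx 9 offII0 16 MII0)
    ⟨((-56320), 1024, 65536), ((-57344), 0, 65536), ((-55296), 0, 65536)⟩ :=
  posOn_node 1 (A := ⟨((-57344), 0, 65536), ((-56320), 0, 65536), ((-56320), 1024, 65536)⟩) (B := ⟨((-56320), 0, 65536), ((-55296), 0, 65536), ((-56320), 1024, 65536)⟩) ⟨by decide +kernel, rfl, rfl⟩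
    (h₁ := (posOn_smul 8192 1024 1024 rfl (posOn_of_leaf okII0 leafII0_83)))
    (h₂ := (posOn_smul 1024 2048 1024 rfl (posOn_of_leaf okII0 leafII0_84)))

theorem nodeII0_78 : PosOn (matEx 9 offII0 16 MII0)
    ⟨((-57344), 0, 65536), ((-55296), 0, 65536), ((-55296), 2048, 65536)⟩ :=
  posOn_node 2 (A := ⟨((-55296), 2048, 65536), ((-56320), 1024, 65536), ((-55296), 0, 65536)⟩) (B := ⟨((-56320), 1024, 65536), ((-57344), 0, 65536), ((-55296), 0, 65536)⟩) ⟨by decide +kernel, rfl, rfl⟩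
    (h₁ := (posOn_smul 2048 1024 2048 rfl (posOn_of_leaf okII0 leafII0_82)))
    (h₂ := nodeII0_77)

theorem nodeII0_79 : PosOn (matEx 9 offII0 16 MII0)
    ⟨((-53248), 0, 65536), ((-54272), 1024, 65536), ((-55296), 0, 65536)⟩ :=
  posOn_node 2 (A := ⟨((-55296), 0, 65536), ((-54272), 0, 65536), ((-54272), 1024, 65536)⟩) (B := ⟨((-54272), 0, 65536), ((-53248), 0, 65536), ((-54272), 1024, 65536)⟩) ⟨by decide +kernel, rfl, rfl⟩
    (h₁ := (posOn_smul 2048 1024 1024 rfl (posOn_of_leaf okII0 leafII0_85)))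
    (h₂ := (posOn_smul 1024 4096 1024 rfl (posOn_of_leaf okII0 leafII0_86)))

theorem nodeII0_80 : PosOn (matEx 9 offII0 16 MII0)
    ⟨((-55296), 0, 65536), ((-53248), 0, 65536), ((-55296), 2048, 65536)⟩ :=
  posOn_node 1 (A := ⟨((-53248), 0, 65536), ((-54272), 1024, 65536), ((-55296), 0, 65536)⟩) (B := ⟨((-54272), 1024, 65536), ((-55296), 2048, 65536), ((-55296), 0, 65536)⟩) ⟨by decide +kernel, rfl, rfl⟩
    (h₁ := nodeII0_79)
    (h₂ := (posOn_smul 1024 2048 2048 rfl (posOn_of_leaf okII0 leafII0_87)))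

theorem nodeII0_81 : PosOn (matEx 9 offII0 16 MII0)
    ⟨((-55296), 2048, 65536), ((-57344), 0, 65536), ((-53248), 0, 65536)⟩ :=
  posOn_node 1 (A := ⟨((-57344), 0, 65536), ((-55296), 0, 65536), ((-55296), 2048, 65536)⟩) (B := ⟨((-55296), 0, 65536), ((-53248), 0, 65536), ((-55296), 2048, 65536)⟩) ⟨by decide +kernel, rfl, rfl⟩
    (h₁ := nodeII0_78)
    (h₂ := nodeII0_80)

theorem nodeII0_82 : PosOn (matEx 9 offII0 16 MII0)
    ⟨((-57344), 0, 65536), ((-53248), 0, 65536), ((-53248), 4096, 65536)⟩ :=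
  posOn_node 2 (A := ⟨((-53248), 4096, 65536), ((-55296), 2048, 65536), ((-53248), 0, 65536)⟩) (B := ⟨((-55296), 2048, 65536), ((-57344), 0, 65536), ((-53248), 0, 65536)⟩) ⟨by decide +kernel, rfl, rfl⟩
    (h₁ := (posOn_smul 4096 2048 4096 rfl (posOn_of_leaf okII0 leafII0_81)))
    (h₂ := nodeII0_81)

theorem nodeII0_83 : PosOn (matEx 9 offII0 16 MII0)
    ⟨((-49152), 0, 65536), ((-53248), 4096, 65536), ((-57344), 0, 65536)⟩ :=
  posOn_node 2 (A := ⟨((-57344), 0, 65536), ((-53248), 0, 65536), ((-53248), 4096, 65536)⟩) (B := ⟨((-53248), 0, 65536), ((-49152), 0, 65536), ((-53248), 4096, 65536)⟩) ⟨by decide +kernel, rfl, rfl⟩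
    (h₁ := nodeII0_82)
    (h₂ := (posOn_smul 4096 16384 4096 rfl (posOn_of_leaf okII0 leafII0_88)))

theorem nodeII0_84 : PosOn (matEx 9 offII0 16 MII0)
    ⟨((-57344), 4096, 65536), ((-57344), 0, 65536), ((-53248), 4096, 65536)⟩ :=
  posOn_node 1 (A := ⟨((-57344), 0, 65536), ((-55296), 2048, 65536), ((-57344), 4096, 65536)⟩) (B := ⟨((-55296), 2048, 65536), ((-53248), 4096, 65536), ((-57344), 4096, 65536)⟩) ⟨by decide +kernel, rfl, rfl⟩
    (h₁ := (posOn_smul 8192 2048 4096 rfl (posOn_of_leaf okII0 leafII0_90)))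
    (h₂ := (posOn_smul 2048 4096 4096 rfl (posOn_of_leaf okII0 leafII0_91)))

theorem nodeII0_85 : PosOn (matEx 9 offII0 16 MII0)
    ⟨((-53248), 4096, 65536), ((-57344), 8192, 65536), ((-57344), 0, 65536)⟩ :=
  posOn_node 1 (A := ⟨((-57344), 8192, 65536), ((-57344), 4096, 65536), ((-53248), 4096, 65536)⟩) (B := ⟨((-57344), 4096, 65536), ((-57344), 0, 65536), ((-53248), 4096, 65536)⟩) ⟨by decide +kernel, rfl, rfl⟩
    (h₁ := (posOn_smul 8192 4096 4096 rfl (posOn_of_leaf okII0 leafII0_89)))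
    (h₂ := nodeII0_84)

theorem nodeII0_86 : PosOn (matEx 9 offII0 16 MII0)
    ⟨((-57344), 0, 65536), ((-49152), 0, 65536), ((-57344), 8192, 65536)⟩ :=
  posOn_node 1 (A := ⟨((-49152), 0, 65536), ((-53248), 4096, 65536), ((-57344), 0, 65536)⟩) (B := ⟨((-53248), 4096, 65536), ((-57344), 8192, 65536), ((-57344), 0, 65536)⟩) ⟨by decide +kernel, rfl, rfl⟩
    (h₁ := nodeII0_83)
    (h₂ := nodeII0_85)

theorem nodeII0_87 : PosOn (matEx 9 offII0 16 MII0)
    ⟨((-57344), 8192, 65536), ((-65536), 0, 65536), ((-49152), 0, 65536)⟩ :=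
  posOn_node 1 (A := ⟨((-65536), 0, 65536), ((-57344), 0, 65536), ((-57344), 8192, 65536)⟩) (B := ⟨((-57344), 0, 65536), ((-49152), 0, 65536), ((-57344), 8192, 65536)⟩) ⟨by decide +kernel, rfl, rfl⟩
    (h₁ := (posOn_smul 65536 8192 8192 rfl (posOn_of_leaf okII0 leafII0_80)))
    (h₂ := nodeII0_86)

theorem nodeII0_88 : PosOn (matEx 9 offII0 16 MII0)
    ⟨((-65536), 0, 65536), ((-49152), 0, 65536), ((-49152), 16384, 65536)⟩ :=
  posOn_node 2 (A := ⟨((-49152), 16384, 65536), ((-57344), 8192, 65536), ((-49152), 0, 65536)⟩) (B := ⟨((-57344), 8192, 65536), ((-65536), 0, 65536), ((-49152), 0, 65536)⟩) ⟨by decide +kernel, rfl, rfl⟩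
    (h₁ := (posOn_smul 16384 8192 16384 rfl (posOn_of_leaf okII0 leafII0_79)))
    (h₂ := nodeII0_87)

theorem nodeII0_89 : PosOn (matEx 9 offII0 16 MII0)
    ⟨((-45056), 4096, 65536), ((-49152), 0, 65536), ((-40960), 0, 65536)⟩ :=
  posOn_node 1 (A := ⟨((-49152), 0, 65536), ((-45056), 0, 65536), ((-45056), 4096, 65536)⟩) (B := ⟨((-45056), 0, 65536), ((-40960), 0, 65536), ((-45056), 4096, 65536)⟩) ⟨by decide +kernel, rfl, rfl⟩
    (h₁ := (posOn_smul 16384 4096 4096 rfl (posOn_of_leaf okII0 leafII0_93)))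
    (h₂ := (posOn_smul 4096 8192 4096 rfl (posOn_of_leaf okII0 leafII0_94)))

theorem nodeII0_90 : PosOn (matEx 9 offII0 16 MII0)
    ⟨((-49152), 0, 65536), ((-40960), 0, 65536), ((-40960), 8192, 65536)⟩ :=
  posOn_node 2 (A := ⟨((-40960), 8192, 65536), ((-45056), 4096, 65536), ((-40960), 0, 65536)⟩) (B := ⟨((-45056), 4096, 65536), ((-49152), 0, 65536), ((-40960), 0, 65536)⟩) ⟨by decide +kernel, rfl, rfl⟩
    (h₁ := (posOn_smul 8192 4096 8192 rfl (posOn_of_leaf okII0 leafII0_92)))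
    (h₂ := nodeII0_89)

theorem nodeII0_91 : PosOn (matEx 9 offII0 16 MII0)
    ⟨((-32768), 0, 65536), ((-40960), 8192, 65536), ((-49152), 0, 65536)⟩ :=
  posOn_node 2 (A := ⟨((-49152), 0, 65536), ((-40960), 0, 65536), ((-40960), 8192, 65536)⟩) (B := ⟨((-40960), 0, 65536), ((-32768), 0, 65536), ((-40960), 8192, 65536)⟩) ⟨by decide +kernel, rfl, rfl⟩
    (h₁ := nodeII0_90)
    (h₂ := (posOn_smul 8192 32768 8192 rfl (posOn_of_leaf okII0 leafII0_95)))

theorem nodeII0_92 : PosOn (matEx 9 offII0 16 MII0)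
    ⟨((-49152), 0, 65536), ((-32768), 0, 65536), ((-49152), 16384, 65536)⟩ :=
  posOn_node 1 (A := ⟨((-32768), 0, 65536), ((-40960), 8192, 65536), ((-49152), 0, 65536)⟩) (B := ⟨((-40960), 8192, 65536), ((-49152), 16384, 65536), ((-49152), 0, 65536)⟩) ⟨by decide +kernel, rfl, rfl⟩
    (h₁ := nodeII0_91)
    (h₂ := (posOn_smul 8192 16384 16384 rfl (posOn_of_leaf okII0 leafII0_96)))

theorem nodeII0_93 : PosOn (matEx 9 offII0 16 MII0)
    ⟨((-49152), 16384, 65536), ((-65536), 0, 65536), ((-32768), 0, 65536)⟩ :=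
  posOn_node 1 (A := ⟨((-65536), 0, 65536), ((-49152), 0, 65536), ((-49152), 16384, 65536)⟩) (B := ⟨((-49152), 0, 65536), ((-32768), 0, 65536), ((-49152), 16384, 65536)⟩) ⟨by decide +kernel, rfl, rfl⟩
    (h₁ := nodeII0_88)
    (h₂ := nodeII0_92)

theorem nodeII0_94 : PosOn (matEx 9 offII0 16 MII0)
    ⟨((-65536), 0, 65536), ((-32768), 0, 65536), ((-32768), 32768, 65536)⟩ :=
  posOn_node 2 (A := ⟨((-32768), 32768, 65536), ((-49152), 16384, 65536), ((-32768), 0, 65536)⟩) (B := ⟨((-49152), 16384, 65536), ((-65536), 0, 65536), ((-32768), 0, 65536)⟩) ⟨by decide +kernel, rfl, rfl⟩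
    (h₁ := (posOn_smul 32768 16384 32768 rfl (posOn_of_leaf okII0 leafII0_78)))
    (h₂ := nodeII0_93)

theorem nodeII0_95 : PosOn (matEx 9 offII0 16 MII0)
    ⟨((-8192), 8192, 65536), ((-12288), 4096, 65536), ((-8192), 0, 65536)⟩ :=
  posOn_node 2 (A := ⟨((-8192), 0, 65536), ((-8192), 4096, 65536), ((-12288), 4096, 65536)⟩) (B := ⟨((-8192), 4096, 65536), ((-8192), 8192, 65536), ((-12288), 4096, 65536)⟩) ⟨by decide +kernel, rfl, rfl⟩
    (h₁ := (posOn_smul 8192 4096 4096 rfl (posOn_of_leaf okII0 leafII0_98)))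
    (h₂ := (posOn_smul 4096 8192 4096 rfl (posOn_of_leaf okII0 leafII0_99)))

theorem nodeII0_96 : PosOn (matEx 9 offII0 16 MII0)
    ⟨((-12288), 4096, 65536), ((-16384), 0, 65536), ((-8192), 0, 65536)⟩ :=
  posOn_node 1 (A := ⟨((-16384), 0, 65536), ((-12288), 0, 65536), ((-12288), 4096, 65536)⟩) (B := ⟨((-12288), 0, 65536), ((-8192), 0, 65536), ((-12288), 4096, 65536)⟩) ⟨by decide +kernel, rfl, rfl⟩
    (h₁ := (posOn_smul 16384 4096 4096 rfl (posOn_of_leaf okII0 leafII0_100)))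
    (h₂ := (posOn_smul 4096 8192 4096 rfl (posOn_of_leaf okII0 leafII0_101)))

theorem nodeII0_97 : PosOn (matEx 9 offII0 16 MII0)
    ⟨((-16384), 0, 65536), ((-8192), 0, 65536), ((-8192), 8192, 65536)⟩ :=
  posOn_node 2 (A := ⟨((-8192), 8192, 65536), ((-12288), 4096, 65536), ((-8192), 0, 65536)⟩) (B := ⟨((-12288), 4096, 65536), ((-16384), 0, 65536), ((-8192), 0, 65536)⟩) ⟨by decide +kernel, rfl, rfl⟩
    (h₁ := nodeII0_95)
    (h₂ := nodeII0_96)

theorem nodeII0_98 : PosOn (matEx 9 offII0 16 MII0)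
    ⟨(0, 0, 65536), ((-4096), 4096, 65536), ((-8192), 0, 65536)⟩ :=
  posOn_node 2 (A := ⟨((-8192), 0, 65536), ((-4096), 0, 65536), ((-4096), 4096, 65536)⟩) (B := ⟨((-4096), 0, 65536), (0, 0, 65536), ((-4096), 4096, 65536)⟩) ⟨by decide +kernel, rfl, rfl⟩
    (h₁ := (posOn_smul 8192 4096 4096 rfl (posOn_of_leaf okII0 leafII0_102)))
    (h₂ := (posOn_smul 4096 65536 4096 rfl (posOn_of_leaf okII0 leafII0_103)))

theorem nodeII0_99 : PosOn (matEx 9 offII0 16 MII0)
    ⟨((-8192), 0, 65536), (0, 0, 65536), ((-8192), 8192, 65536)⟩ :=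
  posOn_node 1 (A := ⟨(0, 0, 65536), ((-4096), 4096, 65536), ((-8192), 0, 65536)⟩) (B := ⟨((-4096), 4096, 65536), ((-8192), 8192, 65536), ((-8192), 0, 65536)⟩) ⟨by decide +kernel, rfl, rfl⟩
    (h₁ := nodeII0_98)
    (h₂ := (posOn_smul 4096 8192 8192 rfl (posOn_of_leaf okII0 leafII0_104)))

theorem nodeII0_100 : PosOn (matEx 9 offII0 16 MII0)
    ⟨(0, 0, 65536), ((-8192), 8192, 65536), ((-16384), 0, 65536)⟩ :=
  posOn_node 2 (A := ⟨((-16384), 0, 65536), ((-8192), 0, 65536), ((-8192), 8192, 65536)⟩) (B := ⟨((-8192), 0, 65536), (0, 0, 65536), ((-8192), 8192, 65536)⟩) ⟨by decide +kernel, rfl, rfl⟩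
    (h₁ := nodeII0_97)
    (h₂ := nodeII0_99)

theorem nodeII0_101 : PosOn (matEx 9 offII0 16 MII0)
    ⟨((-16384), 16384, 65536), ((-16384), 8192, 65536), ((-8192), 8192, 65536)⟩ :=
  posOn_node 2 (A := ⟨((-8192), 8192, 65536), ((-12288), 12288, 65536), ((-16384), 8192, 65536)⟩) (B := ⟨((-12288), 12288, 65536), ((-16384), 16384, 65536), ((-16384), 8192, 65536)⟩) ⟨by decide +kernel, rfl, rfl⟩
    (h₁ := (posOn_smul 8192 4096 8192 rfl (posOn_of_leaf okII0 leafII0_105)))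
    (h₂ := (posOn_smul 4096 16384 8192 rfl (posOn_of_leaf okII0 leafII0_106)))

theorem nodeII0_102 : PosOn (matEx 9 offII0 16 MII0)
    ⟨((-16384), 8192, 65536), ((-16384), 0, 65536), ((-8192), 8192, 65536)⟩ :=
  posOn_node 1 (A := ⟨((-16384), 0, 65536), ((-12288), 4096, 65536), ((-16384), 8192, 65536)⟩) (B := ⟨((-12288), 4096, 65536), ((-8192), 8192, 65536), ((-16384), 8192, 65536)⟩) ⟨by decide +kernel, rfl, rfl⟩
    (h₁ := (posOn_smul 16384 4096 8192 rfl (posOn_of_leaf okII0 leafII0_107)))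
    (h₂ := (posOn_smul 4096 8192 8192 rfl (posOn_of_leaf okII0 leafII0_108)))

theorem nodeII0_103 : PosOn (matEx 9 offII0 16 MII0)
    ⟨((-8192), 8192, 65536), ((-16384), 16384, 65536), ((-16384), 0, 65536)⟩ :=
  posOn_node 1 (A := ⟨((-16384), 16384, 65536), ((-16384), 8192, 65536), ((-8192), 8192, 65536)⟩) (B := ⟨((-16384), 8192, 65536), ((-16384), 0, 65536), ((-8192), 8192, 65536)⟩) ⟨by decide +kernel, rfl, rfl⟩
    (h₁ := nodeII0_101)
    (h₂ := nodeII0_102)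

theorem nodeII0_104 : PosOn (matEx 9 offII0 16 MII0)
    ⟨((-16384), 0, 65536), (0, 0, 65536), ((-16384), 16384, 65536)⟩ :=
  posOn_node 1 (A := ⟨(0, 0, 65536), ((-8192), 8192, 65536), ((-16384), 0, 65536)⟩) (B := ⟨((-8192), 8192, 65536), ((-16384), 16384, 65536), ((-16384), 0, 65536)⟩) ⟨by decide +kernel, rfl, rfl⟩
    (h₁ := nodeII0_100)
    (h₂ := nodeII0_103)

theorem nodeII0_105 : PosOn (matEx 9 offII0 16 MII0)
    ⟨(0, 0, 65536), ((-16384), 16384, 65536), ((-32768), 0, 65536)⟩ :=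
  posOn_node 2 (A := ⟨((-32768), 0, 65536), ((-16384), 0, 65536), ((-16384), 16384, 65536)⟩) (B := ⟨((-16384), 0, 65536), (0, 0, 65536), ((-16384), 16384, 65536)⟩) ⟨by decide +kernel, rfl, rfl⟩
    (h₁ := (posOn_smul 32768 16384 16384 rfl (posOn_of_leaf okII0 leafII0_97)))
    (h₂ := nodeII0_104)

theorem nodeII0_106 : PosOn (matEx 9 offII0 16 MII0)
    ⟨((-32768), 0, 65536), (0, 0, 65536), ((-32768), 32768, 65536)⟩ :=
  posOn_node 1 (A := ⟨(0, 0, 65536), ((-16384), 16384, 65536), ((-32768), 0, 65536)⟩) (B := ⟨((-16384), 16384, 65536), ((-32768), 32768, 65536), ((-32768), 0, 65536)⟩) ⟨by decide +kernel, rfl, rfl⟩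
    (h₁ := nodeII0_105)
    (h₂ := (posOn_smul 16384 32768 32768 rfl (posOn_of_leaf okII0 leafII0_109)))

theorem nodeII0_107 : PosOn (matEx 9 offII0 16 MII0)
    ⟨((-32768), 32768, 65536), ((-65536), 0, 65536), (0, 0, 65536)⟩ :=
  posOn_node 1 (A := ⟨((-65536), 0, 65536), ((-32768), 0, 65536), ((-32768), 32768, 65536)⟩) (B := ⟨((-32768), 0, 65536), (0, 0, 65536), ((-32768), 32768, 65536)⟩) ⟨by decide +kernel, rfl, rfl⟩
    (h₁ := nodeII0_94)
    (h₂ := nodeII0_106)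

theorem nodeII0_108 : PosOn (matEx 9 offII0 16 MII0)
    ⟨((-65536), 0, 65536), (0, 0, 65536), (0, 65536, 65536)⟩ :=
  posOn_node 2 (A := ⟨(0, 65536, 65536), ((-32768), 32768, 65536), (0, 0, 65536)⟩) (B := ⟨((-32768), 32768, 65536), ((-65536), 0, 65536), (0, 0, 65536)⟩) ⟨by decide +kernel, rfl, rfl⟩
    (h₁ := nodeII0_76)
    (h₂ := nodeII0_107)

theorem nodeII0_109 : PosOn (matEx 9 offII0 16 MII0)
    ⟨((-65536), 65536, 65536), ((-65536), 32768, 65536), ((-32768), 32768, 65536)⟩ :=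
  posOn_node 2 (A := ⟨((-32768), 32768, 65536), ((-49152), 49152, 65536), ((-65536), 32768, 65536)⟩) (B := ⟨((-49152), 49152, 65536), ((-65536), 65536, 65536), ((-65536), 32768, 65536)⟩) ⟨by decide +kernel, rfl, rfl⟩
    (h₁ := (posOn_smul 32768 16384 32768 rfl (posOn_of_leaf okII0 leafII0_110)))
    (h₂ := (posOn_smul 16384 65536 32768 rfl (posOn_of_leaf okII0 leafII0_111)))

theorem nodeII0_110 : PosOn (matEx 9 offII0 16 MII0)
    ⟨((-65536), 32768, 65536), ((-65536), 16384, 65536), ((-49152), 16384, 65536)⟩ :=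
  posOn_node 2 (A := ⟨((-49152), 16384, 65536), ((-57344), 24576, 65536), ((-65536), 16384, 65536)⟩) (B := ⟨((-57344), 24576, 65536), ((-65536), 32768, 65536), ((-65536), 16384, 65536)⟩) ⟨by decide +kernel, rfl, rfl⟩
    (h₁ := (posOn_smul 16384 8192 16384 rfl (posOn_of_leaf okII0 leafII0_112)))
    (h₂ := (posOn_smul 8192 32768 16384 rfl (posOn_of_leaf okII0 leafII0_113)))

theorem nodeII0_111 : PosOn (matEx 9 offII0 16 MII0)
    ⟨((-65536), 0, 65536), ((-49152), 16384, 65536), ((-65536), 32768, 65536)⟩ :=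
  posOn_node 2 (A := ⟨((-65536), 32768, 65536), ((-65536), 16384, 65536), ((-49152), 16384, 65536)⟩) (B := ⟨((-65536), 16384, 65536), ((-65536), 0, 65536), ((-49152), 16384, 65536)⟩) ⟨by decide +kernel, rfl, rfl⟩
    (h₁ := nodeII0_110)
    (h₂ := (posOn_smul 16384 65536 16384 rfl (posOn_of_leaf okII0 leafII0_114)))

theorem nodeII0_112 : PosOn (matEx 9 offII0 16 MII0)
    ⟨((-49152), 32768, 65536), ((-65536), 32768, 65536), ((-49152), 16384, 65536)⟩ :=
  posOn_node 1 (A := ⟨((-65536), 32768, 65536), ((-57344), 24576, 65536), ((-49152), 32768, 65536)⟩) (B := ⟨((-57344), 24576, 65536), ((-49152), 16384, 65536), ((-49152), 32768, 65536)⟩) ⟨by decide +kernel, rfl, rfl⟩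
    (h₁ := (posOn_smul 32768 8192 16384 rfl (posOn_of_leaf okII0 leafII0_116)))
    (h₂ := (posOn_smul 8192 16384 16384 rfl (posOn_of_leaf okII0 leafII0_117)))

theorem nodeII0_113 : PosOn (matEx 9 offII0 16 MII0)
    ⟨((-49152), 16384, 65536), ((-32768), 32768, 65536), ((-65536), 32768, 65536)⟩ :=
  posOn_node 1 (A := ⟨((-32768), 32768, 65536), ((-49152), 32768, 65536), ((-49152), 16384, 65536)⟩) (B := ⟨((-49152), 32768, 65536), ((-65536), 32768, 65536), ((-49152), 16384, 65536)⟩) ⟨by decide +kernel, rfl, rfl⟩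
    (h₁ := (posOn_smul 32768 16384 16384 rfl (posOn_of_leaf okII0 leafII0_115)))
    (h₂ := nodeII0_112)

theorem nodeII0_114 : PosOn (matEx 9 offII0 16 MII0)
    ⟨((-65536), 32768, 65536), ((-65536), 0, 65536), ((-32768), 32768, 65536)⟩ :=
  posOn_node 1 (A := ⟨((-65536), 0, 65536), ((-49152), 16384, 65536), ((-65536), 32768, 65536)⟩) (B := ⟨((-49152), 16384, 65536), ((-32768), 32768, 65536), ((-65536), 32768, 65536)⟩) ⟨by decide +kernel, rfl, rfl⟩
    (h₁ := nodeII0_111)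
    (h₂ := nodeII0_113)

theorem nodeII0_115 : PosOn (matEx 9 offII0 16 MII0)
    ⟨((-65536), 0, 65536), ((-32768), 32768, 65536), ((-65536), 65536, 65536)⟩ :=
  posOn_node 2 (A := ⟨((-65536), 65536, 65536), ((-65536), 32768, 65536), ((-32768), 32768, 65536)⟩) (B := ⟨((-65536), 32768, 65536), ((-65536), 0, 65536), ((-32768), 32768, 65536)⟩) ⟨by decide +kernel, rfl, rfl⟩
    (h₁ := nodeII0_109)
    (h₂ := nodeII0_114)

theorem nodeII0_116 : PosOn (matEx 9 offII0 16 MII0)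
    ⟨((-24576), 49152, 65536), ((-16384), 49152, 65536), ((-24576), 57344, 65536)⟩ :=
  posOn_node 1 (A := ⟨((-16384), 49152, 65536), ((-20480), 53248, 65536), ((-24576), 49152, 65536)⟩) (B := ⟨((-20480), 53248, 65536), ((-24576), 57344, 65536), ((-24576), 49152, 65536)⟩) ⟨by decide +kernel, rfl, rfl⟩
    (h₁ := (posOn_smul 16384 4096 8192 rfl (posOn_of_leaf okII0 leafII0_119)))
    (h₂ := (posOn_smul 4096 8192 8192 rfl (posOn_of_leaf okII0 leafII0_120)))

theorem nodeII0_117 : PosOn (matEx 9 offII0 16 MII0)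
    ⟨((-16384), 49152, 65536), ((-24576), 57344, 65536), ((-32768), 49152, 65536)⟩ :=
  posOn_node 2 (A := ⟨((-32768), 49152, 65536), ((-24576), 49152, 65536), ((-24576), 57344, 65536)⟩) (B := ⟨((-24576), 49152, 65536), ((-16384), 49152, 65536), ((-24576), 57344, 65536)⟩) ⟨by decide +kernel, rfl, rfl⟩
    (h₁ := (posOn_smul 16384 8192 8192 rfl (posOn_of_leaf okII0 leafII0_118)))
    (h₂ := nodeII0_116)

theorem nodeII0_118 : PosOn (matEx 9 offII0 16 MII0)
    ⟨((-32768), 65536, 65536), ((-32768), 49152, 65536), ((-16384), 49152, 65536)⟩ :=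
  posOn_node 2 (A := ⟨((-16384), 49152, 65536), ((-24576), 57344, 65536), ((-32768), 49152, 65536)⟩) (B := ⟨((-24576), 57344, 65536), ((-32768), 65536, 65536), ((-32768), 49152, 65536)⟩) ⟨by decide +kernel, rfl, rfl⟩
    (h₁ := nodeII0_117)
    (h₂ := (posOn_smul 8192 32768 16384 rfl (posOn_of_leaf okII0 leafII0_121)))

theorem nodeII0_119 : PosOn (matEx 9 offII0 16 MII0)
    ⟨((-32768), 49152, 65536), ((-32768), 32768, 65536), ((-16384), 49152, 65536)⟩ :=
  posOn_node 1 (A := ⟨((-32768), 32768, 65536), ((-24576), 40960, 65536), ((-32768), 49152, 65536)⟩) (B := ⟨((-24576), 40960, 65536), ((-16384), 49152, 65536), ((-32768), 49152, 65536)⟩) ⟨by decide +kernel, rfl, rfl⟩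
    (h₁ := (posOn_smul 32768 8192 16384 rfl (posOn_of_leaf okII0 leafII0_122)))
    (h₂ := (posOn_smul 8192 16384 16384 rfl (posOn_of_leaf okII0 leafII0_123)))

theorem nodeII0_120 : PosOn (matEx 9 offII0 16 MII0)
    ⟨((-32768), 32768, 65536), ((-16384), 49152, 65536), ((-32768), 65536, 65536)⟩ :=
  posOn_node 2 (A := ⟨((-32768), 65536, 65536), ((-32768), 49152, 65536), ((-16384), 49152, 65536)⟩) (B := ⟨((-32768), 49152, 65536), ((-32768), 32768, 65536), ((-16384), 49152, 65536)⟩) ⟨by decide +kernel, rfl, rfl⟩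
    (h₁ := nodeII0_118)
    (h₂ := nodeII0_119)

theorem nodeII0_121 : PosOn (matEx 9 offII0 16 MII0)
    ⟨((-12288), 61440, 65536), ((-16384), 65536, 65536), ((-16384), 57344, 65536)⟩ :=
  posOn_node 1 (A := ⟨((-16384), 65536, 65536), ((-16384), 61440, 65536), ((-12288), 61440, 65536)⟩) (B := ⟨((-16384), 61440, 65536), ((-16384), 57344, 65536), ((-12288), 61440, 65536)⟩) ⟨by decide +kernel, rfl, rfl⟩
    (h₁ := (posOn_smul 16384 4096 4096 rfl (posOn_of_leaf okII0 leafII0_125)))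
    (h₂ := (posOn_smul 4096 8192 4096 rfl (posOn_of_leaf okII0 leafII0_126)))

theorem nodeII0_122 : PosOn (matEx 9 offII0 16 MII0)
    ⟨((-16384), 65536, 65536), ((-16384), 57344, 65536), ((-8192), 57344, 65536)⟩ :=
  posOn_node 2 (A := ⟨((-8192), 57344, 65536), ((-12288), 61440, 65536), ((-16384), 57344, 65536)⟩) (B := ⟨((-12288), 61440, 65536), ((-16384), 65536, 65536), ((-16384), 57344, 65536)⟩) ⟨by decide +kernel, rfl, rfl⟩
    (h₁ := (posOn_smul 8192 4096 8192 rfl (posOn_of_leaf okII0 leafII0_124)))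
    (h₂ := nodeII0_121)

theorem nodeII0_123 : PosOn (matEx 9 offII0 16 MII0)
    ⟨((-16384), 49152, 65536), ((-12288), 53248, 65536), ((-16384), 57344, 65536)⟩ :=
  posOn_node 2 (A := ⟨((-16384), 57344, 65536), ((-16384), 53248, 65536), ((-12288), 53248, 65536)⟩) (B := ⟨((-16384), 53248, 65536), ((-16384), 49152, 65536), ((-12288), 53248, 65536)⟩) ⟨by decide +kernel, rfl, rfl⟩
    (h₁ := (posOn_smul 8192 4096 4096 rfl (posOn_of_leaf okII0 leafII0_127)))
    (h₂ := (posOn_smul 4096 16384 4096 rfl (posOn_of_leaf okII0 leafII0_128)))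

theorem nodeII0_124 : PosOn (matEx 9 offII0 16 MII0)
    ⟨((-16384), 57344, 65536), ((-16384), 49152, 65536), ((-8192), 57344, 65536)⟩ :=
  posOn_node 1 (A := ⟨((-16384), 49152, 65536), ((-12288), 53248, 65536), ((-16384), 57344, 65536)⟩) (B := ⟨((-12288), 53248, 65536), ((-8192), 57344, 65536), ((-16384), 57344, 65536)⟩) ⟨by decide +kernel, rfl, rfl⟩
    (h₁ := nodeII0_123)
    (h₂ := (posOn_smul 4096 8192 8192 rfl (posOn_of_leaf okII0 leafII0_129)))

theorem nodeII0_125 : PosOn (matEx 9 offII0 16 MII0)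
    ⟨((-16384), 49152, 65536), ((-8192), 57344, 65536), ((-16384), 65536, 65536)⟩ :=
  posOn_node 2 (A := ⟨((-16384), 65536, 65536), ((-16384), 57344, 65536), ((-8192), 57344, 65536)⟩) (B := ⟨((-16384), 57344, 65536), ((-16384), 49152, 65536), ((-8192), 57344, 65536)⟩) ⟨by decide +kernel, rfl, rfl⟩
    (h₁ := nodeII0_122)
    (h₂ := nodeII0_124)

theorem nodeII0_126 : PosOn (matEx 9 offII0 16 MII0)
    ⟨((-8192), 57344, 65536), ((-4096), 61440, 65536), ((-8192), 65536, 65536)⟩ :=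
  posOn_node 2 (A := ⟨((-8192), 65536, 65536), ((-8192), 61440, 65536), ((-4096), 61440, 65536)⟩) (B := ⟨((-8192), 61440, 65536), ((-8192), 57344, 65536), ((-4096), 61440, 65536)⟩) ⟨by decide +kernel, rfl, rfl⟩
    (h₁ := (posOn_smul 8192 4096 4096 rfl (posOn_of_leaf okII0 leafII0_130)))
    (h₂ := (posOn_smul 4096 8192 4096 rfl (posOn_of_leaf okII0 leafII0_131)))

theorem nodeII0_127 : PosOn (matEx 9 offII0 16 MII0)
    ⟨(0, 65536, 65536), ((-8192), 65536, 65536), ((-8192), 57344, 65536)⟩ :=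
  posOn_node 2 (A := ⟨((-8192), 57344, 65536), ((-4096), 61440, 65536), ((-8192), 65536, 65536)⟩) (B := ⟨((-4096), 61440, 65536), (0, 65536, 65536), ((-8192), 65536, 65536)⟩) ⟨by decide +kernel, rfl, rfl⟩
    (h₁ := nodeII0_126)
    (h₂ := (posOn_smul 4096 65536 8192 rfl (posOn_of_leaf okII0 leafII0_132)))

theorem nodeII0_128 : PosOn (matEx 9 offII0 16 MII0)
    ⟨((-12288), 61440, 65536), ((-8192), 57344, 65536), ((-8192), 65536, 65536)⟩ :=
  posOn_node 1 (A := ⟨((-8192), 57344, 65536), ((-8192), 61440, 65536), ((-12288), 61440, 65536)⟩) (B := ⟨((-8192), 61440, 65536), ((-8192), 65536, 65536), ((-12288), 61440, 65536)⟩) ⟨by decide +kernel, rfl, rfl⟩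
    (h₁ := (posOn_smul 8192 4096 4096 rfl (posOn_of_leaf okII0 leafII0_134)))
    (h₂ := (posOn_smul 4096 8192 4096 rfl (posOn_of_leaf okII0 leafII0_135)))

theorem nodeII0_129 : PosOn (matEx 9 offII0 16 MII0)
    ⟨((-8192), 65536, 65536), ((-16384), 65536, 65536), ((-8192), 57344, 65536)⟩ :=
  posOn_node 1 (A := ⟨((-16384), 65536, 65536), ((-12288), 61440, 65536), ((-8192), 65536, 65536)⟩) (B := ⟨((-12288), 61440, 65536), ((-8192), 57344, 65536), ((-8192), 65536, 65536)⟩) ⟨by decide +kernel, rfl, rfl⟩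
    (h₁ := (posOn_smul 16384 4096 8192 rfl (posOn_of_leaf okII0 leafII0_133)))
    (h₂ := nodeII0_128)

theorem nodeII0_130 : PosOn (matEx 9 offII0 16 MII0)
    ⟨((-8192), 57344, 65536), (0, 65536, 65536), ((-16384), 65536, 65536)⟩ :=
  posOn_node 1 (A := ⟨(0, 65536, 65536), ((-8192), 65536, 65536), ((-8192), 57344, 65536)⟩) (B := ⟨((-8192), 65536, 65536), ((-16384), 65536, 65536), ((-8192), 57344, 65536)⟩) ⟨by decide +kernel, rfl, rfl⟩
    (h₁ := nodeII0_127)
    (h₂ := nodeII0_129)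

theorem nodeII0_131 : PosOn (matEx 9 offII0 16 MII0)
    ⟨(0, 65536, 65536), ((-16384), 65536, 65536), ((-16384), 49152, 65536)⟩ :=
  posOn_node 2 (A := ⟨((-16384), 49152, 65536), ((-8192), 57344, 65536), ((-16384), 65536, 65536)⟩) (B := ⟨((-8192), 57344, 65536), (0, 65536, 65536), ((-16384), 65536, 65536)⟩) ⟨by decide +kernel, rfl, rfl⟩
    (h₁ := nodeII0_125)
    (h₂ := nodeII0_130)

theorem nodeII0_132 : PosOn (matEx 9 offII0 16 MII0)
    ⟨((-16384), 65536, 65536), ((-24576), 65536, 65536), ((-24576), 57344, 65536)⟩ :=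
  posOn_node 2 (A := ⟨((-24576), 57344, 65536), ((-20480), 61440, 65536), ((-24576), 65536, 65536)⟩) (B := ⟨((-20480), 61440, 65536), ((-16384), 65536, 65536), ((-24576), 65536, 65536)⟩) ⟨by decide +kernel, rfl, rfl⟩
    (h₁ := (posOn_smul 8192 4096 8192 rfl (posOn_of_leaf okII0 leafII0_136)))
    (h₂ := (posOn_smul 4096 16384 8192 rfl (posOn_of_leaf okII0 leafII0_137)))

theorem nodeII0_133 : PosOn (matEx 9 offII0 16 MII0)
    ⟨((-32768), 65536, 65536), ((-24576), 57344, 65536), ((-16384), 65536, 65536)⟩ :=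
  posOn_node 2 (A := ⟨((-16384), 65536, 65536), ((-24576), 65536, 65536), ((-24576), 57344, 65536)⟩) (B := ⟨((-24576), 65536, 65536), ((-32768), 65536, 65536), ((-24576), 57344, 65536)⟩) ⟨by decide +kernel, rfl, rfl⟩
    (h₁ := nodeII0_132)
    (h₂ := (posOn_smul 8192 32768 8192 rfl (posOn_of_leaf okII0 leafII0_138)))

theorem nodeII0_134 : PosOn (matEx 9 offII0 16 MII0)
    ⟨((-20480), 53248, 65536), ((-16384), 49152, 65536), ((-16384), 57344, 65536)⟩ :=
  posOn_node 1 (A := ⟨((-16384), 49152, 65536), ((-16384), 53248, 65536), ((-20480), 53248, 65536)⟩) (B := ⟨((-16384), 53248, 65536), ((-16384), 57344, 65536), ((-20480), 53248, 65536)⟩) ⟨by decide +kernel, rfl, rfl⟩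
    (h₁ := (posOn_smul 16384 4096 4096 rfl (posOn_of_leaf okII0 leafII0_140)))
    (h₂ := (posOn_smul 4096 8192 4096 rfl (posOn_of_leaf okII0 leafII0_141)))

theorem nodeII0_135 : PosOn (matEx 9 offII0 16 MII0)
    ⟨((-16384), 49152, 65536), ((-16384), 57344, 65536), ((-24576), 57344, 65536)⟩ :=
  posOn_node 2 (A := ⟨((-24576), 57344, 65536), ((-20480), 53248, 65536), ((-16384), 57344, 65536)⟩) (B := ⟨((-20480), 53248, 65536), ((-16384), 49152, 65536), ((-16384), 57344, 65536)⟩) ⟨by decide +kernel, rfl, rfl⟩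
    (h₁ := (posOn_smul 8192 4096 8192 rfl (posOn_of_leaf okII0 leafII0_139)))
    (h₂ := nodeII0_134)

theorem nodeII0_136 : PosOn (matEx 9 offII0 16 MII0)
    ⟨((-16384), 65536, 65536), ((-20480), 61440, 65536), ((-16384), 57344, 65536)⟩ :=
  posOn_node 2 (A := ⟨((-16384), 57344, 65536), ((-16384), 61440, 65536), ((-20480), 61440, 65536)⟩) (B := ⟨((-16384), 61440, 65536), ((-16384), 65536, 65536), ((-20480), 61440, 65536)⟩) ⟨by decide +kernel, rfl, rfl⟩
    (h₁ := (posOn_smul 8192 4096 4096 rfl (posOn_of_leaf okII0 leafII0_142)))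
    (h₂ := (posOn_smul 4096 16384 4096 rfl (posOn_of_leaf okII0 leafII0_143)))

theorem nodeII0_137 : PosOn (matEx 9 offII0 16 MII0)
    ⟨((-16384), 57344, 65536), ((-16384), 65536, 65536), ((-24576), 57344, 65536)⟩ :=
  posOn_node 1 (A := ⟨((-16384), 65536, 65536), ((-20480), 61440, 65536), ((-16384), 57344, 65536)⟩) (B := ⟨((-20480), 61440, 65536), ((-24576), 57344, 65536), ((-16384), 57344, 65536)⟩) ⟨by decide +kernel, rfl, rfl⟩
    (h₁ := nodeII0_136)
    (h₂ := (posOn_smul 4096 8192 8192 rfl (posOn_of_leaf okII0 leafII0_144)))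

theorem nodeII0_138 : PosOn (matEx 9 offII0 16 MII0)
    ⟨((-24576), 57344, 65536), ((-16384), 49152, 65536), ((-16384), 65536, 65536)⟩ :=
  posOn_node 1 (A := ⟨((-16384), 49152, 65536), ((-16384), 57344, 65536), ((-24576), 57344, 65536)⟩) (B := ⟨((-16384), 57344, 65536), ((-16384), 65536, 65536), ((-24576), 57344, 65536)⟩) ⟨by decide +kernel, rfl, rfl⟩
    (h₁ := nodeII0_135)
    (h₂ := nodeII0_137)

theorem nodeII0_139 : PosOn (matEx 9 offII0 16 MII0)
    ⟨((-16384), 65536, 65536), ((-32768), 65536, 65536), ((-16384), 49152, 65536)⟩ :=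
  posOn_node 1 (A := ⟨((-32768), 65536, 65536), ((-24576), 57344, 65536), ((-16384), 65536, 65536)⟩) (B := ⟨((-24576), 57344, 65536), ((-16384), 49152, 65536), ((-16384), 65536, 65536)⟩) ⟨by decide +kernel, rfl, rfl⟩
    (h₁ := nodeII0_133)
    (h₂ := nodeII0_138)

theorem nodeII0_140 : PosOn (matEx 9 offII0 16 MII0)
    ⟨((-16384), 49152, 65536), (0, 65536, 65536), ((-32768), 65536, 65536)⟩ :=
  posOn_node 1 (A := ⟨(0, 65536, 65536), ((-16384), 65536, 65536), ((-16384), 49152, 65536)⟩) (B := ⟨((-16384), 65536, 65536), ((-32768), 65536, 65536), ((-16384), 49152, 65536)⟩) ⟨by decide +kernel, rfl, rfl⟩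
    (h₁ := nodeII0_131)
    (h₂ := nodeII0_139)

theorem nodeII0_141 : PosOn (matEx 9 offII0 16 MII0)
    ⟨(0, 65536, 65536), ((-32768), 65536, 65536), ((-32768), 32768, 65536)⟩ :=
  posOn_node 2 (A := ⟨((-32768), 32768, 65536), ((-16384), 49152, 65536), ((-32768), 65536, 65536)⟩) (B := ⟨((-16384), 49152, 65536), (0, 65536, 65536), ((-32768), 65536, 65536)⟩) ⟨by decide +kernel, rfl, rfl⟩
    (h₁ := nodeII0_120)
    (h₂ := nodeII0_140)

theorem nodeII0_142 : PosOn (matEx 9 offII0 16 MII0)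
    ⟨((-49152), 65536, 65536), ((-49152), 57344, 65536), ((-40960), 57344, 65536)⟩ :=
  posOn_node 2 (A := ⟨((-40960), 57344, 65536), ((-45056), 61440, 65536), ((-49152), 57344, 65536)⟩) (B := ⟨((-45056), 61440, 65536), ((-49152), 65536, 65536), ((-49152), 57344, 65536)⟩) ⟨by decide +kernel, rfl, rfl⟩
    (h₁ := (posOn_smul 8192 4096 8192 rfl (posOn_of_leaf okII0 leafII0_145)))
    (h₂ := (posOn_smul 4096 16384 8192 rfl (posOn_of_leaf okII0 leafII0_146)))

theorem nodeII0_143 : PosOn (matEx 9 offII0 16 MII0)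
    ⟨((-49152), 49152, 65536), ((-40960), 57344, 65536), ((-49152), 65536, 65536)⟩ :=
  posOn_node 2 (A := ⟨((-49152), 65536, 65536), ((-49152), 57344, 65536), ((-40960), 57344, 65536)⟩) (B := ⟨((-49152), 57344, 65536), ((-49152), 49152, 65536), ((-40960), 57344, 65536)⟩) ⟨by decide +kernel, rfl, rfl⟩
    (h₁ := nodeII0_142)
    (h₂ := (posOn_smul 8192 16384 8192 rfl (posOn_of_leaf okII0 leafII0_147)))

theorem nodeII0_144 : PosOn (matEx 9 offII0 16 MII0)
    ⟨((-45056), 65536, 65536), ((-49152), 65536, 65536), ((-45056), 61440, 65536)⟩ :=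
  posOn_node 1 (A := ⟨((-49152), 65536, 65536), ((-47104), 63488, 65536), ((-45056), 65536, 65536)⟩) (B := ⟨((-47104), 63488, 65536), ((-45056), 61440, 65536), ((-45056), 65536, 65536)⟩) ⟨by decide +kernel, rfl, rfl⟩
    (h₁ := (posOn_smul 16384 2048 4096 rfl (posOn_of_leaf okII0 leafII0_150)))
    (h₂ := (posOn_smul 2048 4096 4096 rfl (posOn_of_leaf okII0 leafII0_151)))

theorem nodeII0_145 : PosOn (matEx 9 offII0 16 MII0)
    ⟨((-49152), 65536, 65536), ((-45056), 61440, 65536), ((-40960), 65536, 65536)⟩ :=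
  posOn_node 2 (A := ⟨((-40960), 65536, 65536), ((-45056), 65536, 65536), ((-45056), 61440, 65536)⟩) (B := ⟨((-45056), 65536, 65536), ((-49152), 65536, 65536), ((-45056), 61440, 65536)⟩) ⟨by decide +kernel, rfl, rfl⟩
    (h₁ := (posOn_smul 8192 4096 4096 rfl (posOn_of_leaf okII0 leafII0_149)))
    (h₂ := nodeII0_144)

theorem nodeII0_146 : PosOn (matEx 9 offII0 16 MII0)
    ⟨((-40960), 65536, 65536), ((-49152), 65536, 65536), ((-40960), 57344, 65536)⟩ :=
  posOn_node 1 (A := ⟨((-49152), 65536, 65536), ((-45056), 61440, 65536), ((-40960), 65536, 65536)⟩) (B := ⟨((-45056), 61440, 65536), ((-40960), 57344, 65536), ((-40960), 65536, 65536)⟩) ⟨by decide +kernel, rfl, rfl⟩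
    (h₁ := nodeII0_145)
    (h₂ := (posOn_smul 4096 8192 8192 rfl (posOn_of_leaf okII0 leafII0_152)))

theorem nodeII0_147 : PosOn (matEx 9 offII0 16 MII0)
    ⟨((-40960), 57344, 65536), ((-32768), 65536, 65536), ((-49152), 65536, 65536)⟩ :=
  posOn_node 1 (A := ⟨((-32768), 65536, 65536), ((-40960), 65536, 65536), ((-40960), 57344, 65536)⟩) (B := ⟨((-40960), 65536, 65536), ((-49152), 65536, 65536), ((-40960), 57344, 65536)⟩) ⟨by decide +kernel, rfl, rfl⟩
    (h₁ := (posOn_smul 32768 8192 8192 rfl (posOn_of_leaf okII0 leafII0_148)))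
    (h₂ := nodeII0_146)

theorem nodeII0_148 : PosOn (matEx 9 offII0 16 MII0)
    ⟨((-32768), 65536, 65536), ((-49152), 65536, 65536), ((-49152), 49152, 65536)⟩ :=
  posOn_node 2 (A := ⟨((-49152), 49152, 65536), ((-40960), 57344, 65536), ((-49152), 65536, 65536)⟩) (B := ⟨((-40960), 57344, 65536), ((-32768), 65536, 65536), ((-49152), 65536, 65536)⟩) ⟨by decide +kernel, rfl, rfl⟩
    (h₁ := nodeII0_143)
    (h₂ := nodeII0_147)

theorem nodeII0_149 : PosOn (matEx 9 offII0 16 MII0)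
    ⟨((-57344), 57344, 65536), ((-49152), 49152, 65536), ((-49152), 65536, 65536)⟩ :=
  posOn_node 1 (A := ⟨((-49152), 49152, 65536), ((-49152), 57344, 65536), ((-57344), 57344, 65536)⟩) (B := ⟨((-49152), 57344, 65536), ((-49152), 65536, 65536), ((-57344), 57344, 65536)⟩) ⟨by decide +kernel, rfl, rfl⟩
    (h₁ := (posOn_smul 16384 8192 8192 rfl (posOn_of_leaf okII0 leafII0_154)))
    (h₂ := (posOn_smul 8192 16384 8192 rfl (posOn_of_leaf okII0 leafII0_155)))

theorem nodeII0_150 : PosOn (matEx 9 offII0 16 MII0)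
    ⟨((-49152), 65536, 65536), ((-65536), 65536, 65536), ((-49152), 49152, 65536)⟩ :=
  posOn_node 1 (A := ⟨((-65536), 65536, 65536), ((-57344), 57344, 65536), ((-49152), 65536, 65536)⟩) (B := ⟨((-57344), 57344, 65536), ((-49152), 49152, 65536), ((-49152), 65536, 65536)⟩) ⟨by decide +kernel, rfl, rfl⟩
    (h₁ := (posOn_smul 65536 8192 16384 rfl (posOn_of_leaf okII0 leafII0_153)))
    (h₂ := nodeII0_149)

theorem nodeII0_151 : PosOn (matEx 9 offII0 16 MII0)
    ⟨((-65536), 65536, 65536), ((-49152), 49152, 65536), ((-32768), 65536, 65536)⟩ :=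
  posOn_node 2 (A := ⟨((-32768), 65536, 65536), ((-49152), 65536, 65536), ((-49152), 49152, 65536)⟩) (B := ⟨((-49152), 65536, 65536), ((-65536), 65536, 65536), ((-49152), 49152, 65536)⟩) ⟨by decide +kernel, rfl, rfl⟩
    (h₁ := nodeII0_148)
    (h₂ := nodeII0_150)

theorem nodeII0_152 : PosOn (matEx 9 offII0 16 MII0)
    ⟨((-32768), 49152, 65536), ((-32768), 65536, 65536), ((-49152), 49152, 65536)⟩ :=
  posOn_node 1 (A := ⟨((-32768), 65536, 65536), ((-40960), 57344, 65536), ((-32768), 49152, 65536)⟩) (B := ⟨((-40960), 57344, 65536), ((-49152), 49152, 65536), ((-32768), 49152, 65536)⟩) ⟨by decide +kernel, rfl, rfl⟩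
    (h₁ := (posOn_smul 32768 8192 16384 rfl (posOn_of_leaf okII0 leafII0_157)))
    (h₂ := (posOn_smul 8192 16384 16384 rfl (posOn_of_leaf okII0 leafII0_158)))

theorem nodeII0_153 : PosOn (matEx 9 offII0 16 MII0)
    ⟨((-49152), 49152, 65536), ((-32768), 32768, 65536), ((-32768), 65536, 65536)⟩ :=
  posOn_node 1 (A := ⟨((-32768), 32768, 65536), ((-32768), 49152, 65536), ((-49152), 49152, 65536)⟩) (B := ⟨((-32768), 49152, 65536), ((-32768), 65536, 65536), ((-49152), 49152, 65536)⟩) ⟨by decide +kernel, rfl, rfl⟩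
    (h₁ := (posOn_smul 32768 16384 16384 rfl (posOn_of_leaf okII0 leafII0_156)))
    (h₂ := nodeII0_152)

theorem nodeII0_154 : PosOn (matEx 9 offII0 16 MII0)
    ⟨((-32768), 65536, 65536), ((-65536), 65536, 65536), ((-32768), 32768, 65536)⟩ :=
  posOn_node 1 (A := ⟨((-65536), 65536, 65536), ((-49152), 49152, 65536), ((-32768), 65536, 65536)⟩) (B := ⟨((-49152), 49152, 65536), ((-32768), 32768, 65536), ((-32768), 65536, 65536)⟩) ⟨by decide +kernel, rfl, rfl⟩
    (h₁ := nodeII0_151)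
    (h₂ := nodeII0_153)

theorem nodeII0_155 : PosOn (matEx 9 offII0 16 MII0)
    ⟨((-32768), 32768, 65536), (0, 65536, 65536), ((-65536), 65536, 65536)⟩ :=
  posOn_node 1 (A := ⟨(0, 65536, 65536), ((-32768), 65536, 65536), ((-32768), 32768, 65536)⟩) (B := ⟨((-32768), 65536, 65536), ((-65536), 65536, 65536), ((-32768), 32768, 65536)⟩) ⟨by decide +kernel, rfl, rfl⟩
    (h₁ := nodeII0_141)
    (h₂ := nodeII0_154)

theorem nodeII0_156 : PosOn (matEx 9 offII0 16 MII0)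
    ⟨((-65536), 0, 65536), (0, 65536, 65536), ((-65536), 65536, 65536)⟩ :=
  posOn_node 0 (A := ⟨((-65536), 0, 65536), ((-32768), 32768, 65536), ((-65536), 65536, 65536)⟩) (B := ⟨((-32768), 32768, 65536), (0, 65536, 65536), ((-65536), 65536, 65536)⟩) ⟨by decide +kernel, rfl, rfl⟩
    (h₁ := nodeII0_115)
    (h₂ := nodeII0_155)

theorem nodeII0_157 : PosOn (matEx 9 offII0 16 MII0)
    ⟨(16384, 16384, 65536), (20480, 12288, 65536), (24576, 16384, 65536)⟩ :=
  posOn_node 2 (A := ⟨(24576, 16384, 65536), (20480, 16384, 65536), (20480, 12288, 65536)⟩) (B := ⟨(20480, 16384, 65536), (16384, 16384, 65536), (20480, 12288, 65536)⟩) ⟨by decide +kernel, rfl, rfl⟩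
    (h₁ := (posOn_smul 8192 4096 4096 rfl (posOn_of_leaf okII0 leafII0_160)))
    (h₂ := (posOn_smul 4096 16384 4096 rfl (posOn_of_leaf okII0 leafII0_161)))

theorem nodeII0_158 : PosOn (matEx 9 offII0 16 MII0)
    ⟨(24576, 16384, 65536), (16384, 16384, 65536), (24576, 8192, 65536)⟩ :=
  posOn_node 1 (A := ⟨(16384, 16384, 65536), (20480, 12288, 65536), (24576, 16384, 65536)⟩) (B := ⟨(20480, 12288, 65536), (24576, 8192, 65536), (24576, 16384, 65536)⟩) ⟨by decide +kernel, rfl, rfl⟩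
    (h₁ := nodeII0_157)
    (h₂ := (posOn_smul 4096 8192 8192 rfl (posOn_of_leaf okII0 leafII0_162)))

theorem nodeII0_159 : PosOn (matEx 9 offII0 16 MII0)
    ⟨(16384, 16384, 65536), (24576, 8192, 65536), (32768, 16384, 65536)⟩ :=
  posOn_node 2 (A := ⟨(32768, 16384, 65536), (24576, 16384, 65536), (24576, 8192, 65536)⟩) (B := ⟨(24576, 16384, 65536), (16384, 16384, 65536), (24576, 8192, 65536)⟩) ⟨by decide +kernel, rfl, rfl⟩
    (h₁ := (posOn_smul 16384 8192 8192 rfl (posOn_of_leaf okII0 leafII0_159)))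
    (h₂ := nodeII0_158)

theorem nodeII0_160 : PosOn (matEx 9 offII0 16 MII0)
    ⟨(32768, 0, 65536), (32768, 16384, 65536), (16384, 16384, 65536)⟩ :=
  posOn_node 2 (A := ⟨(16384, 16384, 65536), (24576, 8192, 65536), (32768, 16384, 65536)⟩) (B := ⟨(24576, 8192, 65536), (32768, 0, 65536), (32768, 16384, 65536)⟩) ⟨by decide +kernel, rfl, rfl⟩
    (h₁ := nodeII0_159)
    (h₂ := (posOn_smul 8192 32768 16384 rfl (posOn_of_leaf okII0 leafII0_163)))

theorem nodeII0_161 : PosOn (matEx 9 offII0 16 MII0)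
    ⟨(20480, 20480, 65536), (16384, 16384, 65536), (24576, 16384, 65536)⟩ :=
  posOn_node 1 (A := ⟨(16384, 16384, 65536), (20480, 16384, 65536), (20480, 20480, 65536)⟩) (B := ⟨(20480, 16384, 65536), (24576, 16384, 65536), (20480, 20480, 65536)⟩) ⟨by decide +kernel, rfl, rfl⟩
    (h₁ := (posOn_smul 16384 4096 4096 rfl (posOn_of_leaf okII0 leafII0_166)))
    (h₂ := (posOn_smul 4096 8192 4096 rfl (posOn_of_leaf okII0 leafII0_167)))

theorem nodeII0_162 : PosOn (matEx 9 offII0 16 MII0)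
    ⟨(16384, 16384, 65536), (24576, 16384, 65536), (24576, 24576, 65536)⟩ :=
  posOn_node 2 (A := ⟨(24576, 24576, 65536), (20480, 20480, 65536), (24576, 16384, 65536)⟩) (B := ⟨(20480, 20480, 65536), (16384, 16384, 65536), (24576, 16384, 65536)⟩) ⟨by decide +kernel, rfl, rfl⟩
    (h₁ := (posOn_smul 8192 4096 8192 rfl (posOn_of_leaf okII0 leafII0_165)))
    (h₂ := nodeII0_161)

theorem nodeII0_163 : PosOn (matEx 9 offII0 16 MII0)
    ⟨(24576, 24576, 65536), (16384, 16384, 65536), (32768, 16384, 65536)⟩ :=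
  posOn_node 1 (A := ⟨(16384, 16384, 65536), (24576, 16384, 65536), (24576, 24576, 65536)⟩) (B := ⟨(24576, 16384, 65536), (32768, 16384, 65536), (24576, 24576, 65536)⟩) ⟨by decide +kernel, rfl, rfl⟩
    (h₁ := nodeII0_162)
    (h₂ := (posOn_smul 8192 16384 8192 rfl (posOn_of_leaf okII0 leafII0_168)))

theorem nodeII0_164 : PosOn (matEx 9 offII0 16 MII0)
    ⟨(32768, 16384, 65536), (32768, 32768, 65536), (16384, 16384, 65536)⟩ :=
  posOn_node 1 (A := ⟨(32768, 32768, 65536), (24576, 24576, 65536), (32768, 16384, 65536)⟩) (B := ⟨(24576, 24576, 65536), (16384, 16384, 65536), (32768, 16384, 65536)⟩) ⟨by decide +kernel, rfl, rfl⟩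
    (h₁ := (posOn_smul 32768 8192 16384 rfl (posOn_of_leaf okII0 leafII0_164)))
    (h₂ := nodeII0_163)

theorem nodeII0_165 : PosOn (matEx 9 offII0 16 MII0)
    ⟨(32768, 32768, 65536), (16384, 16384, 65536), (32768, 0, 65536)⟩ :=
  posOn_node 2 (A := ⟨(32768, 0, 65536), (32768, 16384, 65536), (16384, 16384, 65536)⟩) (B := ⟨(32768, 16384, 65536), (32768, 32768, 65536), (16384, 16384, 65536)⟩) ⟨by decide +kernel, rfl, rfl⟩
    (h₁ := nodeII0_160)
    (h₂ := nodeII0_164)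

theorem nodeII0_166 : PosOn (matEx 9 offII0 16 MII0)
    ⟨(16384, 0, 65536), (16384, 2048, 65536), (14336, 2048, 65536)⟩ :=
  posOn_node 2 (A := ⟨(14336, 2048, 65536), (15360, 1024, 65536), (16384, 2048, 65536)⟩) (B := ⟨(15360, 1024, 65536), (16384, 0, 65536), (16384, 2048, 65536)⟩) ⟨by decide +kernel, rfl, rfl⟩
    (h₁ := (posOn_smul 2048 1024 2048 rfl (posOn_of_leaf okII0 leafII0_171)))
    (h₂ := (posOn_smul 1024 16384 2048 rfl (posOn_of_leaf okII0 leafII0_172)))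

theorem nodeII0_167 : PosOn (matEx 9 offII0 16 MII0)
    ⟨(14336, 2048, 65536), (16384, 0, 65536), (16384, 4096, 65536)⟩ :=
  posOn_node 1 (A := ⟨(16384, 0, 65536), (16384, 2048, 65536), (14336, 2048, 65536)⟩) (B := ⟨(16384, 2048, 65536), (16384, 4096, 65536), (14336, 2048, 65536)⟩) ⟨by decide +kernel, rfl, rfl⟩
    (h₁ := nodeII0_166)
    (h₂ := (posOn_smul 2048 4096 2048 rfl (posOn_of_leaf okII0 leafII0_173)))

theorem nodeII0_168 : PosOn (matEx 9 offII0 16 MII0)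
    ⟨(16384, 0, 65536), (16384, 4096, 65536), (12288, 4096, 65536)⟩ :=
  posOn_node 2 (A := ⟨(12288, 4096, 65536), (14336, 2048, 65536), (16384, 4096, 65536)⟩) (B := ⟨(14336, 2048, 65536), (16384, 0, 65536), (16384, 4096, 65536)⟩) ⟨by decide +kernel, rfl, rfl⟩
    (h₁ := (posOn_smul 4096 2048 4096 rfl (posOn_of_leaf okII0 leafII0_170)))
    (h₂ := nodeII0_167)

theorem nodeII0_169 : PosOn (matEx 9 offII0 16 MII0)
    ⟨(12288, 4096, 65536), (16384, 0, 65536), (16384, 8192, 65536)⟩ :=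
  posOn_node 1 (A := ⟨(16384, 0, 65536), (16384, 4096, 65536), (12288, 4096, 65536)⟩) (B := ⟨(16384, 4096, 65536), (16384, 8192, 65536), (12288, 4096, 65536)⟩) ⟨by decide +kernel, rfl, rfl⟩
    (h₁ := nodeII0_168)
    (h₂ := (posOn_smul 4096 8192 4096 rfl (posOn_of_leaf okII0 leafII0_174)))

theorem nodeII0_170 : PosOn (matEx 9 offII0 16 MII0)
    ⟨(16384, 0, 65536), (16384, 8192, 65536), (8192, 8192, 65536)⟩ :=
  posOn_node 2 (A := ⟨(8192, 8192, 65536), (12288, 4096, 65536), (16384, 8192, 65536)⟩) (B := ⟨(12288, 4096, 65536), (16384, 0, 65536), (16384, 8192, 65536)⟩) ⟨by decide +kernel, rfl, rfl⟩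
    (h₁ := (posOn_smul 8192 4096 8192 rfl (posOn_of_leaf okII0 leafII0_169)))
    (h₂ := nodeII0_169)

theorem nodeII0_171 : PosOn (matEx 9 offII0 16 MII0)
    ⟨(16384, 16384, 65536), (8192, 8192, 65536), (16384, 0, 65536)⟩ :=
  posOn_node 2 (A := ⟨(16384, 0, 65536), (16384, 8192, 65536), (8192, 8192, 65536)⟩) (B := ⟨(16384, 8192, 65536), (16384, 16384, 65536), (8192, 8192, 65536)⟩) ⟨by decide +kernel, rfl, rfl⟩
    (h₁ := nodeII0_170)
    (h₂ := (posOn_smul 8192 16384 8192 rfl (posOn_of_leaf okII0 leafII0_175)))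

theorem nodeII0_172 : PosOn (matEx 9 offII0 16 MII0)
    ⟨(8192, 0, 65536), (8192, 4096, 65536), (4096, 4096, 65536)⟩ :=
  posOn_node 2 (A := ⟨(4096, 4096, 65536), (6144, 2048, 65536), (8192, 4096, 65536)⟩) (B := ⟨(6144, 2048, 65536), (8192, 0, 65536), (8192, 4096, 65536)⟩) ⟨by decide +kernel, rfl, rfl⟩
    (h₁ := (posOn_smul 4096 2048 4096 rfl (posOn_of_leaf okII0 leafII0_176)))
    (h₂ := (posOn_smul 2048 8192 4096 rfl (posOn_of_leaf okII0 leafII0_177)))

theorem nodeII0_173 : PosOn (matEx 9 offII0 16 MII0)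
    ⟨(8192, 8192, 65536), (4096, 4096, 65536), (8192, 0, 65536)⟩ :=
  posOn_node 2 (A := ⟨(8192, 0, 65536), (8192, 4096, 65536), (4096, 4096, 65536)⟩) (B := ⟨(8192, 4096, 65536), (8192, 8192, 65536), (4096, 4096, 65536)⟩) ⟨by decide +kernel, rfl, rfl⟩
    (h₁ := nodeII0_172)
    (h₂ := (posOn_smul 4096 8192 4096 rfl (posOn_of_leaf okII0 leafII0_178)))

theorem nodeII0_174 : PosOn (matEx 9 offII0 16 MII0)
    ⟨(8192, 0, 65536), (6144, 2048, 65536), (4096, 0, 65536)⟩ :=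
  posOn_node 2 (A := ⟨(4096, 0, 65536), (6144, 0, 65536), (6144, 2048, 65536)⟩) (B := ⟨(6144, 0, 65536), (8192, 0, 65536), (6144, 2048, 65536)⟩) ⟨by decide +kernel, rfl, rfl⟩
    (h₁ := (posOn_smul 4096 2048 2048 rfl (posOn_of_leaf okII0 leafII0_180)))
    (h₂ := (posOn_smul 2048 8192 2048 rfl (posOn_of_leaf okII0 leafII0_181)))

theorem nodeII0_175 : PosOn (matEx 9 offII0 16 MII0)
    ⟨(4096, 0, 65536), (8192, 0, 65536), (4096, 4096, 65536)⟩ :=
  posOn_node 1 (A := ⟨(8192, 0, 65536), (6144, 2048, 65536), (4096, 0, 65536)⟩) (B := ⟨(6144, 2048, 65536), (4096, 4096, 65536), (4096, 0, 65536)⟩) ⟨by decide +kernel, rfl, rfl⟩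
    (h₁ := nodeII0_174)
    (h₂ := (posOn_smul 2048 4096 4096 rfl (posOn_of_leaf okII0 leafII0_182)))

theorem nodeII0_176 : PosOn (matEx 9 offII0 16 MII0)
    ⟨(4096, 4096, 65536), (0, 0, 65536), (8192, 0, 65536)⟩ :=
  posOn_node 1 (A := ⟨(0, 0, 65536), (4096, 0, 65536), (4096, 4096, 65536)⟩) (B := ⟨(4096, 0, 65536), (8192, 0, 65536), (4096, 4096, 65536)⟩) ⟨by decide +kernel, rfl, rfl⟩
    (h₁ := (posOn_smul 65536 4096 4096 rfl (posOn_of_leaf okII0 leafII0_179)))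
    (h₂ := nodeII0_175)

theorem nodeII0_177 : PosOn (matEx 9 offII0 16 MII0)
    ⟨(0, 0, 65536), (8192, 0, 65536), (8192, 8192, 65536)⟩ :=
  posOn_node 2 (A := ⟨(8192, 8192, 65536), (4096, 4096, 65536), (8192, 0, 65536)⟩) (B := ⟨(4096, 4096, 65536), (0, 0, 65536), (8192, 0, 65536)⟩) ⟨by decide +kernel, rfl, rfl⟩
    (h₁ := nodeII0_173)
    (h₂ := nodeII0_176)

theorem nodeII0_178 : PosOn (matEx 9 offII0 16 MII0)
    ⟨(16384, 0, 65536), (15360, 1024, 65536), (14336, 0, 65536)⟩ :=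
  posOn_node 2 (A := ⟨(14336, 0, 65536), (15360, 0, 65536), (15360, 1024, 65536)⟩) (B := ⟨(15360, 0, 65536), (16384, 0, 65536), (15360, 1024, 65536)⟩) ⟨by decide +kernel, rfl, rfl⟩
    (h₁ := (posOn_smul 2048 1024 1024 rfl (posOn_of_leaf okII0 leafII0_185)))
    (h₂ := (posOn_smul 1024 16384 1024 rfl (posOn_of_leaf okII0 leafII0_186)))

theorem nodeII0_179 : PosOn (matEx 9 offII0 16 MII0)
    ⟨(14336, 0, 65536), (16384, 0, 65536), (14336, 2048, 65536)⟩ :=
  posOn_node 1 (A := ⟨(16384, 0, 65536), (15360, 1024, 65536), (14336, 0, 65536)⟩) (B := ⟨(15360, 1024, 65536), (14336, 2048, 65536), (14336, 0, 65536)⟩) ⟨by decide +kernel, rfl, rfl⟩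
    (h₁ := nodeII0_178)
    (h₂ := (posOn_smul 1024 2048 2048 rfl (posOn_of_leaf okII0 leafII0_187)))

theorem nodeII0_180 : PosOn (matEx 9 offII0 16 MII0)
    ⟨(16384, 0, 65536), (14336, 2048, 65536), (12288, 0, 65536)⟩ :=
  posOn_node 2 (A := ⟨(12288, 0, 65536), (14336, 0, 65536), (14336, 2048, 65536)⟩) (B := ⟨(14336, 0, 65536), (16384, 0, 65536), (14336, 2048, 65536)⟩) ⟨by decide +kernel, rfl, rfl⟩
    (h₁ := (posOn_smul 4096 2048 2048 rfl (posOn_of_leaf okII0 leafII0_184)))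
    (h₂ := nodeII0_179)

theorem nodeII0_181 : PosOn (matEx 9 offII0 16 MII0)
    ⟨(12288, 0, 65536), (16384, 0, 65536), (12288, 4096, 65536)⟩ :=
  posOn_node 1 (A := ⟨(16384, 0, 65536), (14336, 2048, 65536), (12288, 0, 65536)⟩) (B := ⟨(14336, 2048, 65536), (12288, 4096, 65536), (12288, 0, 65536)⟩) ⟨by decide +kernel, rfl, rfl⟩
    (h₁ := nodeII0_180)
    (h₂ := (posOn_smul 2048 4096 4096 rfl (posOn_of_leaf okII0 leafII0_188)))

theorem nodeII0_182 : PosOn (matEx 9 offII0 16 MII0)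
    ⟨(16384, 0, 65536), (12288, 4096, 65536), (8192, 0, 65536)⟩ :=
  posOn_node 2 (A := ⟨(8192, 0, 65536), (12288, 0, 65536), (12288, 4096, 65536)⟩) (B := ⟨(12288, 0, 65536), (16384, 0, 65536), (12288, 4096, 65536)⟩) ⟨by decide +kernel, rfl, rfl⟩
    (h₁ := (posOn_smul 8192 4096 4096 rfl (posOn_of_leaf okII0 leafII0_183)))
    (h₂ := nodeII0_181)

theorem nodeII0_183 : PosOn (matEx 9 offII0 16 MII0)
    ⟨(8192, 0, 65536), (16384, 0, 65536), (8192, 8192, 65536)⟩ :=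
  posOn_node 1 (A := ⟨(16384, 0, 65536), (12288, 4096, 65536), (8192, 0, 65536)⟩) (B := ⟨(12288, 4096, 65536), (8192, 8192, 65536), (8192, 0, 65536)⟩) ⟨by decide +kernel, rfl, rfl⟩
    (h₁ := nodeII0_182)
    (h₂ := (posOn_smul 4096 8192 8192 rfl (posOn_of_leaf okII0 leafII0_189)))

theorem nodeII0_184 : PosOn (matEx 9 offII0 16 MII0)
    ⟨(8192, 8192, 65536), (0, 0, 65536), (16384, 0, 65536)⟩ :=
  posOn_node 1 (A := ⟨(0, 0, 65536), (8192, 0, 65536), (8192, 8192, 65536)⟩) (B := ⟨(8192, 0, 65536), (16384, 0, 65536), (8192, 8192, 65536)⟩) ⟨by decide +kernel, rfl, rfl⟩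
    (h₁ := nodeII0_177)
    (h₂ := nodeII0_183)

theorem nodeII0_185 : PosOn (matEx 9 offII0 16 MII0)
    ⟨(0, 0, 65536), (16384, 0, 65536), (16384, 16384, 65536)⟩ :=
  posOn_node 2 (A := ⟨(16384, 16384, 65536), (8192, 8192, 65536), (16384, 0, 65536)⟩) (B := ⟨(8192, 8192, 65536), (0, 0, 65536), (16384, 0, 65536)⟩) ⟨by decide +kernel, rfl, rfl⟩
    (h₁ := nodeII0_171)
    (h₂ := nodeII0_184)

theorem nodeII0_186 : PosOn (matEx 9 offII0 16 MII0)
    ⟨(20480, 4096, 65536), (16384, 0, 65536), (24576, 0, 65536)⟩ :=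
  posOn_node 1 (A := ⟨(16384, 0, 65536), (20480, 0, 65536), (20480, 4096, 65536)⟩) (B := ⟨(20480, 0, 65536), (24576, 0, 65536), (20480, 4096, 65536)⟩) ⟨by decide +kernel, rfl, rfl⟩
    (h₁ := (posOn_smul 16384 4096 4096 rfl (posOn_of_leaf okII0 leafII0_191)))
    (h₂ := (posOn_smul 4096 8192 4096 rfl (posOn_of_leaf okII0 leafII0_192)))

theorem nodeII0_187 : PosOn (matEx 9 offII0 16 MII0)
    ⟨(16384, 0, 65536), (24576, 0, 65536), (24576, 8192, 65536)⟩ :=
  posOn_node 2 (A := ⟨(24576, 8192, 65536), (20480, 4096, 65536), (24576, 0, 65536)⟩) (B := ⟨(20480, 4096, 65536), (16384, 0, 65536), (24576, 0, 65536)⟩) ⟨by decide +kernel, rfl, rfl⟩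
    (h₁ := (posOn_smul 8192 4096 8192 rfl (posOn_of_leaf okII0 leafII0_190)))
    (h₂ := nodeII0_186)

theorem nodeII0_188 : PosOn (matEx 9 offII0 16 MII0)
    ⟨(32768, 0, 65536), (24576, 8192, 65536), (16384, 0, 65536)⟩ :=
  posOn_node 2 (A := ⟨(16384, 0, 65536), (24576, 0, 65536), (24576, 8192, 65536)⟩) (B := ⟨(24576, 0, 65536), (32768, 0, 65536), (24576, 8192, 65536)⟩) ⟨by decide +kernel, rfl, rfl⟩
    (h₁ := nodeII0_187)
    (h₂ := (posOn_smul 8192 32768 8192 rfl (posOn_of_leaf okII0 leafII0_193)))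

theorem nodeII0_189 : PosOn (matEx 9 offII0 16 MII0)
    ⟨(16384, 16384, 65536), (16384, 8192, 65536), (24576, 8192, 65536)⟩ :=
  posOn_node 2 (A := ⟨(24576, 8192, 65536), (20480, 12288, 65536), (16384, 8192, 65536)⟩) (B := ⟨(20480, 12288, 65536), (16384, 16384, 65536), (16384, 8192, 65536)⟩) ⟨by decide +kernel, rfl, rfl⟩
    (h₁ := (posOn_smul 8192 4096 8192 rfl (posOn_of_leaf okII0 leafII0_194)))
    (h₂ := (posOn_smul 4096 16384 8192 rfl (posOn_of_leaf okII0 leafII0_195)))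

theorem nodeII0_190 : PosOn (matEx 9 offII0 16 MII0)
    ⟨(16384, 0, 65536), (20480, 4096, 65536), (16384, 8192, 65536)⟩ :=
  posOn_node 2 (A := ⟨(16384, 8192, 65536), (16384, 4096, 65536), (20480, 4096, 65536)⟩) (B := ⟨(16384, 4096, 65536), (16384, 0, 65536), (20480, 4096, 65536)⟩) ⟨by decide +kernel, rfl, rfl⟩
    (h₁ := (posOn_smul 8192 4096 4096 rfl (posOn_of_leaf okII0 leafII0_196)))
    (h₂ := (posOn_smul 4096 16384 4096 rfl (posOn_of_leaf okII0 leafII0_197)))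

theorem nodeII0_191 : PosOn (matEx 9 offII0 16 MII0)
    ⟨(16384, 8192, 65536), (16384, 0, 65536), (24576, 8192, 65536)⟩ :=
  posOn_node 1 (A := ⟨(16384, 0, 65536), (20480, 4096, 65536), (16384, 8192, 65536)⟩) (B := ⟨(20480, 4096, 65536), (24576, 8192, 65536), (16384, 8192, 65536)⟩) ⟨by decide +kernel, rfl, rfl⟩
    (h₁ := nodeII0_190)
    (h₂ := (posOn_smul 4096 8192 8192 rfl (posOn_of_leaf okII0 leafII0_198)))

theorem nodeII0_192 : PosOn (matEx 9 offII0 16 MII0)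
    ⟨(24576, 8192, 65536), (16384, 16384, 65536), (16384, 0, 65536)⟩ :=
  posOn_node 1 (A := ⟨(16384, 16384, 65536), (16384, 8192, 65536), (24576, 8192, 65536)⟩) (B := ⟨(16384, 8192, 65536), (16384, 0, 65536), (24576, 8192, 65536)⟩) ⟨by decide +kernel, rfl, rfl⟩
    (h₁ := nodeII0_189)
    (h₂ := nodeII0_191)

theorem nodeII0_193 : PosOn (matEx 9 offII0 16 MII0)
    ⟨(16384, 0, 65536), (32768, 0, 65536), (16384, 16384, 65536)⟩ :=
  posOn_node 1 (A := ⟨(32768, 0, 65536), (24576, 8192, 65536), (16384, 0, 65536)⟩) (B := ⟨(24576, 8192, 65536), (16384, 16384, 65536), (16384, 0, 65536)⟩) ⟨by decide +kernel, rfl, rfl⟩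
    (h₁ := nodeII0_188)
    (h₂ := nodeII0_192)

theorem nodeII0_194 : PosOn (matEx 9 offII0 16 MII0)
    ⟨(16384, 16384, 65536), (0, 0, 65536), (32768, 0, 65536)⟩ :=
  posOn_node 1 (A := ⟨(0, 0, 65536), (16384, 0, 65536), (16384, 16384, 65536)⟩) (B := ⟨(16384, 0, 65536), (32768, 0, 65536), (16384, 16384, 65536)⟩) ⟨by decide +kernel, rfl, rfl⟩
    (h₁ := nodeII0_185)
    (h₂ := nodeII0_193)

theorem nodeII0_195 : PosOn (matEx 9 offII0 16 MII0)
    ⟨(0, 0, 65536), (32768, 0, 65536), (32768, 32768, 65536)⟩ :=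
  posOn_node 2 (A := ⟨(32768, 32768, 65536), (16384, 16384, 65536), (32768, 0, 65536)⟩) (B := ⟨(16384, 16384, 65536), (0, 0, 65536), (32768, 0, 65536)⟩) ⟨by decide +kernel, rfl, rfl⟩
    (h₁ := nodeII0_165)
    (h₂ := nodeII0_194)

theorem nodeII0_196 : PosOn (matEx 9 offII0 16 MII0)
    ⟨(36864, 4096, 65536), (32768, 0, 65536), (40960, 0, 65536)⟩ :=
  posOn_node 1 (A := ⟨(32768, 0, 65536), (36864, 0, 65536), (36864, 4096, 65536)⟩) (B := ⟨(36864, 0, 65536), (40960, 0, 65536), (36864, 4096, 65536)⟩) ⟨by decide +kernel, rfl, rfl⟩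
    (h₁ := (posOn_smul 32768 4096 4096 rfl (posOn_of_leaf okII0 leafII0_201)))
    (h₂ := (posOn_smul 4096 8192 4096 rfl (posOn_of_leaf okII0 leafII0_202)))

theorem nodeII0_197 : PosOn (matEx 9 offII0 16 MII0)
    ⟨(32768, 0, 65536), (40960, 0, 65536), (40960, 8192, 65536)⟩ :=
  posOn_node 2 (A := ⟨(40960, 8192, 65536), (36864, 4096, 65536), (40960, 0, 65536)⟩) (B := ⟨(36864, 4096, 65536), (32768, 0, 65536), (40960, 0, 65536)⟩) ⟨by decide +kernel, rfl, rfl⟩
    (h₁ := (posOn_smul 8192 4096 8192 rfl (posOn_of_leaf okII0 leafII0_200)))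
    (h₂ := nodeII0_196)

theorem nodeII0_198 : PosOn (matEx 9 offII0 16 MII0)
    ⟨(40960, 8192, 65536), (32768, 0, 65536), (49152, 0, 65536)⟩ :=
  posOn_node 1 (A := ⟨(32768, 0, 65536), (40960, 0, 65536), (40960, 8192, 65536)⟩) (B := ⟨(40960, 0, 65536), (49152, 0, 65536), (40960, 8192, 65536)⟩) ⟨by decide +kernel, rfl, rfl⟩
    (h₁ := nodeII0_197)
    (h₂ := (posOn_smul 8192 16384 8192 rfl (posOn_of_leaf okII0 leafII0_203)))

theorem nodeII0_199 : PosOn (matEx 9 offII0 16 MII0)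
    ⟨(32768, 0, 65536), (49152, 0, 65536), (49152, 16384, 65536)⟩ :=
  posOn_node 2 (A := ⟨(49152, 16384, 65536), (40960, 8192, 65536), (49152, 0, 65536)⟩) (B := ⟨(40960, 8192, 65536), (32768, 0, 65536), (49152, 0, 65536)⟩) ⟨by decide +kernel, rfl, rfl⟩
    (h₁ := (posOn_smul 16384 8192 16384 rfl (posOn_of_leaf okII0 leafII0_199)))
    (h₂ := nodeII0_198)

theorem nodeII0_200 : PosOn (matEx 9 offII0 16 MII0)
    ⟨(49152, 16384, 65536), (49152, 8192, 65536), (57344, 8192, 65536)⟩ :=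
  posOn_node 2 (A := ⟨(57344, 8192, 65536), (53248, 12288, 65536), (49152, 8192, 65536)⟩) (B := ⟨(53248, 12288, 65536), (49152, 16384, 65536), (49152, 8192, 65536)⟩) ⟨by decide +kernel, rfl, rfl⟩
    (h₁ := (posOn_smul 8192 4096 8192 rfl (posOn_of_leaf okII0 leafII0_205)))
    (h₂ := (posOn_smul 4096 16384 8192 rfl (posOn_of_leaf okII0 leafII0_206)))

theorem nodeII0_201 : PosOn (matEx 9 offII0 16 MII0)
    ⟨(57344, 8192, 65536), (49152, 16384, 65536), (49152, 0, 65536)⟩ :=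
  posOn_node 1 (A := ⟨(49152, 16384, 65536), (49152, 8192, 65536), (57344, 8192, 65536)⟩) (B := ⟨(49152, 8192, 65536), (49152, 0, 65536), (57344, 8192, 65536)⟩) ⟨by decide +kernel, rfl, rfl⟩
    (h₁ := nodeII0_200)
    (h₂ := (posOn_smul 8192 16384 8192 rfl (posOn_of_leaf okII0 leafII0_207)))

theorem nodeII0_202 : PosOn (matEx 9 offII0 16 MII0)
    ⟨(49152, 0, 65536), (65536, 0, 65536), (49152, 16384, 65536)⟩ :=
  posOn_node 1 (A := ⟨(65536, 0, 65536), (57344, 8192, 65536), (49152, 0, 65536)⟩) (B := ⟨(57344, 8192, 65536), (49152, 16384, 65536), (49152, 0, 65536)⟩) ⟨by decide +kernel, rfl, rfl⟩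
    (h₁ := (posOn_smul 65536 8192 16384 rfl (posOn_of_leaf okII0 leafII0_204)))
    (h₂ := nodeII0_201)

theorem nodeII0_203 : PosOn (matEx 9 offII0 16 MII0)
    ⟨(65536, 0, 65536), (49152, 16384, 65536), (32768, 0, 65536)⟩ :=
  posOn_node 2 (A := ⟨(32768, 0, 65536), (49152, 0, 65536), (49152, 16384, 65536)⟩) (B := ⟨(49152, 0, 65536), (65536, 0, 65536), (49152, 16384, 65536)⟩) ⟨by decide +kernel, rfl, rfl⟩
    (h₁ := nodeII0_199)
    (h₂ := nodeII0_202)

theorem nodeII0_204 : PosOn (matEx 9 offII0 16 MII0)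
    ⟨(32768, 16384, 65536), (40960, 16384, 65536), (40960, 24576, 65536)⟩ :=
  posOn_node 2 (A := ⟨(40960, 24576, 65536), (36864, 20480, 65536), (40960, 16384, 65536)⟩) (B := ⟨(36864, 20480, 65536), (32768, 16384, 65536), (40960, 16384, 65536)⟩) ⟨by decide +kernel, rfl, rfl⟩
    (h₁ := (posOn_smul 8192 4096 8192 rfl (posOn_of_leaf okII0 leafII0_208)))
    (h₂ := (posOn_smul 4096 16384 8192 rfl (posOn_of_leaf okII0 leafII0_209)))

theorem nodeII0_205 : PosOn (matEx 9 offII0 16 MII0)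
    ⟨(49152, 16384, 65536), (40960, 24576, 65536), (32768, 16384, 65536)⟩ :=
  posOn_node 2 (A := ⟨(32768, 16384, 65536), (40960, 16384, 65536), (40960, 24576, 65536)⟩) (B := ⟨(40960, 16384, 65536), (49152, 16384, 65536), (40960, 24576, 65536)⟩) ⟨by decide +kernel, rfl, rfl⟩
    (h₁ := nodeII0_204)
    (h₂ := (posOn_smul 8192 16384 8192 rfl (posOn_of_leaf okII0 leafII0_210)))

theorem nodeII0_206 : PosOn (matEx 9 offII0 16 MII0)
    ⟨(32768, 24576, 65536), (32768, 16384, 65536), (40960, 24576, 65536)⟩ :=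
  posOn_node 1 (A := ⟨(32768, 16384, 65536), (36864, 20480, 65536), (32768, 24576, 65536)⟩) (B := ⟨(36864, 20480, 65536), (40960, 24576, 65536), (32768, 24576, 65536)⟩) ⟨by decide +kernel, rfl, rfl⟩
    (h₁ := (posOn_smul 16384 4096 8192 rfl (posOn_of_leaf okII0 leafII0_212)))
    (h₂ := (posOn_smul 4096 8192 8192 rfl (posOn_of_leaf okII0 leafII0_213)))

theorem nodeII0_207 : PosOn (matEx 9 offII0 16 MII0)
    ⟨(40960, 24576, 65536), (32768, 32768, 65536), (32768, 16384, 65536)⟩ :=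
  posOn_node 1 (A := ⟨(32768, 32768, 65536), (32768, 24576, 65536), (40960, 24576, 65536)⟩) (B := ⟨(32768, 24576, 65536), (32768, 16384, 65536), (40960, 24576, 65536)⟩) ⟨by decide +kernel, rfl, rfl⟩
    (h₁ := (posOn_smul 32768 8192 8192 rfl (posOn_of_leaf okII0 leafII0_211)))
    (h₂ := nodeII0_206)

theorem nodeII0_208 : PosOn (matEx 9 offII0 16 MII0)
    ⟨(32768, 32768, 65536), (32768, 16384, 65536), (49152, 16384, 65536)⟩ :=
  posOn_node 2 (A := ⟨(49152, 16384, 65536), (40960, 24576, 65536), (32768, 16384, 65536)⟩) (B := ⟨(40960, 24576, 65536), (32768, 32768, 65536), (32768, 16384, 65536)⟩) ⟨by decide +kernel, rfl, rfl⟩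
    (h₁ := nodeII0_205)
    (h₂ := nodeII0_207)

theorem nodeII0_209 : PosOn (matEx 9 offII0 16 MII0)
    ⟨(32768, 8192, 65536), (32768, 0, 65536), (40960, 8192, 65536)⟩ :=
  posOn_node 1 (A := ⟨(32768, 0, 65536), (36864, 4096, 65536), (32768, 8192, 65536)⟩) (B := ⟨(36864, 4096, 65536), (40960, 8192, 65536), (32768, 8192, 65536)⟩) ⟨by decide +kernel, rfl, rfl⟩
    (h₁ := (posOn_smul 32768 4096 8192 rfl (posOn_of_leaf okII0 leafII0_215)))
    (h₂ := (posOn_smul 4096 8192 8192 rfl (posOn_of_leaf okII0 leafII0_216)))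

theorem nodeII0_210 : PosOn (matEx 9 offII0 16 MII0)
    ⟨(32768, 0, 65536), (40960, 8192, 65536), (32768, 16384, 65536)⟩ :=
  posOn_node 2 (A := ⟨(32768, 16384, 65536), (32768, 8192, 65536), (40960, 8192, 65536)⟩) (B := ⟨(32768, 8192, 65536), (32768, 0, 65536), (40960, 8192, 65536)⟩) ⟨by decide +kernel, rfl, rfl⟩
    (h₁ := (posOn_smul 16384 8192 8192 rfl (posOn_of_leaf okII0 leafII0_214)))
    (h₂ := nodeII0_209)

theorem nodeII0_211 : PosOn (matEx 9 offII0 16 MII0)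
    ⟨(40960, 8192, 65536), (49152, 16384, 65536), (32768, 16384, 65536)⟩ :=
  posOn_node 1 (A := ⟨(49152, 16384, 65536), (40960, 16384, 65536), (40960, 8192, 65536)⟩) (B := ⟨(40960, 16384, 65536), (32768, 16384, 65536), (40960, 8192, 65536)⟩) ⟨by decide +kernel, rfl, rfl⟩
    (h₁ := (posOn_smul 16384 8192 8192 rfl (posOn_of_leaf okII0 leafII0_217)))
    (h₂ := (posOn_smul 8192 16384 8192 rfl (posOn_of_leaf okII0 leafII0_218)))

theorem nodeII0_212 : PosOn (matEx 9 offII0 16 MII0)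
    ⟨(32768, 16384, 65536), (32768, 0, 65536), (49152, 16384, 65536)⟩ :=
  posOn_node 1 (A := ⟨(32768, 0, 65536), (40960, 8192, 65536), (32768, 16384, 65536)⟩) (B := ⟨(40960, 8192, 65536), (49152, 16384, 65536), (32768, 16384, 65536)⟩) ⟨by decide +kernel, rfl, rfl⟩
    (h₁ := nodeII0_210)
    (h₂ := nodeII0_211)

theorem nodeII0_213 : PosOn (matEx 9 offII0 16 MII0)
    ⟨(49152, 16384, 65536), (32768, 32768, 65536), (32768, 0, 65536)⟩ :=
  posOn_node 1 (A := ⟨(32768, 32768, 65536), (32768, 16384, 65536), (49152, 16384, 65536)⟩) (B := ⟨(32768, 16384, 65536), (32768, 0, 65536), (49152, 16384, 65536)⟩) ⟨by decide +kernel, rfl, rfl⟩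
    (h₁ := nodeII0_208)
    (h₂ := nodeII0_212)

theorem nodeII0_214 : PosOn (matEx 9 offII0 16 MII0)
    ⟨(32768, 0, 65536), (65536, 0, 65536), (32768, 32768, 65536)⟩ :=
  posOn_node 1 (A := ⟨(65536, 0, 65536), (49152, 16384, 65536), (32768, 0, 65536)⟩) (B := ⟨(49152, 16384, 65536), (32768, 32768, 65536), (32768, 0, 65536)⟩) ⟨by decide +kernel, rfl, rfl⟩
    (h₁ := nodeII0_203)
    (h₂ := nodeII0_213)

theorem nodeII0_215 : PosOn (matEx 9 offII0 16 MII0)
    ⟨(65536, 0, 65536), (32768, 32768, 65536), (0, 0, 65536)⟩ :=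
  posOn_node 2 (A := ⟨(0, 0, 65536), (32768, 0, 65536), (32768, 32768, 65536)⟩) (B := ⟨(32768, 0, 65536), (65536, 0, 65536), (32768, 32768, 65536)⟩) ⟨by decide +kernel, rfl, rfl⟩
    (h₁ := nodeII0_195)
    (h₂ := nodeII0_214)

theorem nodeII0_216 : PosOn (matEx 9 offII0 16 MII0)
    ⟨(8192, 40960, 65536), (12288, 36864, 65536), (16384, 40960, 65536)⟩ :=
  posOn_node 2 (A := ⟨(16384, 40960, 65536), (12288, 40960, 65536), (12288, 36864, 65536)⟩) (B := ⟨(12288, 40960, 65536), (8192, 40960, 65536), (12288, 36864, 65536)⟩) ⟨by decide +kernel, rfl, rfl⟩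
    (h₁ := (posOn_smul 8192 4096 4096 rfl (posOn_of_leaf okII0 leafII0_219)))
    (h₂ := (posOn_smul 4096 8192 4096 rfl (posOn_of_leaf okII0 leafII0_220)))

theorem nodeII0_217 : PosOn (matEx 9 offII0 16 MII0)
    ⟨(16384, 32768, 65536), (16384, 40960, 65536), (8192, 40960, 65536)⟩ :=
  posOn_node 2 (A := ⟨(8192, 40960, 65536), (12288, 36864, 65536), (16384, 40960, 65536)⟩) (B := ⟨(12288, 36864, 65536), (16384, 32768, 65536), (16384, 40960, 65536)⟩) ⟨by decide +kernel, rfl, rfl⟩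
    (h₁ := nodeII0_216)
    (h₂ := (posOn_smul 4096 16384 8192 rfl (posOn_of_leaf okII0 leafII0_221)))

theorem nodeII0_218 : PosOn (matEx 9 offII0 16 MII0)
    ⟨(16384, 40960, 65536), (16384, 45056, 65536), (12288, 45056, 65536)⟩ :=
  posOn_node 2 (A := ⟨(12288, 45056, 65536), (14336, 43008, 65536), (16384, 45056, 65536)⟩) (B := ⟨(14336, 43008, 65536), (16384, 40960, 65536), (16384, 45056, 65536)⟩) ⟨by decide +kernel, rfl, rfl⟩
    (h₁ := (posOn_smul 4096 2048 4096 rfl (posOn_of_leaf okII0 leafII0_222)))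
    (h₂ := (posOn_smul 2048 8192 4096 rfl (posOn_of_leaf okII0 leafII0_223)))

theorem nodeII0_219 : PosOn (matEx 9 offII0 16 MII0)
    ⟨(16384, 49152, 65536), (12288, 45056, 65536), (16384, 40960, 65536)⟩ :=
  posOn_node 2 (A := ⟨(16384, 40960, 65536), (16384, 45056, 65536), (12288, 45056, 65536)⟩) (B := ⟨(16384, 45056, 65536), (16384, 49152, 65536), (12288, 45056, 65536)⟩) ⟨by decide +kernel, rfl, rfl⟩
    (h₁ := nodeII0_218)
    (h₂ := (posOn_smul 4096 16384 4096 rfl (posOn_of_leaf okII0 leafII0_224)))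

theorem nodeII0_220 : PosOn (matEx 9 offII0 16 MII0)
    ⟨(12288, 40960, 65536), (16384, 40960, 65536), (12288, 45056, 65536)⟩ :=
  posOn_node 1 (A := ⟨(16384, 40960, 65536), (14336, 43008, 65536), (12288, 40960, 65536)⟩) (B := ⟨(14336, 43008, 65536), (12288, 45056, 65536), (12288, 40960, 65536)⟩) ⟨by decide +kernel, rfl, rfl⟩
    (h₁ := (posOn_smul 8192 2048 4096 rfl (posOn_of_leaf okII0 leafII0_226)))
    (h₂ := (posOn_smul 2048 4096 4096 rfl (posOn_of_leaf okII0 leafII0_227)))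

theorem nodeII0_221 : PosOn (matEx 9 offII0 16 MII0)
    ⟨(12288, 45056, 65536), (8192, 40960, 65536), (16384, 40960, 65536)⟩ :=
  posOn_node 1 (A := ⟨(8192, 40960, 65536), (12288, 40960, 65536), (12288, 45056, 65536)⟩) (B := ⟨(12288, 40960, 65536), (16384, 40960, 65536), (12288, 45056, 65536)⟩) ⟨by decide +kernel, rfl, rfl⟩
    (h₁ := (posOn_smul 8192 4096 4096 rfl (posOn_of_leaf okII0 leafII0_225)))
    (h₂ := nodeII0_220)

theorem nodeII0_222 : PosOn (matEx 9 offII0 16 MII0)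
    ⟨(16384, 40960, 65536), (16384, 49152, 65536), (8192, 40960, 65536)⟩ :=
  posOn_node 1 (A := ⟨(16384, 49152, 65536), (12288, 45056, 65536), (16384, 40960, 65536)⟩) (B := ⟨(12288, 45056, 65536), (8192, 40960, 65536), (16384, 40960, 65536)⟩) ⟨by decide +kernel, rfl, rfl⟩
    (h₁ := nodeII0_219)
    (h₂ := nodeII0_221)

theorem nodeII0_223 : PosOn (matEx 9 offII0 16 MII0)
    ⟨(16384, 49152, 65536), (8192, 40960, 65536), (16384, 32768, 65536)⟩ :=
  posOn_node 2 (A := ⟨(16384, 32768, 65536), (16384, 40960, 65536), (8192, 40960, 65536)⟩) (B := ⟨(16384, 40960, 65536), (16384, 49152, 65536), (8192, 40960, 65536)⟩) ⟨by decide +kernel, rfl, rfl⟩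
    (h₁ := nodeII0_217)
    (h₂ := nodeII0_222)

theorem nodeII0_224 : PosOn (matEx 9 offII0 16 MII0)
    ⟨(8192, 40960, 65536), (4096, 36864, 65536), (8192, 32768, 65536)⟩ :=
  posOn_node 2 (A := ⟨(8192, 32768, 65536), (8192, 36864, 65536), (4096, 36864, 65536)⟩) (B := ⟨(8192, 36864, 65536), (8192, 40960, 65536), (4096, 36864, 65536)⟩) ⟨by decide +kernel, rfl, rfl⟩
    (h₁ := (posOn_smul 8192 4096 4096 rfl (posOn_of_leaf okII0 leafII0_228)))
    (h₂ := (posOn_smul 4096 8192 4096 rfl (posOn_of_leaf okII0 leafII0_229)))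

theorem nodeII0_225 : PosOn (matEx 9 offII0 16 MII0)
    ⟨(0, 32768, 65536), (4096, 32768, 65536), (4096, 36864, 65536)⟩ :=
  posOn_node 2 (A := ⟨(4096, 36864, 65536), (2048, 34816, 65536), (4096, 32768, 65536)⟩) (B := ⟨(2048, 34816, 65536), (0, 32768, 65536), (4096, 32768, 65536)⟩) ⟨by decide +kernel, rfl, rfl⟩
    (h₁ := (posOn_smul 4096 2048 4096 rfl (posOn_of_leaf okII0 leafII0_230)))
    (h₂ := (posOn_smul 2048 32768 4096 rfl (posOn_of_leaf okII0 leafII0_231)))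

theorem nodeII0_226 : PosOn (matEx 9 offII0 16 MII0)
    ⟨(4096, 36864, 65536), (0, 32768, 65536), (8192, 32768, 65536)⟩ :=
  posOn_node 1 (A := ⟨(0, 32768, 65536), (4096, 32768, 65536), (4096, 36864, 65536)⟩) (B := ⟨(4096, 32768, 65536), (8192, 32768, 65536), (4096, 36864, 65536)⟩) ⟨by decide +kernel, rfl, rfl⟩
    (h₁ := nodeII0_225)
    (h₂ := (posOn_smul 4096 8192 4096 rfl (posOn_of_leaf okII0 leafII0_232)))

theorem nodeII0_227 : PosOn (matEx 9 offII0 16 MII0)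
    ⟨(0, 32768, 65536), (8192, 32768, 65536), (8192, 40960, 65536)⟩ :=
  posOn_node 2 (A := ⟨(8192, 40960, 65536), (4096, 36864, 65536), (8192, 32768, 65536)⟩) (B := ⟨(4096, 36864, 65536), (0, 32768, 65536), (8192, 32768, 65536)⟩) ⟨by decide +kernel, rfl, rfl⟩
    (h₁ := nodeII0_224)
    (h₂ := nodeII0_226)

theorem nodeII0_228 : PosOn (matEx 9 offII0 16 MII0)
    ⟨(16384, 32768, 65536), (12288, 36864, 65536), (8192, 32768, 65536)⟩ :=
  posOn_node 2 (A := ⟨(8192, 32768, 65536), (12288, 32768, 65536), (12288, 36864, 65536)⟩) (B := ⟨(12288, 32768, 65536), (16384, 32768, 65536), (12288, 36864, 65536)⟩) ⟨by decide +kernel, rfl, rfl⟩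
    (h₁ := (posOn_smul 8192 4096 4096 rfl (posOn_of_leaf okII0 leafII0_233)))
    (h₂ := (posOn_smul 4096 16384 4096 rfl (posOn_of_leaf okII0 leafII0_234)))

theorem nodeII0_229 : PosOn (matEx 9 offII0 16 MII0)
    ⟨(8192, 32768, 65536), (16384, 32768, 65536), (8192, 40960, 65536)⟩ :=
  posOn_node 1 (A := ⟨(16384, 32768, 65536), (12288, 36864, 65536), (8192, 32768, 65536)⟩) (B := ⟨(12288, 36864, 65536), (8192, 40960, 65536), (8192, 32768, 65536)⟩) ⟨by decide +kernel, rfl, rfl⟩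
    (h₁ := nodeII0_228)
    (h₂ := (posOn_smul 4096 8192 8192 rfl (posOn_of_leaf okII0 leafII0_235)))

theorem nodeII0_230 : PosOn (matEx 9 offII0 16 MII0)
    ⟨(8192, 40960, 65536), (0, 32768, 65536), (16384, 32768, 65536)⟩ :=
  posOn_node 1 (A := ⟨(0, 32768, 65536), (8192, 32768, 65536), (8192, 40960, 65536)⟩) (B := ⟨(8192, 32768, 65536), (16384, 32768, 65536), (8192, 40960, 65536)⟩) ⟨by decide +kernel, rfl, rfl⟩
    (h₁ := nodeII0_227)
    (h₂ := nodeII0_229)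

theorem nodeII0_231 : PosOn (matEx 9 offII0 16 MII0)
    ⟨(0, 32768, 65536), (16384, 32768, 65536), (16384, 49152, 65536)⟩ :=
  posOn_node 2 (A := ⟨(16384, 49152, 65536), (8192, 40960, 65536), (16384, 32768, 65536)⟩) (B := ⟨(8192, 40960, 65536), (0, 32768, 65536), (16384, 32768, 65536)⟩) ⟨by decide +kernel, rfl, rfl⟩
    (h₁ := nodeII0_223)
    (h₂ := nodeII0_230)

theorem nodeII0_232 : PosOn (matEx 9 offII0 16 MII0)
    ⟨(16384, 32768, 65536), (24576, 32768, 65536), (24576, 40960, 65536)⟩ :=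
  posOn_node 2 (A := ⟨(24576, 40960, 65536), (20480, 36864, 65536), (24576, 32768, 65536)⟩) (B := ⟨(20480, 36864, 65536), (16384, 32768, 65536), (24576, 32768, 65536)⟩) ⟨by decide +kernel, rfl, rfl⟩
    (h₁ := (posOn_smul 8192 4096 8192 rfl (posOn_of_leaf okII0 leafII0_236)))
    (h₂ := (posOn_smul 4096 16384 8192 rfl (posOn_of_leaf okII0 leafII0_237)))

theorem nodeII0_233 : PosOn (matEx 9 offII0 16 MII0)
    ⟨(32768, 32768, 65536), (24576, 40960, 65536), (16384, 32768, 65536)⟩ :=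
  posOn_node 2 (A := ⟨(16384, 32768, 65536), (24576, 32768, 65536), (24576, 40960, 65536)⟩) (B := ⟨(24576, 32768, 65536), (32768, 32768, 65536), (24576, 40960, 65536)⟩) ⟨by decide +kernel, rfl, rfl⟩
    (h₁ := nodeII0_232)
    (h₂ := (posOn_smul 8192 32768 8192 rfl (posOn_of_leaf okII0 leafII0_238)))

theorem nodeII0_234 : PosOn (matEx 9 offII0 16 MII0)
    ⟨(20480, 45056, 65536), (16384, 49152, 65536), (16384, 40960, 65536)⟩ :=
  posOn_node 1 (A := ⟨(16384, 49152, 65536), (16384, 45056, 65536), (20480, 45056, 65536)⟩) (B := ⟨(16384, 45056, 65536), (16384, 40960, 65536), (20480, 45056, 65536)⟩) ⟨by decide +kernel, rfl, rfl⟩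
    (h₁ := (posOn_smul 16384 4096 4096 rfl (posOn_of_leaf okII0 leafII0_240)))
    (h₂ := (posOn_smul 4096 8192 4096 rfl (posOn_of_leaf okII0 leafII0_241)))

theorem nodeII0_235 : PosOn (matEx 9 offII0 16 MII0)
    ⟨(16384, 49152, 65536), (16384, 40960, 65536), (24576, 40960, 65536)⟩ :=
  posOn_node 2 (A := ⟨(24576, 40960, 65536), (20480, 45056, 65536), (16384, 40960, 65536)⟩) (B := ⟨(20480, 45056, 65536), (16384, 49152, 65536), (16384, 40960, 65536)⟩) ⟨by decide +kernel, rfl, rfl⟩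
    (h₁ := (posOn_smul 8192 4096 8192 rfl (posOn_of_leaf okII0 leafII0_239)))
    (h₂ := nodeII0_234)

theorem nodeII0_236 : PosOn (matEx 9 offII0 16 MII0)
    ⟨(16384, 40960, 65536), (16384, 32768, 65536), (24576, 40960, 65536)⟩ :=
  posOn_node 1 (A := ⟨(16384, 32768, 65536), (20480, 36864, 65536), (16384, 40960, 65536)⟩) (B := ⟨(20480, 36864, 65536), (24576, 40960, 65536), (16384, 40960, 65536)⟩) ⟨by decide +kernel, rfl, rfl⟩
    (h₁ := (posOn_smul 16384 4096 8192 rfl (posOn_of_leaf okII0 leafII0_242)))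
    (h₂ := (posOn_smul 4096 8192 8192 rfl (posOn_of_leaf okII0 leafII0_243)))

theorem nodeII0_237 : PosOn (matEx 9 offII0 16 MII0)
    ⟨(24576, 40960, 65536), (16384, 49152, 65536), (16384, 32768, 65536)⟩ :=
  posOn_node 1 (A := ⟨(16384, 49152, 65536), (16384, 40960, 65536), (24576, 40960, 65536)⟩) (B := ⟨(16384, 40960, 65536), (16384, 32768, 65536), (24576, 40960, 65536)⟩) ⟨by decide +kernel, rfl, rfl⟩
    (h₁ := nodeII0_235)
    (h₂ := nodeII0_236)

theorem nodeII0_238 : PosOn (matEx 9 offII0 16 MII0)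
    ⟨(16384, 32768, 65536), (32768, 32768, 65536), (16384, 49152, 65536)⟩ :=
  posOn_node 1 (A := ⟨(32768, 32768, 65536), (24576, 40960, 65536), (16384, 32768, 65536)⟩) (B := ⟨(24576, 40960, 65536), (16384, 49152, 65536), (16384, 32768, 65536)⟩) ⟨by decide +kernel, rfl, rfl⟩
    (h₁ := nodeII0_233)
    (h₂ := nodeII0_237)

theorem nodeII0_239 : PosOn (matEx 9 offII0 16 MII0)
    ⟨(32768, 32768, 65536), (16384, 49152, 65536), (0, 32768, 65536)⟩ :=
  posOn_node 2 (A := ⟨(0, 32768, 65536), (16384, 32768, 65536), (16384, 49152, 65536)⟩) (B := ⟨(16384, 32768, 65536), (32768, 32768, 65536), (16384, 49152, 65536)⟩) ⟨by decide +kernel, rfl, rfl⟩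
    (h₁ := nodeII0_231)
    (h₂ := nodeII0_238)

theorem nodeII0_240 : PosOn (matEx 9 offII0 16 MII0)
    ⟨(0, 49152, 65536), (8192, 49152, 65536), (8192, 57344, 65536)⟩ :=
  posOn_node 2 (A := ⟨(8192, 57344, 65536), (4096, 53248, 65536), (8192, 49152, 65536)⟩) (B := ⟨(4096, 53248, 65536), (0, 49152, 65536), (8192, 49152, 65536)⟩) ⟨by decide +kernel, rfl, rfl⟩
    (h₁ := (posOn_smul 8192 4096 8192 rfl (posOn_of_leaf okII0 leafII0_244)))
    (h₂ := (posOn_smul 4096 16384 8192 rfl (posOn_of_leaf okII0 leafII0_245)))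

theorem nodeII0_241 : PosOn (matEx 9 offII0 16 MII0)
    ⟨(8192, 49152, 65536), (16384, 49152, 65536), (8192, 57344, 65536)⟩ :=
  posOn_node 1 (A := ⟨(16384, 49152, 65536), (12288, 53248, 65536), (8192, 49152, 65536)⟩) (B := ⟨(12288, 53248, 65536), (8192, 57344, 65536), (8192, 49152, 65536)⟩) ⟨by decide +kernel, rfl, rfl⟩
    (h₁ := (posOn_smul 16384 4096 8192 rfl (posOn_of_leaf okII0 leafII0_246)))
    (h₂ := (posOn_smul 4096 8192 8192 rfl (posOn_of_leaf okII0 leafII0_247)))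

theorem nodeII0_242 : PosOn (matEx 9 offII0 16 MII0)
    ⟨(16384, 49152, 65536), (8192, 57344, 65536), (0, 49152, 65536)⟩ :=
  posOn_node 2 (A := ⟨(0, 49152, 65536), (8192, 49152, 65536), (8192, 57344, 65536)⟩) (B := ⟨(8192, 49152, 65536), (16384, 49152, 65536), (8192, 57344, 65536)⟩) ⟨by decide +kernel, rfl, rfl⟩
    (h₁ := nodeII0_240)
    (h₂ := nodeII0_241)

theorem nodeII0_243 : PosOn (matEx 9 offII0 16 MII0)
    ⟨(0, 57344, 65536), (0, 49152, 65536), (8192, 57344, 65536)⟩ :=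
  posOn_node 1 (A := ⟨(0, 49152, 65536), (4096, 53248, 65536), (0, 57344, 65536)⟩) (B := ⟨(4096, 53248, 65536), (8192, 57344, 65536), (0, 57344, 65536)⟩) ⟨by decide +kernel, rfl, rfl⟩
    (h₁ := (posOn_smul 16384 4096 8192 rfl (posOn_of_leaf okII0 leafII0_249)))
    (h₂ := (posOn_smul 4096 8192 8192 rfl (posOn_of_leaf okII0 leafII0_250)))

theorem nodeII0_244 : PosOn (matEx 9 offII0 16 MII0)
    ⟨(8192, 57344, 65536), (0, 65536, 65536), (0, 49152, 65536)⟩ :=
  posOn_node 1 (A := ⟨(0, 65536, 65536), (0, 57344, 65536), (8192, 57344, 65536)⟩) (B := ⟨(0, 57344, 65536), (0, 49152, 65536), (8192, 57344, 65536)⟩) ⟨by decide +kernel, rfl, rfl⟩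
    (h₁ := (posOn_smul 65536 8192 8192 rfl (posOn_of_leaf okII0 leafII0_248)))
    (h₂ := nodeII0_243)

theorem nodeII0_245 : PosOn (matEx 9 offII0 16 MII0)
    ⟨(0, 65536, 65536), (0, 49152, 65536), (16384, 49152, 65536)⟩ :=
  posOn_node 2 (A := ⟨(16384, 49152, 65536), (8192, 57344, 65536), (0, 49152, 65536)⟩) (B := ⟨(8192, 57344, 65536), (0, 65536, 65536), (0, 49152, 65536)⟩) ⟨by decide +kernel, rfl, rfl⟩
    (h₁ := nodeII0_242)
    (h₂ := nodeII0_244)

theorem nodeII0_246 : PosOn (matEx 9 offII0 16 MII0)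
    ⟨(0, 49152, 65536), (0, 40960, 65536), (8192, 40960, 65536)⟩ :=
  posOn_node 2 (A := ⟨(8192, 40960, 65536), (4096, 45056, 65536), (0, 40960, 65536)⟩) (B := ⟨(4096, 45056, 65536), (0, 49152, 65536), (0, 40960, 65536)⟩) ⟨by decide +kernel, rfl, rfl⟩
    (h₁ := (posOn_smul 8192 4096 8192 rfl (posOn_of_leaf okII0 leafII0_251)))
    (h₂ := (posOn_smul 4096 16384 8192 rfl (posOn_of_leaf okII0 leafII0_252)))

theorem nodeII0_247 : PosOn (matEx 9 offII0 16 MII0)
    ⟨(0, 36864, 65536), (0, 32768, 65536), (4096, 36864, 65536)⟩ :=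
  posOn_node 1 (A := ⟨(0, 32768, 65536), (2048, 34816, 65536), (0, 36864, 65536)⟩) (B := ⟨(2048, 34816, 65536), (4096, 36864, 65536), (0, 36864, 65536)⟩) ⟨by decide +kernel, rfl, rfl⟩
    (h₁ := (posOn_smul 32768 2048 4096 rfl (posOn_of_leaf okII0 leafII0_254)))
    (h₂ := (posOn_smul 2048 4096 4096 rfl (posOn_of_leaf okII0 leafII0_255)))

theorem nodeII0_248 : PosOn (matEx 9 offII0 16 MII0)
    ⟨(0, 32768, 65536), (4096, 36864, 65536), (0, 40960, 65536)⟩ :=
  posOn_node 2 (A := ⟨(0, 40960, 65536), (0, 36864, 65536), (4096, 36864, 65536)⟩) (B := ⟨(0, 36864, 65536), (0, 32768, 65536), (4096, 36864, 65536)⟩) ⟨by decide +kernel, rfl, rfl⟩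
    (h₁ := (posOn_smul 8192 4096 4096 rfl (posOn_of_leaf okII0 leafII0_253)))
    (h₂ := nodeII0_247)

theorem nodeII0_249 : PosOn (matEx 9 offII0 16 MII0)
    ⟨(4096, 36864, 65536), (8192, 40960, 65536), (0, 40960, 65536)⟩ :=
  posOn_node 1 (A := ⟨(8192, 40960, 65536), (4096, 40960, 65536), (4096, 36864, 65536)⟩) (B := ⟨(4096, 40960, 65536), (0, 40960, 65536), (4096, 36864, 65536)⟩) ⟨by decide +kernel, rfl, rfl⟩
    (h₁ := (posOn_smul 8192 4096 4096 rfl (posOn_of_leaf okII0 leafII0_256)))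
    (h₂ := (posOn_smul 4096 8192 4096 rfl (posOn_of_leaf okII0 leafII0_257)))

theorem nodeII0_250 : PosOn (matEx 9 offII0 16 MII0)
    ⟨(0, 40960, 65536), (0, 32768, 65536), (8192, 40960, 65536)⟩ :=
  posOn_node 1 (A := ⟨(0, 32768, 65536), (4096, 36864, 65536), (0, 40960, 65536)⟩) (B := ⟨(4096, 36864, 65536), (8192, 40960, 65536), (0, 40960, 65536)⟩) ⟨by decide +kernel, rfl, rfl⟩
    (h₁ := nodeII0_248)
    (h₂ := nodeII0_249)

theorem nodeII0_251 : PosOn (matEx 9 offII0 16 MII0)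
    ⟨(0, 32768, 65536), (8192, 40960, 65536), (0, 49152, 65536)⟩ :=
  posOn_node 2 (A := ⟨(0, 49152, 65536), (0, 40960, 65536), (8192, 40960, 65536)⟩) (B := ⟨(0, 40960, 65536), (0, 32768, 65536), (8192, 40960, 65536)⟩) ⟨by decide +kernel, rfl, rfl⟩
    (h₁ := nodeII0_246)
    (h₂ := nodeII0_250)

theorem nodeII0_252 : PosOn (matEx 9 offII0 16 MII0)
    ⟨(16384, 49152, 65536), (8192, 49152, 65536), (8192, 40960, 65536)⟩ :=
  posOn_node 2 (A := ⟨(8192, 40960, 65536), (12288, 45056, 65536), (8192, 49152, 65536)⟩) (B := ⟨(12288, 45056, 65536), (16384, 49152, 65536), (8192, 49152, 65536)⟩) ⟨by decide +kernel, rfl, rfl⟩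
    (h₁ := (posOn_smul 8192 4096 8192 rfl (posOn_of_leaf okII0 leafII0_258)))
    (h₂ := (posOn_smul 4096 16384 8192 rfl (posOn_of_leaf okII0 leafII0_259)))

theorem nodeII0_253 : PosOn (matEx 9 offII0 16 MII0)
    ⟨(8192, 49152, 65536), (0, 49152, 65536), (8192, 40960, 65536)⟩ :=
  posOn_node 1 (A := ⟨(0, 49152, 65536), (4096, 45056, 65536), (8192, 49152, 65536)⟩) (B := ⟨(4096, 45056, 65536), (8192, 40960, 65536), (8192, 49152, 65536)⟩) ⟨by decide +kernel, rfl, rfl⟩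
    (h₁ := (posOn_smul 16384 4096 8192 rfl (posOn_of_leaf okII0 leafII0_260)))
    (h₂ := (posOn_smul 4096 8192 8192 rfl (posOn_of_leaf okII0 leafII0_261)))

theorem nodeII0_254 : PosOn (matEx 9 offII0 16 MII0)
    ⟨(8192, 40960, 65536), (16384, 49152, 65536), (0, 49152, 65536)⟩ :=
  posOn_node 1 (A := ⟨(16384, 49152, 65536), (8192, 49152, 65536), (8192, 40960, 65536)⟩) (B := ⟨(8192, 49152, 65536), (0, 49152, 65536), (8192, 40960, 65536)⟩) ⟨by decide +kernel, rfl, rfl⟩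
    (h₁ := nodeII0_252)
    (h₂ := nodeII0_253)

theorem nodeII0_255 : PosOn (matEx 9 offII0 16 MII0)
    ⟨(0, 49152, 65536), (0, 32768, 65536), (16384, 49152, 65536)⟩ :=
  posOn_node 1 (A := ⟨(0, 32768, 65536), (8192, 40960, 65536), (0, 49152, 65536)⟩) (B := ⟨(8192, 40960, 65536), (16384, 49152, 65536), (0, 49152, 65536)⟩) ⟨by decide +kernel, rfl, rfl⟩
    (h₁ := nodeII0_251)
    (h₂ := nodeII0_254)

theorem nodeII0_256 : PosOn (matEx 9 offII0 16 MII0)
    ⟨(16384, 49152, 65536), (0, 65536, 65536), (0, 32768, 65536)⟩ :=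
  posOn_node 1 (A := ⟨(0, 65536, 65536), (0, 49152, 65536), (16384, 49152, 65536)⟩) (B := ⟨(0, 49152, 65536), (0, 32768, 65536), (16384, 49152, 65536)⟩) ⟨by decide +kernel, rfl, rfl⟩
    (h₁ := nodeII0_245)
    (h₂ := nodeII0_255)

theorem nodeII0_257 : PosOn (matEx 9 offII0 16 MII0)
    ⟨(0, 65536, 65536), (0, 32768, 65536), (32768, 32768, 65536)⟩ :=
  posOn_node 2 (A := ⟨(32768, 32768, 65536), (16384, 49152, 65536), (0, 32768, 65536)⟩) (B := ⟨(16384, 49152, 65536), (0, 65536, 65536), (0, 32768, 65536)⟩) ⟨by decide +kernel, rfl, rfl⟩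
    (h₁ := nodeII0_239)
    (h₂ := nodeII0_256)

theorem nodeII0_258 : PosOn (matEx 9 offII0 16 MII0)
    ⟨(4096, 20480, 65536), (0, 16384, 65536), (8192, 16384, 65536)⟩ :=
  posOn_node 1 (A := ⟨(0, 16384, 65536), (4096, 16384, 65536), (4096, 20480, 65536)⟩) (B := ⟨(4096, 16384, 65536), (8192, 16384, 65536), (4096, 20480, 65536)⟩) ⟨by decide +kernel, rfl, rfl⟩
    (h₁ := (posOn_smul 16384 4096 4096 rfl (posOn_of_leaf okII0 leafII0_263)))
    (h₂ := (posOn_smul 4096 8192 4096 rfl (posOn_of_leaf okII0 leafII0_264)))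

theorem nodeII0_259 : PosOn (matEx 9 offII0 16 MII0)
    ⟨(0, 16384, 65536), (8192, 16384, 65536), (8192, 24576, 65536)⟩ :=
  posOn_node 2 (A := ⟨(8192, 24576, 65536), (4096, 20480, 65536), (8192, 16384, 65536)⟩) (B := ⟨(4096, 20480, 65536), (0, 16384, 65536), (8192, 16384, 65536)⟩) ⟨by decide +kernel, rfl, rfl⟩
    (h₁ := (posOn_smul 8192 4096 8192 rfl (posOn_of_leaf okII0 leafII0_262)))
    (h₂ := nodeII0_258)

theorem nodeII0_260 : PosOn (matEx 9 offII0 16 MII0)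
    ⟨(16384, 16384, 65536), (12288, 20480, 65536), (8192, 16384, 65536)⟩ :=
  posOn_node 2 (A := ⟨(8192, 16384, 65536), (12288, 16384, 65536), (12288, 20480, 65536)⟩) (B := ⟨(12288, 16384, 65536), (16384, 16384, 65536), (12288, 20480, 65536)⟩) ⟨by decide +kernel, rfl, rfl⟩
    (h₁ := (posOn_smul 8192 4096 4096 rfl (posOn_of_leaf okII0 leafII0_265)))
    (h₂ := (posOn_smul 4096 16384 4096 rfl (posOn_of_leaf okII0 leafII0_266)))

theorem nodeII0_261 : PosOn (matEx 9 offII0 16 MII0)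
    ⟨(8192, 16384, 65536), (16384, 16384, 65536), (8192, 24576, 65536)⟩ :=
  posOn_node 1 (A := ⟨(16384, 16384, 65536), (12288, 20480, 65536), (8192, 16384, 65536)⟩) (B := ⟨(12288, 20480, 65536), (8192, 24576, 65536), (8192, 16384, 65536)⟩) ⟨by decide +kernel, rfl, rfl⟩
    (h₁ := nodeII0_260)
    (h₂ := (posOn_smul 4096 8192 8192 rfl (posOn_of_leaf okII0 leafII0_267)))

theorem nodeII0_262 : PosOn (matEx 9 offII0 16 MII0)
    ⟨(16384, 16384, 65536), (8192, 24576, 65536), (0, 16384, 65536)⟩ :=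
  posOn_node 2 (A := ⟨(0, 16384, 65536), (8192, 16384, 65536), (8192, 24576, 65536)⟩) (B := ⟨(8192, 16384, 65536), (16384, 16384, 65536), (8192, 24576, 65536)⟩) ⟨by decide +kernel, rfl, rfl⟩
    (h₁ := nodeII0_259)
    (h₂ := nodeII0_261)

theorem nodeII0_263 : PosOn (matEx 9 offII0 16 MII0)
    ⟨(0, 24576, 65536), (4096, 24576, 65536), (4096, 28672, 65536)⟩ :=
  posOn_node 2 (A := ⟨(4096, 28672, 65536), (2048, 26624, 65536), (4096, 24576, 65536)⟩) (B := ⟨(2048, 26624, 65536), (0, 24576, 65536), (4096, 24576, 65536)⟩) ⟨by decide +kernel, rfl, rfl⟩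
    (h₁ := (posOn_smul 4096 2048 4096 rfl (posOn_of_leaf okII0 leafII0_268)))
    (h₂ := (posOn_smul 2048 8192 4096 rfl (posOn_of_leaf okII0 leafII0_269)))

theorem nodeII0_264 : PosOn (matEx 9 offII0 16 MII0)
    ⟨(8192, 24576, 65536), (4096, 28672, 65536), (0, 24576, 65536)⟩ :=
  posOn_node 2 (A := ⟨(0, 24576, 65536), (4096, 24576, 65536), (4096, 28672, 65536)⟩) (B := ⟨(4096, 24576, 65536), (8192, 24576, 65536), (4096, 28672, 65536)⟩) ⟨by decide +kernel, rfl, rfl⟩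
    (h₁ := nodeII0_263)
    (h₂ := (posOn_smul 4096 8192 4096 rfl (posOn_of_leaf okII0 leafII0_270)))

theorem nodeII0_265 : PosOn (matEx 9 offII0 16 MII0)
    ⟨(4096, 28672, 65536), (2048, 30720, 65536), (0, 28672, 65536)⟩ :=
  posOn_node 2 (A := ⟨(0, 28672, 65536), (2048, 28672, 65536), (2048, 30720, 65536)⟩) (B := ⟨(2048, 28672, 65536), (4096, 28672, 65536), (2048, 30720, 65536)⟩) ⟨by decide +kernel, rfl, rfl⟩
    (h₁ := (posOn_smul 4096 2048 2048 rfl (posOn_of_leaf okII0 leafII0_271)))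
    (h₂ := (posOn_smul 2048 4096 2048 rfl (posOn_of_leaf okII0 leafII0_272)))

theorem nodeII0_266 : PosOn (matEx 9 offII0 16 MII0)
    ⟨(0, 32768, 65536), (0, 28672, 65536), (4096, 28672, 65536)⟩ :=
  posOn_node 2 (A := ⟨(4096, 28672, 65536), (2048, 30720, 65536), (0, 28672, 65536)⟩) (B := ⟨(2048, 30720, 65536), (0, 32768, 65536), (0, 28672, 65536)⟩) ⟨by decide +kernel, rfl, rfl⟩
    (h₁ := nodeII0_265)
    (h₂ := (posOn_smul 2048 32768 4096 rfl (posOn_of_leaf okII0 leafII0_273)))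

theorem nodeII0_267 : PosOn (matEx 9 offII0 16 MII0)
    ⟨(2048, 26624, 65536), (4096, 28672, 65536), (0, 28672, 65536)⟩ :=
  posOn_node 1 (A := ⟨(4096, 28672, 65536), (2048, 28672, 65536), (2048, 26624, 65536)⟩) (B := ⟨(2048, 28672, 65536), (0, 28672, 65536), (2048, 26624, 65536)⟩) ⟨by decide +kernel, rfl, rfl⟩
    (h₁ := (posOn_smul 4096 2048 2048 rfl (posOn_of_leaf okII0 leafII0_275)))
    (h₂ := (posOn_smul 2048 4096 2048 rfl (posOn_of_leaf okII0 leafII0_276)))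

theorem nodeII0_268 : PosOn (matEx 9 offII0 16 MII0)
    ⟨(0, 28672, 65536), (0, 24576, 65536), (4096, 28672, 65536)⟩ :=
  posOn_node 1 (A := ⟨(0, 24576, 65536), (2048, 26624, 65536), (0, 28672, 65536)⟩) (B := ⟨(2048, 26624, 65536), (4096, 28672, 65536), (0, 28672, 65536)⟩) ⟨by decide +kernel, rfl, rfl⟩
    (h₁ := (posOn_smul 8192 2048 4096 rfl (posOn_of_leaf okII0 leafII0_274)))
    (h₂ := nodeII0_267)

theorem nodeII0_269 : PosOn (matEx 9 offII0 16 MII0)
    ⟨(4096, 28672, 65536), (0, 32768, 65536), (0, 24576, 65536)⟩ :=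
  posOn_node 1 (A := ⟨(0, 32768, 65536), (0, 28672, 65536), (4096, 28672, 65536)⟩) (B := ⟨(0, 28672, 65536), (0, 24576, 65536), (4096, 28672, 65536)⟩) ⟨by decide +kernel, rfl, rfl⟩
    (h₁ := nodeII0_266)
    (h₂ := nodeII0_268)

theorem nodeII0_270 : PosOn (matEx 9 offII0 16 MII0)
    ⟨(0, 32768, 65536), (0, 24576, 65536), (8192, 24576, 65536)⟩ :=
  posOn_node 2 (A := ⟨(8192, 24576, 65536), (4096, 28672, 65536), (0, 24576, 65536)⟩) (B := ⟨(4096, 28672, 65536), (0, 32768, 65536), (0, 24576, 65536)⟩) ⟨by decide +kernel, rfl, rfl⟩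
    (h₁ := nodeII0_264)
    (h₂ := nodeII0_269)

theorem nodeII0_271 : PosOn (matEx 9 offII0 16 MII0)
    ⟨(0, 16384, 65536), (4096, 20480, 65536), (0, 24576, 65536)⟩ :=
  posOn_node 2 (A := ⟨(0, 24576, 65536), (0, 20480, 65536), (4096, 20480, 65536)⟩) (B := ⟨(0, 20480, 65536), (0, 16384, 65536), (4096, 20480, 65536)⟩) ⟨by decide +kernel, rfl, rfl⟩
    (h₁ := (posOn_smul 8192 4096 4096 rfl (posOn_of_leaf okII0 leafII0_277)))
    (h₂ := (posOn_smul 4096 16384 4096 rfl (posOn_of_leaf okII0 leafII0_278)))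

theorem nodeII0_272 : PosOn (matEx 9 offII0 16 MII0)
    ⟨(4096, 20480, 65536), (8192, 24576, 65536), (0, 24576, 65536)⟩ :=
  posOn_node 1 (A := ⟨(8192, 24576, 65536), (4096, 24576, 65536), (4096, 20480, 65536)⟩) (B := ⟨(4096, 24576, 65536), (0, 24576, 65536), (4096, 20480, 65536)⟩) ⟨by decide +kernel, rfl, rfl⟩
    (h₁ := (posOn_smul 8192 4096 4096 rfl (posOn_of_leaf okII0 leafII0_279)))
    (h₂ := (posOn_smul 4096 8192 4096 rfl (posOn_of_leaf okII0 leafII0_280)))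

theorem nodeII0_273 : PosOn (matEx 9 offII0 16 MII0)
    ⟨(0, 24576, 65536), (0, 16384, 65536), (8192, 24576, 65536)⟩ :=
  posOn_node 1 (A := ⟨(0, 16384, 65536), (4096, 20480, 65536), (0, 24576, 65536)⟩) (B := ⟨(4096, 20480, 65536), (8192, 24576, 65536), (0, 24576, 65536)⟩) ⟨by decide +kernel, rfl, rfl⟩
    (h₁ := nodeII0_271)
    (h₂ := nodeII0_272)

theorem nodeII0_274 : PosOn (matEx 9 offII0 16 MII0)
    ⟨(8192, 24576, 65536), (0, 32768, 65536), (0, 16384, 65536)⟩ :=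
  posOn_node 1 (A := ⟨(0, 32768, 65536), (0, 24576, 65536), (8192, 24576, 65536)⟩) (B := ⟨(0, 24576, 65536), (0, 16384, 65536), (8192, 24576, 65536)⟩) ⟨by decide +kernel, rfl, rfl⟩
    (h₁ := nodeII0_270)
    (h₂ := nodeII0_273)

theorem nodeII0_275 : PosOn (matEx 9 offII0 16 MII0)
    ⟨(0, 32768, 65536), (0, 16384, 65536), (16384, 16384, 65536)⟩ :=
  posOn_node 2 (A := ⟨(16384, 16384, 65536), (8192, 24576, 65536), (0, 16384, 65536)⟩) (B := ⟨(8192, 24576, 65536), (0, 32768, 65536), (0, 16384, 65536)⟩) ⟨by decide +kernel, rfl, rfl⟩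
    (h₁ := nodeII0_262)
    (h₂ := nodeII0_274)

theorem nodeII0_276 : PosOn (matEx 9 offII0 16 MII0)
    ⟨(8192, 8192, 65536), (4096, 12288, 65536), (0, 8192, 65536)⟩ :=
  posOn_node 2 (A := ⟨(0, 8192, 65536), (4096, 8192, 65536), (4096, 12288, 65536)⟩) (B := ⟨(4096, 8192, 65536), (8192, 8192, 65536), (4096, 12288, 65536)⟩) ⟨by decide +kernel, rfl, rfl⟩
    (h₁ := (posOn_smul 8192 4096 4096 rfl (posOn_of_leaf okII0 leafII0_281)))
    (h₂ := (posOn_smul 4096 8192 4096 rfl (posOn_of_leaf okII0 leafII0_282)))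

theorem nodeII0_277 : PosOn (matEx 9 offII0 16 MII0)
    ⟨(0, 16384, 65536), (0, 8192, 65536), (8192, 8192, 65536)⟩ :=
  posOn_node 2 (A := ⟨(8192, 8192, 65536), (4096, 12288, 65536), (0, 8192, 65536)⟩) (B := ⟨(4096, 12288, 65536), (0, 16384, 65536), (0, 8192, 65536)⟩) ⟨by decide +kernel, rfl, rfl⟩
    (h₁ := nodeII0_276)
    (h₂ := (posOn_smul 4096 16384 8192 rfl (posOn_of_leaf okII0 leafII0_283)))

theorem nodeII0_278 : PosOn (matEx 9 offII0 16 MII0)
    ⟨(4096, 4096, 65536), (8192, 8192, 65536), (0, 8192, 65536)⟩ :=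
  posOn_node 1 (A := ⟨(8192, 8192, 65536), (4096, 8192, 65536), (4096, 4096, 65536)⟩) (B := ⟨(4096, 8192, 65536), (0, 8192, 65536), (4096, 4096, 65536)⟩) ⟨by decide +kernel, rfl, rfl⟩
    (h₁ := (posOn_smul 8192 4096 4096 rfl (posOn_of_leaf okII0 leafII0_285)))
    (h₂ := (posOn_smul 4096 8192 4096 rfl (posOn_of_leaf okII0 leafII0_286)))

theorem nodeII0_279 : PosOn (matEx 9 offII0 16 MII0)
    ⟨(0, 8192, 65536), (0, 0, 65536), (8192, 8192, 65536)⟩ :=
  posOn_node 1 (A := ⟨(0, 0, 65536), (4096, 4096, 65536), (0, 8192, 65536)⟩) (B := ⟨(4096, 4096, 65536), (8192, 8192, 65536), (0, 8192, 65536)⟩) ⟨by decide +kernel, rfl, rfl⟩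
    (h₁ := (posOn_smul 65536 4096 8192 rfl (posOn_of_leaf okII0 leafII0_284)))
    (h₂ := nodeII0_278)

theorem nodeII0_280 : PosOn (matEx 9 offII0 16 MII0)
    ⟨(0, 0, 65536), (8192, 8192, 65536), (0, 16384, 65536)⟩ :=
  posOn_node 2 (A := ⟨(0, 16384, 65536), (0, 8192, 65536), (8192, 8192, 65536)⟩) (B := ⟨(0, 8192, 65536), (0, 0, 65536), (8192, 8192, 65536)⟩) ⟨by decide +kernel, rfl, rfl⟩
    (h₁ := nodeII0_277)
    (h₂ := nodeII0_279)

theorem nodeII0_281 : PosOn (matEx 9 offII0 16 MII0)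
    ⟨(12288, 12288, 65536), (16384, 16384, 65536), (8192, 16384, 65536)⟩ :=
  posOn_node 1 (A := ⟨(16384, 16384, 65536), (12288, 16384, 65536), (12288, 12288, 65536)⟩) (B := ⟨(12288, 16384, 65536), (8192, 16384, 65536), (12288, 12288, 65536)⟩) ⟨by decide +kernel, rfl, rfl⟩
    (h₁ := (posOn_smul 16384 4096 4096 rfl (posOn_of_leaf okII0 leafII0_288)))
    (h₂ := (posOn_smul 4096 8192 4096 rfl (posOn_of_leaf okII0 leafII0_289)))

theorem nodeII0_282 : PosOn (matEx 9 offII0 16 MII0)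
    ⟨(16384, 16384, 65536), (8192, 16384, 65536), (8192, 8192, 65536)⟩ :=
  posOn_node 2 (A := ⟨(8192, 8192, 65536), (12288, 12288, 65536), (8192, 16384, 65536)⟩) (B := ⟨(12288, 12288, 65536), (16384, 16384, 65536), (8192, 16384, 65536)⟩) ⟨by decide +kernel, rfl, rfl⟩
    (h₁ := (posOn_smul 8192 4096 8192 rfl (posOn_of_leaf okII0 leafII0_287)))
    (h₂ := nodeII0_281)

theorem nodeII0_283 : PosOn (matEx 9 offII0 16 MII0)
    ⟨(0, 16384, 65536), (4096, 12288, 65536), (8192, 16384, 65536)⟩ :=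
  posOn_node 2 (A := ⟨(8192, 16384, 65536), (4096, 16384, 65536), (4096, 12288, 65536)⟩) (B := ⟨(4096, 16384, 65536), (0, 16384, 65536), (4096, 12288, 65536)⟩) ⟨by decide +kernel, rfl, rfl⟩
    (h₁ := (posOn_smul 8192 4096 4096 rfl (posOn_of_leaf okII0 leafII0_290)))
    (h₂ := (posOn_smul 4096 16384 4096 rfl (posOn_of_leaf okII0 leafII0_291)))

theorem nodeII0_284 : PosOn (matEx 9 offII0 16 MII0)
    ⟨(8192, 16384, 65536), (0, 16384, 65536), (8192, 8192, 65536)⟩ :=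
  posOn_node 1 (A := ⟨(0, 16384, 65536), (4096, 12288, 65536), (8192, 16384, 65536)⟩) (B := ⟨(4096, 12288, 65536), (8192, 8192, 65536), (8192, 16384, 65536)⟩) ⟨by decide +kernel, rfl, rfl⟩
    (h₁ := nodeII0_283)
    (h₂ := (posOn_smul 4096 8192 8192 rfl (posOn_of_leaf okII0 leafII0_292)))

theorem nodeII0_285 : PosOn (matEx 9 offII0 16 MII0)
    ⟨(8192, 8192, 65536), (16384, 16384, 65536), (0, 16384, 65536)⟩ :=
  posOn_node 1 (A := ⟨(16384, 16384, 65536), (8192, 16384, 65536), (8192, 8192, 65536)⟩) (B := ⟨(8192, 16384, 65536), (0, 16384, 65536), (8192, 8192, 65536)⟩) ⟨by decide +kernel, rfl, rfl⟩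
    (h₁ := nodeII0_282)
    (h₂ := nodeII0_284)

theorem nodeII0_286 : PosOn (matEx 9 offII0 16 MII0)
    ⟨(0, 16384, 65536), (0, 0, 65536), (16384, 16384, 65536)⟩ :=
  posOn_node 1 (A := ⟨(0, 0, 65536), (8192, 8192, 65536), (0, 16384, 65536)⟩) (B := ⟨(8192, 8192, 65536), (16384, 16384, 65536), (0, 16384, 65536)⟩) ⟨by decide +kernel, rfl, rfl⟩
    (h₁ := nodeII0_280)
    (h₂ := nodeII0_285)

theorem nodeII0_287 : PosOn (matEx 9 offII0 16 MII0)
    ⟨(0, 0, 65536), (16384, 16384, 65536), (0, 32768, 65536)⟩ :=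
  posOn_node 2 (A := ⟨(0, 32768, 65536), (0, 16384, 65536), (16384, 16384, 65536)⟩) (B := ⟨(0, 16384, 65536), (0, 0, 65536), (16384, 16384, 65536)⟩) ⟨by decide +kernel, rfl, rfl⟩
    (h₁ := nodeII0_275)
    (h₂ := nodeII0_286)

theorem nodeII0_288 : PosOn (matEx 9 offII0 16 MII0)
    ⟨(24576, 24576, 65536), (20480, 28672, 65536), (16384, 24576, 65536)⟩ :=
  posOn_node 2 (A := ⟨(16384, 24576, 65536), (20480, 24576, 65536), (20480, 28672, 65536)⟩) (B := ⟨(20480, 24576, 65536), (24576, 24576, 65536), (20480, 28672, 65536)⟩) ⟨by decide +kernel, rfl, rfl⟩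
    (h₁ := (posOn_smul 8192 4096 4096 rfl (posOn_of_leaf okII0 leafII0_293)))
    (h₂ := (posOn_smul 4096 8192 4096 rfl (posOn_of_leaf okII0 leafII0_294)))

theorem nodeII0_289 : PosOn (matEx 9 offII0 16 MII0)
    ⟨(16384, 32768, 65536), (16384, 24576, 65536), (24576, 24576, 65536)⟩ :=
  posOn_node 2 (A := ⟨(24576, 24576, 65536), (20480, 28672, 65536), (16384, 24576, 65536)⟩) (B := ⟨(20480, 28672, 65536), (16384, 32768, 65536), (16384, 24576, 65536)⟩) ⟨by decide +kernel, rfl, rfl⟩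
    (h₁ := nodeII0_288)
    (h₂ := (posOn_smul 4096 16384 8192 rfl (posOn_of_leaf okII0 leafII0_295)))

theorem nodeII0_290 : PosOn (matEx 9 offII0 16 MII0)
    ⟨(20480, 20480, 65536), (24576, 24576, 65536), (16384, 24576, 65536)⟩ :=
  posOn_node 1 (A := ⟨(24576, 24576, 65536), (20480, 24576, 65536), (20480, 20480, 65536)⟩) (B := ⟨(20480, 24576, 65536), (16384, 24576, 65536), (20480, 20480, 65536)⟩) ⟨by decide +kernel, rfl, rfl⟩
    (h₁ := (posOn_smul 8192 4096 4096 rfl (posOn_of_leaf okII0 leafII0_297)))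
    (h₂ := (posOn_smul 4096 8192 4096 rfl (posOn_of_leaf okII0 leafII0_298)))

theorem nodeII0_291 : PosOn (matEx 9 offII0 16 MII0)
    ⟨(16384, 24576, 65536), (16384, 16384, 65536), (24576, 24576, 65536)⟩ :=
  posOn_node 1 (A := ⟨(16384, 16384, 65536), (20480, 20480, 65536), (16384, 24576, 65536)⟩) (B := ⟨(20480, 20480, 65536), (24576, 24576, 65536), (16384, 24576, 65536)⟩) ⟨by decide +kernel, rfl, rfl⟩
    (h₁ := (posOn_smul 16384 4096 8192 rfl (posOn_of_leaf okII0 leafII0_296)))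
    (h₂ := nodeII0_290)

theorem nodeII0_292 : PosOn (matEx 9 offII0 16 MII0)
    ⟨(16384, 16384, 65536), (24576, 24576, 65536), (16384, 32768, 65536)⟩ :=
  posOn_node 2 (A := ⟨(16384, 32768, 65536), (16384, 24576, 65536), (24576, 24576, 65536)⟩) (B := ⟨(16384, 24576, 65536), (16384, 16384, 65536), (24576, 24576, 65536)⟩) ⟨by decide +kernel, rfl, rfl⟩
    (h₁ := nodeII0_289)
    (h₂ := nodeII0_291)

theorem nodeII0_293 : PosOn (matEx 9 offII0 16 MII0)
    ⟨(24576, 32768, 65536), (16384, 32768, 65536), (24576, 24576, 65536)⟩ :=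
  posOn_node 1 (A := ⟨(16384, 32768, 65536), (20480, 28672, 65536), (24576, 32768, 65536)⟩) (B := ⟨(20480, 28672, 65536), (24576, 24576, 65536), (24576, 32768, 65536)⟩) ⟨by decide +kernel, rfl, rfl⟩
    (h₁ := (posOn_smul 16384 4096 8192 rfl (posOn_of_leaf okII0 leafII0_300)))
    (h₂ := (posOn_smul 4096 8192 8192 rfl (posOn_of_leaf okII0 leafII0_301)))

theorem nodeII0_294 : PosOn (matEx 9 offII0 16 MII0)
    ⟨(24576, 24576, 65536), (32768, 32768, 65536), (16384, 32768, 65536)⟩ :=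
  posOn_node 1 (A := ⟨(32768, 32768, 65536), (24576, 32768, 65536), (24576, 24576, 65536)⟩) (B := ⟨(24576, 32768, 65536), (16384, 32768, 65536), (24576, 24576, 65536)⟩) ⟨by decide +kernel, rfl, rfl⟩
    (h₁ := (posOn_smul 32768 8192 8192 rfl (posOn_of_leaf okII0 leafII0_299)))
    (h₂ := nodeII0_293)

theorem nodeII0_295 : PosOn (matEx 9 offII0 16 MII0)
    ⟨(32768, 32768, 65536), (16384, 32768, 65536), (16384, 16384, 65536)⟩ :=
  posOn_node 2 (A := ⟨(16384, 16384, 65536), (24576, 24576, 65536), (16384, 32768, 65536)⟩) (B := ⟨(24576, 24576, 65536), (32768, 32768, 65536), (16384, 32768, 65536)⟩) ⟨by decide +kernel, rfl, rfl⟩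
    (h₁ := nodeII0_292)
    (h₂ := nodeII0_294)

theorem nodeII0_296 : PosOn (matEx 9 offII0 16 MII0)
    ⟨(12288, 28672, 65536), (16384, 32768, 65536), (8192, 32768, 65536)⟩ :=
  posOn_node 1 (A := ⟨(16384, 32768, 65536), (12288, 32768, 65536), (12288, 28672, 65536)⟩) (B := ⟨(12288, 32768, 65536), (8192, 32768, 65536), (12288, 28672, 65536)⟩) ⟨by decide +kernel, rfl, rfl⟩
    (h₁ := (posOn_smul 16384 4096 4096 rfl (posOn_of_leaf okII0 leafII0_303)))
    (h₂ := (posOn_smul 4096 8192 4096 rfl (posOn_of_leaf okII0 leafII0_304)))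

theorem nodeII0_297 : PosOn (matEx 9 offII0 16 MII0)
    ⟨(16384, 32768, 65536), (8192, 32768, 65536), (8192, 24576, 65536)⟩ :=
  posOn_node 2 (A := ⟨(8192, 24576, 65536), (12288, 28672, 65536), (8192, 32768, 65536)⟩) (B := ⟨(12288, 28672, 65536), (16384, 32768, 65536), (8192, 32768, 65536)⟩) ⟨by decide +kernel, rfl, rfl⟩
    (h₁ := (posOn_smul 8192 4096 8192 rfl (posOn_of_leaf okII0 leafII0_302)))
    (h₂ := nodeII0_296)

theorem nodeII0_298 : PosOn (matEx 9 offII0 16 MII0)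
    ⟨(8192, 32768, 65536), (4096, 32768, 65536), (4096, 28672, 65536)⟩ :=
  posOn_node 2 (A := ⟨(4096, 28672, 65536), (6144, 30720, 65536), (4096, 32768, 65536)⟩) (B := ⟨(6144, 30720, 65536), (8192, 32768, 65536), (4096, 32768, 65536)⟩) ⟨by decide +kernel, rfl, rfl⟩
    (h₁ := (posOn_smul 4096 2048 4096 rfl (posOn_of_leaf okII0 leafII0_305)))
    (h₂ := (posOn_smul 2048 8192 4096 rfl (posOn_of_leaf okII0 leafII0_306)))

theorem nodeII0_299 : PosOn (matEx 9 offII0 16 MII0)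
    ⟨(4096, 32768, 65536), (0, 32768, 65536), (4096, 28672, 65536)⟩ :=
  posOn_node 1 (A := ⟨(0, 32768, 65536), (2048, 30720, 65536), (4096, 32768, 65536)⟩) (B := ⟨(2048, 30720, 65536), (4096, 28672, 65536), (4096, 32768, 65536)⟩) ⟨by decide +kernel, rfl, rfl⟩
    (h₁ := (posOn_smul 32768 2048 4096 rfl (posOn_of_leaf okII0 leafII0_307)))
    (h₂ := (posOn_smul 2048 4096 4096 rfl (posOn_of_leaf okII0 leafII0_308)))

theorem nodeII0_300 : PosOn (matEx 9 offII0 16 MII0)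
    ⟨(0, 32768, 65536), (4096, 28672, 65536), (8192, 32768, 65536)⟩ :=
  posOn_node 2 (A := ⟨(8192, 32768, 65536), (4096, 32768, 65536), (4096, 28672, 65536)⟩) (B := ⟨(4096, 32768, 65536), (0, 32768, 65536), (4096, 28672, 65536)⟩) ⟨by decide +kernel, rfl, rfl⟩
    (h₁ := nodeII0_298)
    (h₂ := nodeII0_299)

theorem nodeII0_301 : PosOn (matEx 9 offII0 16 MII0)
    ⟨(8192, 28672, 65536), (8192, 32768, 65536), (4096, 28672, 65536)⟩ :=
  posOn_node 1 (A := ⟨(8192, 32768, 65536), (6144, 30720, 65536), (8192, 28672, 65536)⟩) (B := ⟨(6144, 30720, 65536), (4096, 28672, 65536), (8192, 28672, 65536)⟩) ⟨by decide +kernel, rfl, rfl⟩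
    (h₁ := (posOn_smul 8192 2048 4096 rfl (posOn_of_leaf okII0 leafII0_310)))
    (h₂ := (posOn_smul 2048 4096 4096 rfl (posOn_of_leaf okII0 leafII0_311)))

theorem nodeII0_302 : PosOn (matEx 9 offII0 16 MII0)
    ⟨(4096, 28672, 65536), (8192, 24576, 65536), (8192, 32768, 65536)⟩ :=
  posOn_node 1 (A := ⟨(8192, 24576, 65536), (8192, 28672, 65536), (4096, 28672, 65536)⟩) (B := ⟨(8192, 28672, 65536), (8192, 32768, 65536), (4096, 28672, 65536)⟩) ⟨by decide +kernel, rfl, rfl⟩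
    (h₁ := (posOn_smul 8192 4096 4096 rfl (posOn_of_leaf okII0 leafII0_309)))
    (h₂ := nodeII0_301)

theorem nodeII0_303 : PosOn (matEx 9 offII0 16 MII0)
    ⟨(8192, 32768, 65536), (0, 32768, 65536), (8192, 24576, 65536)⟩ :=
  posOn_node 1 (A := ⟨(0, 32768, 65536), (4096, 28672, 65536), (8192, 32768, 65536)⟩) (B := ⟨(4096, 28672, 65536), (8192, 24576, 65536), (8192, 32768, 65536)⟩) ⟨by decide +kernel, rfl, rfl⟩
    (h₁ := nodeII0_300)
    (h₂ := nodeII0_302)

theorem nodeII0_304 : PosOn (matEx 9 offII0 16 MII0)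
    ⟨(0, 32768, 65536), (8192, 24576, 65536), (16384, 32768, 65536)⟩ :=
  posOn_node 2 (A := ⟨(16384, 32768, 65536), (8192, 32768, 65536), (8192, 24576, 65536)⟩) (B := ⟨(8192, 32768, 65536), (0, 32768, 65536), (8192, 24576, 65536)⟩) ⟨by decide +kernel, rfl, rfl⟩
    (h₁ := nodeII0_297)
    (h₂ := nodeII0_303)

theorem nodeII0_305 : PosOn (matEx 9 offII0 16 MII0)
    ⟨(8192, 24576, 65536), (12288, 20480, 65536), (16384, 24576, 65536)⟩ :=
  posOn_node 2 (A := ⟨(16384, 24576, 65536), (12288, 24576, 65536), (12288, 20480, 65536)⟩) (B := ⟨(12288, 24576, 65536), (8192, 24576, 65536), (12288, 20480, 65536)⟩) ⟨by decide +kernel, rfl, rfl⟩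
    (h₁ := (posOn_smul 8192 4096 4096 rfl (posOn_of_leaf okII0 leafII0_312)))
    (h₂ := (posOn_smul 4096 8192 4096 rfl (posOn_of_leaf okII0 leafII0_313)))

theorem nodeII0_306 : PosOn (matEx 9 offII0 16 MII0)
    ⟨(16384, 16384, 65536), (16384, 24576, 65536), (8192, 24576, 65536)⟩ :=
  posOn_node 2 (A := ⟨(8192, 24576, 65536), (12288, 20480, 65536), (16384, 24576, 65536)⟩) (B := ⟨(12288, 20480, 65536), (16384, 16384, 65536), (16384, 24576, 65536)⟩) ⟨by decide +kernel, rfl, rfl⟩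
    (h₁ := nodeII0_305)
    (h₂ := (posOn_smul 4096 16384 8192 rfl (posOn_of_leaf okII0 leafII0_314)))

theorem nodeII0_307 : PosOn (matEx 9 offII0 16 MII0)
    ⟨(12288, 28672, 65536), (8192, 24576, 65536), (16384, 24576, 65536)⟩ :=
  posOn_node 1 (A := ⟨(8192, 24576, 65536), (12288, 24576, 65536), (12288, 28672, 65536)⟩) (B := ⟨(12288, 24576, 65536), (16384, 24576, 65536), (12288, 28672, 65536)⟩) ⟨by decide +kernel, rfl, rfl⟩
    (h₁ := (posOn_smul 8192 4096 4096 rfl (posOn_of_leaf okII0 leafII0_316)))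
    (h₂ := (posOn_smul 4096 8192 4096 rfl (posOn_of_leaf okII0 leafII0_317)))

theorem nodeII0_308 : PosOn (matEx 9 offII0 16 MII0)
    ⟨(16384, 24576, 65536), (16384, 32768, 65536), (8192, 24576, 65536)⟩ :=
  posOn_node 1 (A := ⟨(16384, 32768, 65536), (12288, 28672, 65536), (16384, 24576, 65536)⟩) (B := ⟨(12288, 28672, 65536), (8192, 24576, 65536), (16384, 24576, 65536)⟩) ⟨by decide +kernel, rfl, rfl⟩
    (h₁ := (posOn_smul 16384 4096 8192 rfl (posOn_of_leaf okII0 leafII0_315)))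
    (h₂ := nodeII0_307)

theorem nodeII0_309 : PosOn (matEx 9 offII0 16 MII0)
    ⟨(8192, 24576, 65536), (16384, 16384, 65536), (16384, 32768, 65536)⟩ :=
  posOn_node 1 (A := ⟨(16384, 16384, 65536), (16384, 24576, 65536), (8192, 24576, 65536)⟩) (B := ⟨(16384, 24576, 65536), (16384, 32768, 65536), (8192, 24576, 65536)⟩) ⟨by decide +kernel, rfl, rfl⟩
    (h₁ := nodeII0_306)
    (h₂ := nodeII0_308)

theorem nodeII0_310 : PosOn (matEx 9 offII0 16 MII0)
    ⟨(16384, 32768, 65536), (0, 32768, 65536), (16384, 16384, 65536)⟩ :=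
  posOn_node 1 (A := ⟨(0, 32768, 65536), (8192, 24576, 65536), (16384, 32768, 65536)⟩) (B := ⟨(8192, 24576, 65536), (16384, 16384, 65536), (16384, 32768, 65536)⟩) ⟨by decide +kernel, rfl, rfl⟩
    (h₁ := nodeII0_304)
    (h₂ := nodeII0_309)

theorem nodeII0_311 : PosOn (matEx 9 offII0 16 MII0)
    ⟨(16384, 16384, 65536), (32768, 32768, 65536), (0, 32768, 65536)⟩ :=
  posOn_node 1 (A := ⟨(32768, 32768, 65536), (16384, 32768, 65536), (16384, 16384, 65536)⟩) (B := ⟨(16384, 32768, 65536), (0, 32768, 65536), (16384, 16384, 65536)⟩) ⟨by decide +kernel, rfl, rfl⟩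
    (h₁ := nodeII0_295)
    (h₂ := nodeII0_310)

theorem nodeII0_312 : PosOn (matEx 9 offII0 16 MII0)
    ⟨(0, 32768, 65536), (0, 0, 65536), (32768, 32768, 65536)⟩ :=
  posOn_node 1 (A := ⟨(0, 0, 65536), (16384, 16384, 65536), (0, 32768, 65536)⟩) (B := ⟨(16384, 16384, 65536), (32768, 32768, 65536), (0, 32768, 65536)⟩) ⟨by decide +kernel, rfl, rfl⟩
    (h₁ := nodeII0_287)
    (h₂ := nodeII0_311)

theorem nodeII0_313 : PosOn (matEx 9 offII0 16 MII0)
    ⟨(32768, 32768, 65536), (0, 65536, 65536), (0, 0, 65536)⟩ :=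
  posOn_node 1 (A := ⟨(0, 65536, 65536), (0, 32768, 65536), (32768, 32768, 65536)⟩) (B := ⟨(0, 32768, 65536), (0, 0, 65536), (32768, 32768, 65536)⟩) ⟨by decide +kernel, rfl, rfl⟩
    (h₁ := nodeII0_257)
    (h₂ := nodeII0_312)

theorem nodeII0_314 : PosOn (matEx 9 offII0 16 MII0)
    ⟨(0, 0, 65536), (65536, 0, 65536), (0, 65536, 65536)⟩ :=
  posOn_node 1 (A := ⟨(65536, 0, 65536), (32768, 32768, 65536), (0, 0, 65536)⟩) (B := ⟨(32768, 32768, 65536), (0, 65536, 65536), (0, 0, 65536)⟩) ⟨by decide +kernel, rfl, rfl⟩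
    (h₁ := nodeII0_215)
    (h₂ := nodeII0_313)

theorem nodeII0_315 : PosOn (matEx 9 offII0 16 MII0)
    ⟨(32768, 65536, 65536), (32768, 57344, 65536), (40960, 57344, 65536)⟩ :=
  posOn_node 2 (A := ⟨(40960, 57344, 65536), (36864, 61440, 65536), (32768, 57344, 65536)⟩) (B := ⟨(36864, 61440, 65536), (32768, 65536, 65536), (32768, 57344, 65536)⟩) ⟨by decide +kernel, rfl, rfl⟩
    (h₁ := (posOn_smul 8192 4096 8192 rfl (posOn_of_leaf okII0 leafII0_319)))
    (h₂ := (posOn_smul 4096 32768 8192 rfl (posOn_of_leaf okII0 leafII0_320)))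

theorem nodeII0_316 : PosOn (matEx 9 offII0 16 MII0)
    ⟨(40960, 57344, 65536), (32768, 65536, 65536), (32768, 49152, 65536)⟩ :=
  posOn_node 1 (A := ⟨(32768, 65536, 65536), (32768, 57344, 65536), (40960, 57344, 65536)⟩) (B := ⟨(32768, 57344, 65536), (32768, 49152, 65536), (40960, 57344, 65536)⟩) ⟨by decide +kernel, rfl, rfl⟩
    (h₁ := nodeII0_315)
    (h₂ := (posOn_smul 8192 16384 8192 rfl (posOn_of_leaf okII0 leafII0_321)))

theorem nodeII0_317 : PosOn (matEx 9 offII0 16 MII0)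
    ⟨(32768, 65536, 65536), (32768, 49152, 65536), (49152, 49152, 65536)⟩ :=
  posOn_node 2 (A := ⟨(49152, 49152, 65536), (40960, 57344, 65536), (32768, 49152, 65536)⟩) (B := ⟨(40960, 57344, 65536), (32768, 65536, 65536), (32768, 49152, 65536)⟩) ⟨by decide +kernel, rfl, rfl⟩
    (h₁ := (posOn_smul 16384 8192 16384 rfl (posOn_of_leaf okII0 leafII0_318)))
    (h₂ := nodeII0_316)

theorem nodeII0_318 : PosOn (matEx 9 offII0 16 MII0)
    ⟨(32768, 49152, 65536), (32768, 32768, 65536), (49152, 49152, 65536)⟩ :=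
  posOn_node 1 (A := ⟨(32768, 32768, 65536), (40960, 40960, 65536), (32768, 49152, 65536)⟩) (B := ⟨(40960, 40960, 65536), (49152, 49152, 65536), (32768, 49152, 65536)⟩) ⟨by decide +kernel, rfl, rfl⟩
    (h₁ := (posOn_smul 32768 8192 16384 rfl (posOn_of_leaf okII0 leafII0_322)))
    (h₂ := (posOn_smul 8192 16384 16384 rfl (posOn_of_leaf okII0 leafII0_323)))

theorem nodeII0_319 : PosOn (matEx 9 offII0 16 MII0)
    ⟨(32768, 32768, 65536), (49152, 49152, 65536), (32768, 65536, 65536)⟩ :=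
  posOn_node 2 (A := ⟨(32768, 65536, 65536), (32768, 49152, 65536), (49152, 49152, 65536)⟩) (B := ⟨(32768, 49152, 65536), (32768, 32768, 65536), (49152, 49152, 65536)⟩) ⟨by decide +kernel, rfl, rfl⟩
    (h₁ := nodeII0_317)
    (h₂ := nodeII0_318)

theorem nodeII0_320 : PosOn (matEx 9 offII0 16 MII0)
    ⟨(65536, 65536, 65536), (49152, 65536, 65536), (49152, 49152, 65536)⟩ :=
  posOn_node 2 (A := ⟨(49152, 49152, 65536), (57344, 57344, 65536), (49152, 65536, 65536)⟩) (B := ⟨(57344, 57344, 65536), (65536, 65536, 65536), (49152, 65536, 65536)⟩) ⟨by decide +kernel, rfl, rfl⟩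
    (h₁ := (posOn_smul 16384 8192 16384 rfl (posOn_of_leaf okII0 leafII0_324)))
    (h₂ := (posOn_smul 8192 65536 16384 rfl (posOn_of_leaf okII0 leafII0_325)))

theorem nodeII0_321 : PosOn (matEx 9 offII0 16 MII0)
    ⟨(40960, 65536, 65536), (32768, 65536, 65536), (40960, 57344, 65536)⟩ :=
  posOn_node 1 (A := ⟨(32768, 65536, 65536), (36864, 61440, 65536), (40960, 65536, 65536)⟩) (B := ⟨(36864, 61440, 65536), (40960, 57344, 65536), (40960, 65536, 65536)⟩) ⟨by decide +kernel, rfl, rfl⟩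
    (h₁ := (posOn_smul 32768 4096 8192 rfl (posOn_of_leaf okII0 leafII0_327)))
    (h₂ := (posOn_smul 4096 8192 8192 rfl (posOn_of_leaf okII0 leafII0_328)))

theorem nodeII0_322 : PosOn (matEx 9 offII0 16 MII0)
    ⟨(32768, 65536, 65536), (40960, 57344, 65536), (49152, 65536, 65536)⟩ :=
  posOn_node 2 (A := ⟨(49152, 65536, 65536), (40960, 65536, 65536), (40960, 57344, 65536)⟩) (B := ⟨(40960, 65536, 65536), (32768, 65536, 65536), (40960, 57344, 65536)⟩) ⟨by decide +kernel, rfl, rfl⟩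
    (h₁ := (posOn_smul 16384 8192 8192 rfl (posOn_of_leaf okII0 leafII0_326)))
    (h₂ := nodeII0_321)

theorem nodeII0_323 : PosOn (matEx 9 offII0 16 MII0)
    ⟨(49152, 65536, 65536), (32768, 65536, 65536), (49152, 49152, 65536)⟩ :=
  posOn_node 1 (A := ⟨(32768, 65536, 65536), (40960, 57344, 65536), (49152, 65536, 65536)⟩) (B := ⟨(40960, 57344, 65536), (49152, 49152, 65536), (49152, 65536, 65536)⟩) ⟨by decide +kernel, rfl, rfl⟩
    (h₁ := nodeII0_322)
    (h₂ := (posOn_smul 8192 16384 16384 rfl (posOn_of_leaf okII0 leafII0_329)))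

theorem nodeII0_324 : PosOn (matEx 9 offII0 16 MII0)
    ⟨(49152, 49152, 65536), (65536, 65536, 65536), (32768, 65536, 65536)⟩ :=
  posOn_node 1 (A := ⟨(65536, 65536, 65536), (49152, 65536, 65536), (49152, 49152, 65536)⟩) (B := ⟨(49152, 65536, 65536), (32768, 65536, 65536), (49152, 49152, 65536)⟩) ⟨by decide +kernel, rfl, rfl⟩
    (h₁ := nodeII0_320)
    (h₂ := nodeII0_323)

theorem nodeII0_325 : PosOn (matEx 9 offII0 16 MII0)
    ⟨(65536, 65536, 65536), (32768, 65536, 65536), (32768, 32768, 65536)⟩ :=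
  posOn_node 2 (A := ⟨(32768, 32768, 65536), (49152, 49152, 65536), (32768, 65536, 65536)⟩) (B := ⟨(49152, 49152, 65536), (65536, 65536, 65536), (32768, 65536, 65536)⟩) ⟨by decide +kernel, rfl, rfl⟩
    (h₁ := nodeII0_319)
    (h₂ := nodeII0_324)

theorem nodeII0_326 : PosOn (matEx 9 offII0 16 MII0)
    ⟨(16384, 49152, 65536), (24576, 57344, 65536), (16384, 65536, 65536)⟩ :=
  posOn_node 2 (A := ⟨(16384, 65536, 65536), (16384, 57344, 65536), (24576, 57344, 65536)⟩) (B := ⟨(16384, 57344, 65536), (16384, 49152, 65536), (24576, 57344, 65536)⟩) ⟨by decide +kernel, rfl, rfl⟩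
    (h₁ := (posOn_smul 16384 8192 8192 rfl (posOn_of_leaf okII0 leafII0_330)))
    (h₂ := (posOn_smul 8192 16384 8192 rfl (posOn_of_leaf okII0 leafII0_331)))

theorem nodeII0_327 : PosOn (matEx 9 offII0 16 MII0)
    ⟨(24576, 57344, 65536), (32768, 65536, 65536), (16384, 65536, 65536)⟩ :=
  posOn_node 1 (A := ⟨(32768, 65536, 65536), (24576, 65536, 65536), (24576, 57344, 65536)⟩) (B := ⟨(24576, 65536, 65536), (16384, 65536, 65536), (24576, 57344, 65536)⟩) ⟨by decide +kernel, rfl, rfl⟩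
    (h₁ := (posOn_smul 32768 8192 8192 rfl (posOn_of_leaf okII0 leafII0_332)))
    (h₂ := (posOn_smul 8192 16384 8192 rfl (posOn_of_leaf okII0 leafII0_333)))

theorem nodeII0_328 : PosOn (matEx 9 offII0 16 MII0)
    ⟨(32768, 65536, 65536), (16384, 65536, 65536), (16384, 49152, 65536)⟩ :=
  posOn_node 2 (A := ⟨(16384, 49152, 65536), (24576, 57344, 65536), (16384, 65536, 65536)⟩) (B := ⟨(24576, 57344, 65536), (32768, 65536, 65536), (16384, 65536, 65536)⟩) ⟨by decide +kernel, rfl, rfl⟩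
    (h₁ := nodeII0_326)
    (h₂ := nodeII0_327)

theorem nodeII0_329 : PosOn (matEx 9 offII0 16 MII0)
    ⟨(16384, 65536, 65536), (8192, 65536, 65536), (8192, 57344, 65536)⟩ :=
  posOn_node 2 (A := ⟨(8192, 57344, 65536), (12288, 61440, 65536), (8192, 65536, 65536)⟩) (B := ⟨(12288, 61440, 65536), (16384, 65536, 65536), (8192, 65536, 65536)⟩) ⟨by decide +kernel, rfl, rfl⟩
    (h₁ := (posOn_smul 8192 4096 8192 rfl (posOn_of_leaf okII0 leafII0_334)))
    (h₂ := (posOn_smul 4096 16384 8192 rfl (posOn_of_leaf okII0 leafII0_335)))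

theorem nodeII0_330 : PosOn (matEx 9 offII0 16 MII0)
    ⟨(0, 65536, 65536), (8192, 57344, 65536), (16384, 65536, 65536)⟩ :=
  posOn_node 2 (A := ⟨(16384, 65536, 65536), (8192, 65536, 65536), (8192, 57344, 65536)⟩) (B := ⟨(8192, 65536, 65536), (0, 65536, 65536), (8192, 57344, 65536)⟩) ⟨by decide +kernel, rfl, rfl⟩
    (h₁ := nodeII0_329)
    (h₂ := (posOn_smul 8192 65536 8192 rfl (posOn_of_leaf okII0 leafII0_336)))

theorem nodeII0_331 : PosOn (matEx 9 offII0 16 MII0)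
    ⟨(16384, 49152, 65536), (16384, 57344, 65536), (8192, 57344, 65536)⟩ :=
  posOn_node 2 (A := ⟨(8192, 57344, 65536), (12288, 53248, 65536), (16384, 57344, 65536)⟩) (B := ⟨(12288, 53248, 65536), (16384, 49152, 65536), (16384, 57344, 65536)⟩) ⟨by decide +kernel, rfl, rfl⟩
    (h₁ := (posOn_smul 8192 4096 8192 rfl (posOn_of_leaf okII0 leafII0_337)))
    (h₂ := (posOn_smul 4096 16384 8192 rfl (posOn_of_leaf okII0 leafII0_338)))

theorem nodeII0_332 : PosOn (matEx 9 offII0 16 MII0)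
    ⟨(16384, 57344, 65536), (16384, 65536, 65536), (8192, 57344, 65536)⟩ :=
  posOn_node 1 (A := ⟨(16384, 65536, 65536), (12288, 61440, 65536), (16384, 57344, 65536)⟩) (B := ⟨(12288, 61440, 65536), (8192, 57344, 65536), (16384, 57344, 65536)⟩) ⟨by decide +kernel, rfl, rfl⟩
    (h₁ := (posOn_smul 16384 4096 8192 rfl (posOn_of_leaf okII0 leafII0_339)))
    (h₂ := (posOn_smul 4096 8192 8192 rfl (posOn_of_leaf okII0 leafII0_340)))

theorem nodeII0_333 : PosOn (matEx 9 offII0 16 MII0)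
    ⟨(8192, 57344, 65536), (16384, 49152, 65536), (16384, 65536, 65536)⟩ :=
  posOn_node 1 (A := ⟨(16384, 49152, 65536), (16384, 57344, 65536), (8192, 57344, 65536)⟩) (B := ⟨(16384, 57344, 65536), (16384, 65536, 65536), (8192, 57344, 65536)⟩) ⟨by decide +kernel, rfl, rfl⟩
    (h₁ := nodeII0_331)
    (h₂ := nodeII0_332)

theorem nodeII0_334 : PosOn (matEx 9 offII0 16 MII0)
    ⟨(16384, 65536, 65536), (0, 65536, 65536), (16384, 49152, 65536)⟩ :=
  posOn_node 1 (A := ⟨(0, 65536, 65536), (8192, 57344, 65536), (16384, 65536, 65536)⟩) (B := ⟨(8192, 57344, 65536), (16384, 49152, 65536), (16384, 65536, 65536)⟩) ⟨by decide +kernel, rfl, rfl⟩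
    (h₁ := nodeII0_330)
    (h₂ := nodeII0_333)

theorem nodeII0_335 : PosOn (matEx 9 offII0 16 MII0)
    ⟨(0, 65536, 65536), (16384, 49152, 65536), (32768, 65536, 65536)⟩ :=
  posOn_node 2 (A := ⟨(32768, 65536, 65536), (16384, 65536, 65536), (16384, 49152, 65536)⟩) (B := ⟨(16384, 65536, 65536), (0, 65536, 65536), (16384, 49152, 65536)⟩) ⟨by decide +kernel, rfl, rfl⟩
    (h₁ := nodeII0_328)
    (h₂ := nodeII0_334)

theorem nodeII0_336 : PosOn (matEx 9 offII0 16 MII0)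
    ⟨(16384, 49152, 65536), (20480, 45056, 65536), (24576, 49152, 65536)⟩ :=
  posOn_node 2 (A := ⟨(24576, 49152, 65536), (20480, 49152, 65536), (20480, 45056, 65536)⟩) (B := ⟨(20480, 49152, 65536), (16384, 49152, 65536), (20480, 45056, 65536)⟩) ⟨by decide +kernel, rfl, rfl⟩
    (h₁ := (posOn_smul 8192 4096 4096 rfl (posOn_of_leaf okII0 leafII0_342)))
    (h₂ := (posOn_smul 4096 16384 4096 rfl (posOn_of_leaf okII0 leafII0_343)))

theorem nodeII0_337 : PosOn (matEx 9 offII0 16 MII0)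
    ⟨(24576, 49152, 65536), (16384, 49152, 65536), (24576, 40960, 65536)⟩ :=
  posOn_node 1 (A := ⟨(16384, 49152, 65536), (20480, 45056, 65536), (24576, 49152, 65536)⟩) (B := ⟨(20480, 45056, 65536), (24576, 40960, 65536), (24576, 49152, 65536)⟩) ⟨by decide +kernel, rfl, rfl⟩
    (h₁ := nodeII0_336)
    (h₂ := (posOn_smul 4096 8192 8192 rfl (posOn_of_leaf okII0 leafII0_344)))

theorem nodeII0_338 : PosOn (matEx 9 offII0 16 MII0)
    ⟨(16384, 49152, 65536), (24576, 40960, 65536), (32768, 49152, 65536)⟩ :=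
  posOn_node 2 (A := ⟨(32768, 49152, 65536), (24576, 49152, 65536), (24576, 40960, 65536)⟩) (B := ⟨(24576, 49152, 65536), (16384, 49152, 65536), (24576, 40960, 65536)⟩) ⟨by decide +kernel, rfl, rfl⟩
    (h₁ := (posOn_smul 16384 8192 8192 rfl (posOn_of_leaf okII0 leafII0_341)))
    (h₂ := nodeII0_337)

theorem nodeII0_339 : PosOn (matEx 9 offII0 16 MII0)
    ⟨(32768, 32768, 65536), (32768, 49152, 65536), (16384, 49152, 65536)⟩ :=
  posOn_node 2 (A := ⟨(16384, 49152, 65536), (24576, 40960, 65536), (32768, 49152, 65536)⟩) (B := ⟨(24576, 40960, 65536), (32768, 32768, 65536), (32768, 49152, 65536)⟩) ⟨by decide +kernel, rfl, rfl⟩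
    (h₁ := nodeII0_338)
    (h₂ := (posOn_smul 8192 32768 16384 rfl (posOn_of_leaf okII0 leafII0_345)))

theorem nodeII0_340 : PosOn (matEx 9 offII0 16 MII0)
    ⟨(24576, 57344, 65536), (28672, 53248, 65536), (32768, 57344, 65536)⟩ :=
  posOn_node 2 (A := ⟨(32768, 57344, 65536), (28672, 57344, 65536), (28672, 53248, 65536)⟩) (B := ⟨(28672, 57344, 65536), (24576, 57344, 65536), (28672, 53248, 65536)⟩) ⟨by decide +kernel, rfl, rfl⟩
    (h₁ := (posOn_smul 8192 4096 4096 rfl (posOn_of_leaf okII0 leafII0_346)))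
    (h₂ := (posOn_smul 4096 8192 4096 rfl (posOn_of_leaf okII0 leafII0_347)))

theorem nodeII0_341 : PosOn (matEx 9 offII0 16 MII0)
    ⟨(32768, 49152, 65536), (32768, 57344, 65536), (24576, 57344, 65536)⟩ :=
  posOn_node 2 (A := ⟨(24576, 57344, 65536), (28672, 53248, 65536), (32768, 57344, 65536)⟩) (B := ⟨(28672, 53248, 65536), (32768, 49152, 65536), (32768, 57344, 65536)⟩) ⟨by decide +kernel, rfl, rfl⟩
    (h₁ := nodeII0_340)
    (h₂ := (posOn_smul 4096 16384 8192 rfl (posOn_of_leaf okII0 leafII0_348)))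

theorem nodeII0_342 : PosOn (matEx 9 offII0 16 MII0)
    ⟨(28672, 61440, 65536), (24576, 57344, 65536), (32768, 57344, 65536)⟩ :=
  posOn_node 1 (A := ⟨(24576, 57344, 65536), (28672, 57344, 65536), (28672, 61440, 65536)⟩) (B := ⟨(28672, 57344, 65536), (32768, 57344, 65536), (28672, 61440, 65536)⟩) ⟨by decide +kernel, rfl, rfl⟩
    (h₁ := (posOn_smul 8192 4096 4096 rfl (posOn_of_leaf okII0 leafII0_350)))
    (h₂ := (posOn_smul 4096 8192 4096 rfl (posOn_of_leaf okII0 leafII0_351)))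

theorem nodeII0_343 : PosOn (matEx 9 offII0 16 MII0)
    ⟨(32768, 57344, 65536), (32768, 65536, 65536), (24576, 57344, 65536)⟩ :=
  posOn_node 1 (A := ⟨(32768, 65536, 65536), (28672, 61440, 65536), (32768, 57344, 65536)⟩) (B := ⟨(28672, 61440, 65536), (24576, 57344, 65536), (32768, 57344, 65536)⟩) ⟨by decide +kernel, rfl, rfl⟩
    (h₁ := (posOn_smul 32768 4096 8192 rfl (posOn_of_leaf okII0 leafII0_349)))
    (h₂ := nodeII0_342)

theorem nodeII0_344 : PosOn (matEx 9 offII0 16 MII0)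
    ⟨(32768, 65536, 65536), (24576, 57344, 65536), (32768, 49152, 65536)⟩ :=
  posOn_node 2 (A := ⟨(32768, 49152, 65536), (32768, 57344, 65536), (24576, 57344, 65536)⟩) (B := ⟨(32768, 57344, 65536), (32768, 65536, 65536), (24576, 57344, 65536)⟩) ⟨by decide +kernel, rfl, rfl⟩
    (h₁ := nodeII0_341)
    (h₂ := nodeII0_343)

theorem nodeII0_345 : PosOn (matEx 9 offII0 16 MII0)
    ⟨(20480, 53248, 65536), (16384, 49152, 65536), (24576, 49152, 65536)⟩ :=
  posOn_node 1 (A := ⟨(16384, 49152, 65536), (20480, 49152, 65536), (20480, 53248, 65536)⟩) (B := ⟨(20480, 49152, 65536), (24576, 49152, 65536), (20480, 53248, 65536)⟩) ⟨by decide +kernel, rfl, rfl⟩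
    (h₁ := (posOn_smul 16384 4096 4096 rfl (posOn_of_leaf okII0 leafII0_353)))
    (h₂ := (posOn_smul 4096 8192 4096 rfl (posOn_of_leaf okII0 leafII0_354)))

theorem nodeII0_346 : PosOn (matEx 9 offII0 16 MII0)
    ⟨(16384, 49152, 65536), (24576, 49152, 65536), (24576, 57344, 65536)⟩ :=
  posOn_node 2 (A := ⟨(24576, 57344, 65536), (20480, 53248, 65536), (24576, 49152, 65536)⟩) (B := ⟨(20480, 53248, 65536), (16384, 49152, 65536), (24576, 49152, 65536)⟩) ⟨by decide +kernel, rfl, rfl⟩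
    (h₁ := (posOn_smul 8192 4096 8192 rfl (posOn_of_leaf okII0 leafII0_352)))
    (h₂ := nodeII0_345)

theorem nodeII0_347 : PosOn (matEx 9 offII0 16 MII0)
    ⟨(24576, 49152, 65536), (32768, 49152, 65536), (24576, 57344, 65536)⟩ :=
  posOn_node 1 (A := ⟨(32768, 49152, 65536), (28672, 53248, 65536), (24576, 49152, 65536)⟩) (B := ⟨(28672, 53248, 65536), (24576, 57344, 65536), (24576, 49152, 65536)⟩) ⟨by decide +kernel, rfl, rfl⟩
    (h₁ := (posOn_smul 16384 4096 8192 rfl (posOn_of_leaf okII0 leafII0_355)))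
    (h₂ := (posOn_smul 4096 8192 8192 rfl (posOn_of_leaf okII0 leafII0_356)))

theorem nodeII0_348 : PosOn (matEx 9 offII0 16 MII0)
    ⟨(24576, 57344, 65536), (16384, 49152, 65536), (32768, 49152, 65536)⟩ :=
  posOn_node 1 (A := ⟨(16384, 49152, 65536), (24576, 49152, 65536), (24576, 57344, 65536)⟩) (B := ⟨(24576, 49152, 65536), (32768, 49152, 65536), (24576, 57344, 65536)⟩) ⟨by decide +kernel, rfl, rfl⟩
    (h₁ := nodeII0_346)
    (h₂ := nodeII0_347)

theorem nodeII0_349 : PosOn (matEx 9 offII0 16 MII0)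
    ⟨(32768, 49152, 65536), (32768, 65536, 65536), (16384, 49152, 65536)⟩ :=
  posOn_node 1 (A := ⟨(32768, 65536, 65536), (24576, 57344, 65536), (32768, 49152, 65536)⟩) (B := ⟨(24576, 57344, 65536), (16384, 49152, 65536), (32768, 49152, 65536)⟩) ⟨by decide +kernel, rfl, rfl⟩
    (h₁ := nodeII0_344)
    (h₂ := nodeII0_348)

theorem nodeII0_350 : PosOn (matEx 9 offII0 16 MII0)
    ⟨(16384, 49152, 65536), (32768, 32768, 65536), (32768, 65536, 65536)⟩ :=
  posOn_node 1 (A := ⟨(32768, 32768, 65536), (32768, 49152, 65536), (16384, 49152, 65536)⟩) (B := ⟨(32768, 49152, 65536), (32768, 65536, 65536), (16384, 49152, 65536)⟩) ⟨by decide +kernel, rfl, rfl⟩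
    (h₁ := nodeII0_339)
    (h₂ := nodeII0_349)

theorem nodeII0_351 : PosOn (matEx 9 offII0 16 MII0)
    ⟨(32768, 65536, 65536), (0, 65536, 65536), (32768, 32768, 65536)⟩ :=
  posOn_node 1 (A := ⟨(0, 65536, 65536), (16384, 49152, 65536), (32768, 65536, 65536)⟩) (B := ⟨(16384, 49152, 65536), (32768, 32768, 65536), (32768, 65536, 65536)⟩) ⟨by decide +kernel, rfl, rfl⟩
    (h₁ := nodeII0_335)
    (h₂ := nodeII0_350)

theorem nodeII0_352 : PosOn (matEx 9 offII0 16 MII0)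
    ⟨(0, 65536, 65536), (32768, 32768, 65536), (65536, 65536, 65536)⟩ :=
  posOn_node 2 (A := ⟨(65536, 65536, 65536), (32768, 65536, 65536), (32768, 32768, 65536)⟩) (B := ⟨(32768, 65536, 65536), (0, 65536, 65536), (32768, 32768, 65536)⟩) ⟨by decide +kernel, rfl, rfl⟩
    (h₁ := nodeII0_325)
    (h₂ := nodeII0_351)

theorem nodeII0_353 : PosOn (matEx 9 offII0 16 MII0)
    ⟨(49152, 24576, 65536), (53248, 24576, 65536), (53248, 28672, 65536)⟩ :=
  posOn_node 2 (A := ⟨(53248, 28672, 65536), (51200, 26624, 65536), (53248, 24576, 65536)⟩) (B := ⟨(51200, 26624, 65536), (49152, 24576, 65536), (53248, 24576, 65536)⟩) ⟨by decide +kernel, rfl, rfl⟩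
    (h₁ := (posOn_smul 4096 2048 4096 rfl (posOn_of_leaf okII0 leafII0_357)))
    (h₂ := (posOn_smul 2048 8192 4096 rfl (posOn_of_leaf okII0 leafII0_358)))

theorem nodeII0_354 : PosOn (matEx 9 offII0 16 MII0)
    ⟨(57344, 24576, 65536), (53248, 28672, 65536), (49152, 24576, 65536)⟩ :=
  posOn_node 2 (A := ⟨(49152, 24576, 65536), (53248, 24576, 65536), (53248, 28672, 65536)⟩) (B := ⟨(53248, 24576, 65536), (57344, 24576, 65536), (53248, 28672, 65536)⟩) ⟨by decide +kernel, rfl, rfl⟩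
    (h₁ := nodeII0_353)
    (h₂ := (posOn_smul 4096 8192 4096 rfl (posOn_of_leaf okII0 leafII0_359)))

theorem nodeII0_355 : PosOn (matEx 9 offII0 16 MII0)
    ⟨(49152, 28672, 65536), (49152, 24576, 65536), (53248, 28672, 65536)⟩ :=
  posOn_node 1 (A := ⟨(49152, 24576, 65536), (51200, 26624, 65536), (49152, 28672, 65536)⟩) (B := ⟨(51200, 26624, 65536), (53248, 28672, 65536), (49152, 28672, 65536)⟩) ⟨by decide +kernel, rfl, rfl⟩
    (h₁ := (posOn_smul 8192 2048 4096 rfl (posOn_of_leaf okII0 leafII0_361)))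
    (h₂ := (posOn_smul 2048 4096 4096 rfl (posOn_of_leaf okII0 leafII0_362)))

theorem nodeII0_356 : PosOn (matEx 9 offII0 16 MII0)
    ⟨(53248, 28672, 65536), (49152, 32768, 65536), (49152, 24576, 65536)⟩ :=
  posOn_node 1 (A := ⟨(49152, 32768, 65536), (49152, 28672, 65536), (53248, 28672, 65536)⟩) (B := ⟨(49152, 28672, 65536), (49152, 24576, 65536), (53248, 28672, 65536)⟩) ⟨by decide +kernel, rfl, rfl⟩
    (h₁ := (posOn_smul 16384 4096 4096 rfl (posOn_of_leaf okII0 leafII0_360)))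
    (h₂ := nodeII0_355)

theorem nodeII0_357 : PosOn (matEx 9 offII0 16 MII0)
    ⟨(49152, 32768, 65536), (49152, 24576, 65536), (57344, 24576, 65536)⟩ :=
  posOn_node 2 (A := ⟨(57344, 24576, 65536), (53248, 28672, 65536), (49152, 24576, 65536)⟩) (B := ⟨(53248, 28672, 65536), (49152, 32768, 65536), (49152, 24576, 65536)⟩) ⟨by decide +kernel, rfl, rfl⟩
    (h₁ := nodeII0_354)
    (h₂ := nodeII0_356)

theorem nodeII0_358 : PosOn (matEx 9 offII0 16 MII0)
    ⟨(49152, 16384, 65536), (57344, 24576, 65536), (49152, 32768, 65536)⟩ :=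
  posOn_node 2 (A := ⟨(49152, 32768, 65536), (49152, 24576, 65536), (57344, 24576, 65536)⟩) (B := ⟨(49152, 24576, 65536), (49152, 16384, 65536), (57344, 24576, 65536)⟩) ⟨by decide +kernel, rfl, rfl⟩
    (h₁ := nodeII0_357)
    (h₂ := (posOn_smul 8192 16384 8192 rfl (posOn_of_leaf okII0 leafII0_363)))

theorem nodeII0_359 : PosOn (matEx 9 offII0 16 MII0)
    ⟨(53248, 28672, 65536), (57344, 24576, 65536), (57344, 32768, 65536)⟩ :=
  posOn_node 1 (A := ⟨(57344, 24576, 65536), (57344, 28672, 65536), (53248, 28672, 65536)⟩) (B := ⟨(57344, 28672, 65536), (57344, 32768, 65536), (53248, 28672, 65536)⟩) ⟨by decide +kernel, rfl, rfl⟩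
    (h₁ := (posOn_smul 8192 4096 4096 rfl (posOn_of_leaf okII0 leafII0_366)))
    (h₂ := (posOn_smul 4096 8192 4096 rfl (posOn_of_leaf okII0 leafII0_367)))

theorem nodeII0_360 : PosOn (matEx 9 offII0 16 MII0)
    ⟨(57344, 32768, 65536), (49152, 32768, 65536), (57344, 24576, 65536)⟩ :=
  posOn_node 1 (A := ⟨(49152, 32768, 65536), (53248, 28672, 65536), (57344, 32768, 65536)⟩) (B := ⟨(53248, 28672, 65536), (57344, 24576, 65536), (57344, 32768, 65536)⟩) ⟨by decide +kernel, rfl, rfl⟩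
    (h₁ := (posOn_smul 16384 4096 8192 rfl (posOn_of_leaf okII0 leafII0_365)))
    (h₂ := nodeII0_359)

theorem nodeII0_361 : PosOn (matEx 9 offII0 16 MII0)
    ⟨(57344, 24576, 65536), (65536, 32768, 65536), (49152, 32768, 65536)⟩ :=
  posOn_node 1 (A := ⟨(65536, 32768, 65536), (57344, 32768, 65536), (57344, 24576, 65536)⟩) (B := ⟨(57344, 32768, 65536), (49152, 32768, 65536), (57344, 24576, 65536)⟩) ⟨by decide +kernel, rfl, rfl⟩
    (h₁ := (posOn_smul 32768 8192 8192 rfl (posOn_of_leaf okII0 leafII0_364)))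
    (h₂ := nodeII0_360)

theorem nodeII0_362 : PosOn (matEx 9 offII0 16 MII0)
    ⟨(65536, 32768, 65536), (49152, 32768, 65536), (49152, 16384, 65536)⟩ :=
  posOn_node 2 (A := ⟨(49152, 16384, 65536), (57344, 24576, 65536), (49152, 32768, 65536)⟩) (B := ⟨(57344, 24576, 65536), (65536, 32768, 65536), (49152, 32768, 65536)⟩) ⟨by decide +kernel, rfl, rfl⟩
    (h₁ := nodeII0_358)
    (h₂ := nodeII0_361)

theorem nodeII0_363 : PosOn (matEx 9 offII0 16 MII0)
    ⟨(32768, 32768, 65536), (40960, 24576, 65536), (49152, 32768, 65536)⟩ :=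
  posOn_node 2 (A := ⟨(49152, 32768, 65536), (40960, 32768, 65536), (40960, 24576, 65536)⟩) (B := ⟨(40960, 32768, 65536), (32768, 32768, 65536), (40960, 24576, 65536)⟩) ⟨by decide +kernel, rfl, rfl⟩
    (h₁ := (posOn_smul 16384 8192 8192 rfl (posOn_of_leaf okII0 leafII0_368)))
    (h₂ := (posOn_smul 8192 32768 8192 rfl (posOn_of_leaf okII0 leafII0_369)))

theorem nodeII0_364 : PosOn (matEx 9 offII0 16 MII0)
    ⟨(40960, 24576, 65536), (49152, 16384, 65536), (49152, 32768, 65536)⟩ :=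
  posOn_node 1 (A := ⟨(49152, 16384, 65536), (49152, 24576, 65536), (40960, 24576, 65536)⟩) (B := ⟨(49152, 24576, 65536), (49152, 32768, 65536), (40960, 24576, 65536)⟩) ⟨by decide +kernel, rfl, rfl⟩
    (h₁ := (posOn_smul 16384 8192 8192 rfl (posOn_of_leaf okII0 leafII0_370)))
    (h₂ := (posOn_smul 8192 16384 8192 rfl (posOn_of_leaf okII0 leafII0_371)))

theorem nodeII0_365 : PosOn (matEx 9 offII0 16 MII0)
    ⟨(49152, 32768, 65536), (32768, 32768, 65536), (49152, 16384, 65536)⟩ :=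
  posOn_node 1 (A := ⟨(32768, 32768, 65536), (40960, 24576, 65536), (49152, 32768, 65536)⟩) (B := ⟨(40960, 24576, 65536), (49152, 16384, 65536), (49152, 32768, 65536)⟩) ⟨by decide +kernel, rfl, rfl⟩
    (h₁ := nodeII0_363)
    (h₂ := nodeII0_364)

theorem nodeII0_366 : PosOn (matEx 9 offII0 16 MII0)
    ⟨(32768, 32768, 65536), (49152, 16384, 65536), (65536, 32768, 65536)⟩ :=
  posOn_node 2 (A := ⟨(65536, 32768, 65536), (49152, 32768, 65536), (49152, 16384, 65536)⟩) (B := ⟨(49152, 32768, 65536), (32768, 32768, 65536), (49152, 16384, 65536)⟩) ⟨by decide +kernel, rfl, rfl⟩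
    (h₁ := nodeII0_362)
    (h₂ := nodeII0_365)

theorem nodeII0_367 : PosOn (matEx 9 offII0 16 MII0)
    ⟨(49152, 16384, 65536), (53248, 12288, 65536), (57344, 16384, 65536)⟩ :=
  posOn_node 2 (A := ⟨(57344, 16384, 65536), (53248, 16384, 65536), (53248, 12288, 65536)⟩) (B := ⟨(53248, 16384, 65536), (49152, 16384, 65536), (53248, 12288, 65536)⟩) ⟨by decide +kernel, rfl, rfl⟩
    (h₁ := (posOn_smul 8192 4096 4096 rfl (posOn_of_leaf okII0 leafII0_373)))
    (h₂ := (posOn_smul 4096 16384 4096 rfl (posOn_of_leaf okII0 leafII0_374)))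

theorem nodeII0_368 : PosOn (matEx 9 offII0 16 MII0)
    ⟨(57344, 16384, 65536), (49152, 16384, 65536), (57344, 8192, 65536)⟩ :=
  posOn_node 1 (A := ⟨(49152, 16384, 65536), (53248, 12288, 65536), (57344, 16384, 65536)⟩) (B := ⟨(53248, 12288, 65536), (57344, 8192, 65536), (57344, 16384, 65536)⟩) ⟨by decide +kernel, rfl, rfl⟩
    (h₁ := nodeII0_367)
    (h₂ := (posOn_smul 4096 8192 8192 rfl (posOn_of_leaf okII0 leafII0_375)))

theorem nodeII0_369 : PosOn (matEx 9 offII0 16 MII0)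
    ⟨(49152, 16384, 65536), (57344, 8192, 65536), (65536, 16384, 65536)⟩ :=
  posOn_node 2 (A := ⟨(65536, 16384, 65536), (57344, 16384, 65536), (57344, 8192, 65536)⟩) (B := ⟨(57344, 16384, 65536), (49152, 16384, 65536), (57344, 8192, 65536)⟩) ⟨by decide +kernel, rfl, rfl⟩
    (h₁ := (posOn_smul 16384 8192 8192 rfl (posOn_of_leaf okII0 leafII0_372)))
    (h₂ := nodeII0_368)

theorem nodeII0_370 : PosOn (matEx 9 offII0 16 MII0)
    ⟨(65536, 0, 65536), (65536, 16384, 65536), (49152, 16384, 65536)⟩ :=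
  posOn_node 2 (A := ⟨(49152, 16384, 65536), (57344, 8192, 65536), (65536, 16384, 65536)⟩) (B := ⟨(57344, 8192, 65536), (65536, 0, 65536), (65536, 16384, 65536)⟩) ⟨by decide +kernel, rfl, rfl⟩
    (h₁ := nodeII0_369)
    (h₂ := (posOn_smul 8192 65536 16384 rfl (posOn_of_leaf okII0 leafII0_376)))

theorem nodeII0_371 : PosOn (matEx 9 offII0 16 MII0)
    ⟨(53248, 20480, 65536), (49152, 16384, 65536), (57344, 16384, 65536)⟩ :=
  posOn_node 1 (A := ⟨(49152, 16384, 65536), (53248, 16384, 65536), (53248, 20480, 65536)⟩) (B := ⟨(53248, 16384, 65536), (57344, 16384, 65536), (53248, 20480, 65536)⟩) ⟨by decide +kernel, rfl, rfl⟩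
    (h₁ := (posOn_smul 16384 4096 4096 rfl (posOn_of_leaf okII0 leafII0_379)))
    (h₂ := (posOn_smul 4096 8192 4096 rfl (posOn_of_leaf okII0 leafII0_380)))

theorem nodeII0_372 : PosOn (matEx 9 offII0 16 MII0)
    ⟨(49152, 16384, 65536), (57344, 16384, 65536), (57344, 24576, 65536)⟩ :=
  posOn_node 2 (A := ⟨(57344, 24576, 65536), (53248, 20480, 65536), (57344, 16384, 65536)⟩) (B := ⟨(53248, 20480, 65536), (49152, 16384, 65536), (57344, 16384, 65536)⟩) ⟨by decide +kernel, rfl, rfl⟩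
    (h₁ := (posOn_smul 8192 4096 8192 rfl (posOn_of_leaf okII0 leafII0_378)))
    (h₂ := nodeII0_371)

theorem nodeII0_373 : PosOn (matEx 9 offII0 16 MII0)
    ⟨(57344, 24576, 65536), (49152, 16384, 65536), (65536, 16384, 65536)⟩ :=
  posOn_node 1 (A := ⟨(49152, 16384, 65536), (57344, 16384, 65536), (57344, 24576, 65536)⟩) (B := ⟨(57344, 16384, 65536), (65536, 16384, 65536), (57344, 24576, 65536)⟩) ⟨by decide +kernel, rfl, rfl⟩
    (h₁ := nodeII0_372)
    (h₂ := (posOn_smul 8192 16384 8192 rfl (posOn_of_leaf okII0 leafII0_381)))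

theorem nodeII0_374 : PosOn (matEx 9 offII0 16 MII0)
    ⟨(65536, 16384, 65536), (65536, 32768, 65536), (49152, 16384, 65536)⟩ :=
  posOn_node 1 (A := ⟨(65536, 32768, 65536), (57344, 24576, 65536), (65536, 16384, 65536)⟩) (B := ⟨(57344, 24576, 65536), (49152, 16384, 65536), (65536, 16384, 65536)⟩) ⟨by decide +kernel, rfl, rfl⟩
    (h₁ := (posOn_smul 32768 8192 16384 rfl (posOn_of_leaf okII0 leafII0_377)))
    (h₂ := nodeII0_373)

theorem nodeII0_375 : PosOn (matEx 9 offII0 16 MII0)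
    ⟨(49152, 16384, 65536), (65536, 0, 65536), (65536, 32768, 65536)⟩ :=
  posOn_node 1 (A := ⟨(65536, 0, 65536), (65536, 16384, 65536), (49152, 16384, 65536)⟩) (B := ⟨(65536, 16384, 65536), (65536, 32768, 65536), (49152, 16384, 65536)⟩) ⟨by decide +kernel, rfl, rfl⟩
    (h₁ := nodeII0_370)
    (h₂ := nodeII0_374)

theorem nodeII0_376 : PosOn (matEx 9 offII0 16 MII0)
    ⟨(65536, 0, 65536), (65536, 32768, 65536), (32768, 32768, 65536)⟩ :=
  posOn_node 2 (A := ⟨(32768, 32768, 65536), (49152, 16384, 65536), (65536, 32768, 65536)⟩) (B := ⟨(49152, 16384, 65536), (65536, 0, 65536), (65536, 32768, 65536)⟩) ⟨by decide +kernel, rfl, rfl⟩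
    (h₁ := nodeII0_366)
    (h₂ := nodeII0_375)

theorem nodeII0_377 : PosOn (matEx 9 offII0 16 MII0)
    ⟨(65536, 32768, 65536), (65536, 49152, 65536), (49152, 49152, 65536)⟩ :=
  posOn_node 2 (A := ⟨(49152, 49152, 65536), (57344, 40960, 65536), (65536, 49152, 65536)⟩) (B := ⟨(57344, 40960, 65536), (65536, 32768, 65536), (65536, 49152, 65536)⟩) ⟨by decide +kernel, rfl, rfl⟩
    (h₁ := (posOn_smul 16384 8192 16384 rfl (posOn_of_leaf okII0 leafII0_382)))
    (h₂ := (posOn_smul 8192 32768 16384 rfl (posOn_of_leaf okII0 leafII0_383)))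

theorem nodeII0_378 : PosOn (matEx 9 offII0 16 MII0)
    ⟨(65536, 49152, 65536), (65536, 65536, 65536), (49152, 49152, 65536)⟩ :=
  posOn_node 1 (A := ⟨(65536, 65536, 65536), (57344, 57344, 65536), (65536, 49152, 65536)⟩) (B := ⟨(57344, 57344, 65536), (49152, 49152, 65536), (65536, 49152, 65536)⟩) ⟨by decide +kernel, rfl, rfl⟩
    (h₁ := (posOn_smul 65536 8192 16384 rfl (posOn_of_leaf okII0 leafII0_384)))
    (h₂ := (posOn_smul 8192 16384 16384 rfl (posOn_of_leaf okII0 leafII0_385)))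

theorem nodeII0_379 : PosOn (matEx 9 offII0 16 MII0)
    ⟨(65536, 65536, 65536), (49152, 49152, 65536), (65536, 32768, 65536)⟩ :=
  posOn_node 2 (A := ⟨(65536, 32768, 65536), (65536, 49152, 65536), (49152, 49152, 65536)⟩) (B := ⟨(65536, 49152, 65536), (65536, 65536, 65536), (49152, 49152, 65536)⟩) ⟨by decide +kernel, rfl, rfl⟩
    (h₁ := nodeII0_377)
    (h₂ := nodeII0_378)

theorem nodeII0_380 : PosOn (matEx 9 offII0 16 MII0)
    ⟨(49152, 49152, 65536), (40960, 40960, 65536), (49152, 32768, 65536)⟩ :=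
  posOn_node 2 (A := ⟨(49152, 32768, 65536), (49152, 40960, 65536), (40960, 40960, 65536)⟩) (B := ⟨(49152, 40960, 65536), (49152, 49152, 65536), (40960, 40960, 65536)⟩) ⟨by decide +kernel, rfl, rfl⟩
    (h₁ := (posOn_smul 16384 8192 8192 rfl (posOn_of_leaf okII0 leafII0_386)))
    (h₂ := (posOn_smul 8192 16384 8192 rfl (posOn_of_leaf okII0 leafII0_387)))

theorem nodeII0_381 : PosOn (matEx 9 offII0 16 MII0)
    ⟨(40960, 40960, 65536), (32768, 32768, 65536), (49152, 32768, 65536)⟩ :=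
  posOn_node 1 (A := ⟨(32768, 32768, 65536), (40960, 32768, 65536), (40960, 40960, 65536)⟩) (B := ⟨(40960, 32768, 65536), (49152, 32768, 65536), (40960, 40960, 65536)⟩) ⟨by decide +kernel, rfl, rfl⟩
    (h₁ := (posOn_smul 32768 8192 8192 rfl (posOn_of_leaf okII0 leafII0_388)))
    (h₂ := (posOn_smul 8192 16384 8192 rfl (posOn_of_leaf okII0 leafII0_389)))

theorem nodeII0_382 : PosOn (matEx 9 offII0 16 MII0)
    ⟨(32768, 32768, 65536), (49152, 32768, 65536), (49152, 49152, 65536)⟩ :=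
  posOn_node 2 (A := ⟨(49152, 49152, 65536), (40960, 40960, 65536), (49152, 32768, 65536)⟩) (B := ⟨(40960, 40960, 65536), (32768, 32768, 65536), (49152, 32768, 65536)⟩) ⟨by decide +kernel, rfl, rfl⟩
    (h₁ := nodeII0_380)
    (h₂ := nodeII0_381)

theorem nodeII0_383 : PosOn (matEx 9 offII0 16 MII0)
    ⟨(65536, 32768, 65536), (57344, 40960, 65536), (49152, 32768, 65536)⟩ :=
  posOn_node 2 (A := ⟨(49152, 32768, 65536), (57344, 32768, 65536), (57344, 40960, 65536)⟩) (B := ⟨(57344, 32768, 65536), (65536, 32768, 65536), (57344, 40960, 65536)⟩) ⟨by decide +kernel, rfl, rfl⟩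
    (h₁ := (posOn_smul 16384 8192 8192 rfl (posOn_of_leaf okII0 leafII0_390)))
    (h₂ := (posOn_smul 8192 32768 8192 rfl (posOn_of_leaf okII0 leafII0_391)))

theorem nodeII0_384 : PosOn (matEx 9 offII0 16 MII0)
    ⟨(49152, 32768, 65536), (65536, 32768, 65536), (49152, 49152, 65536)⟩ :=
  posOn_node 1 (A := ⟨(65536, 32768, 65536), (57344, 40960, 65536), (49152, 32768, 65536)⟩) (B := ⟨(57344, 40960, 65536), (49152, 49152, 65536), (49152, 32768, 65536)⟩) ⟨by decide +kernel, rfl, rfl⟩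
    (h₁ := nodeII0_383)
    (h₂ := (posOn_smul 8192 16384 16384 rfl (posOn_of_leaf okII0 leafII0_392)))

theorem nodeII0_385 : PosOn (matEx 9 offII0 16 MII0)
    ⟨(49152, 49152, 65536), (32768, 32768, 65536), (65536, 32768, 65536)⟩ :=
  posOn_node 1 (A := ⟨(32768, 32768, 65536), (49152, 32768, 65536), (49152, 49152, 65536)⟩) (B := ⟨(49152, 32768, 65536), (65536, 32768, 65536), (49152, 49152, 65536)⟩) ⟨by decide +kernel, rfl, rfl⟩
    (h₁ := nodeII0_382)
    (h₂ := nodeII0_384)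

theorem nodeII0_386 : PosOn (matEx 9 offII0 16 MII0)
    ⟨(65536, 32768, 65536), (65536, 65536, 65536), (32768, 32768, 65536)⟩ :=
  posOn_node 1 (A := ⟨(65536, 65536, 65536), (49152, 49152, 65536), (65536, 32768, 65536)⟩) (B := ⟨(49152, 49152, 65536), (32768, 32768, 65536), (65536, 32768, 65536)⟩) ⟨by decide +kernel, rfl, rfl⟩
    (h₁ := nodeII0_379)
    (h₂ := nodeII0_385)

theorem nodeII0_387 : PosOn (matEx 9 offII0 16 MII0)
    ⟨(32768, 32768, 65536), (65536, 0, 65536), (65536, 65536, 65536)⟩ :=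
  posOn_node 1 (A := ⟨(65536, 0, 65536), (65536, 32768, 65536), (32768, 32768, 65536)⟩) (B := ⟨(65536, 32768, 65536), (65536, 65536, 65536), (32768, 32768, 65536)⟩) ⟨by decide +kernel, rfl, rfl⟩
    (h₁ := nodeII0_376)
    (h₂ := nodeII0_386)

theorem nodeII0_388 : PosOn (matEx 9 offII0 16 MII0)
    ⟨(65536, 0, 65536), (65536, 65536, 65536), (0, 65536, 65536)⟩ :=
  posOn_node 2 (A := ⟨(0, 65536, 65536), (32768, 32768, 65536), (65536, 65536, 65536)⟩) (B := ⟨(32768, 32768, 65536), (65536, 0, 65536), (65536, 65536, 65536)⟩) ⟨by decide +kernel, rfl, rfl⟩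
    (h₁ := nodeII0_352)
    (h₂ := nodeII0_387)

/-- Block II0 is nonnegative on root 0. -/
theorem posOnII0_0 : PosOn (matEx 9 offII0 16 MII0)
    ⟨((-65536), 0, 65536), (0, 0, 65536), ((-65536), 65536, 65536)⟩ :=
  (posOn_cyc (posOn_cyc (posOn_flip (p₀ := ((-65536), 65536, 65536)) (p₁ := ((-65536), 0, 65536)) (p₂ := (0, 0, 65536)) (p₃ := (0, 65536, 65536)) (by decide) (posOn_cyc nodeII0_156) nodeII0_108)))

/-- Block II0 is nonnegative on root 1. -/
theorem posOnII0_1 : PosOn (matEx 9 offII0 16 MII0)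
    ⟨(0, 0, 65536), (0, 65536, 65536), ((-65536), 65536, 65536)⟩ :=
  (posOn_flip (p₀ := (0, 0, 65536)) (p₁ := (0, 65536, 65536)) (p₂ := ((-65536), 65536, 65536)) (p₃ := ((-65536), 0, 65536)) (by decide) (posOn_cyc (posOn_cyc nodeII0_108)) (posOn_cyc (posOn_cyc nodeII0_156)))

/-- Block II0 is nonnegative on root 2. -/
theorem posOnII0_2 : PosOn (matEx 9 offII0 16 MII0)
    ⟨(0, 0, 65536), (65536, 0, 65536), (65536, 65536, 65536)⟩ :=
  (posOn_flip (p₀ := (0, 0, 65536)) (p₁ := (65536, 0, 65536)) (p₂ := (65536, 65536, 65536)) (p₃ := (0, 65536, 65536)) (by decide) nodeII0_314 nodeII0_388)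

/-- Block II0 is nonnegative on root 3. -/
theorem posOnII0_3 : PosOn (matEx 9 offII0 16 MII0)
    ⟨(0, 0, 65536), (65536, 65536, 65536), (0, 65536, 65536)⟩ :=
  (posOn_cyc (posOn_flip (p₀ := (65536, 65536, 65536)) (p₁ := (0, 65536, 65536)) (p₂ := (0, 0, 65536)) (p₃ := (65536, 0, 65536)) (by decide) (posOn_cyc (posOn_cyc nodeII0_388)) (posOn_cyc nodeII0_314)))

end Vale.Agent.P252.General.Cert5.Trees
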