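import Vale.Agent.P252.Cert.PDCoef
import Vale.Agent.P252.Rigidity.General.Cert5.Flat.II0

/-! Leaves 264..274 of block II0, generated. -/

namespace Vale.Agent.P252.General.Cert5.Trees

open Vale.Agent.P252.PolyPSD Vale.Agent.P252.PDCoef

theorem leafII0_264 : checkLeaf 9 nbII0 offII0 16 MII0
    ⟨(1, 4, 16), (1, 2, 8), (1, 5, 16)⟩ = true := by decide +kernel

theorem leafII0_265 : checkLeaf 9 nbII0 offII0 16 MII0
    ⟨(1, 2, 8), (3, 4, 16), (3, 5, 16)⟩ = true := by decide +kernel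

theorem leafII0_266 : checkLeaf 9 nbII0 offII0 16 MII0
    ⟨(3, 4, 16), (1, 1, 4), (3, 5, 16)⟩ = true := by decide +kernel

theorem leafII0_267 : checkLeaf 9 nbII0 offII0 16 MII0
    ⟨(3, 5, 16), (1, 3, 8), (1, 2, 8)⟩ = true := by decide +kernel

theorem leafII0_268 : checkLeaf 9 nbII0 offII0 16 MII0
    ⟨(1, 7, 16), (1, 13, 32), (1, 6, 16)⟩ = true := by decide +kernel

theorem leafII0_269 : checkLeaf 9 nbII0 offII0 16 MII0
    ⟨(1, 13, 32), (0, 3, 8), (1, 6, 16)⟩ = true := by decide +kernel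

theorem leafII0_270 : checkLeaf 9 nbII0 offII0 16 MII0
    ⟨(1, 6, 16), (1, 3, 8), (1, 7, 16)⟩ = true := by decide +kernel

theorem leafII0_271 : checkLeaf 9 nbII0 offII0 16 MII0
    ⟨(0, 7, 16), (1, 14, 32), (1, 15, 32)⟩ = true := by decide +kernel

theorem leafII0_272 : checkLeaf 9 nbII0 offII0 16 MII0
    ⟨(1, 14, 32), (1, 7, 16), (1, 15, 32)⟩ = true := by decide +kernel

theorem leafII0_273 : checkLeaf 9 nbII0 offII0 16 MII0
    ⟨(1, 15, 32), (0, 1, 2), (0, 7, 16)⟩ = true := by decide +kernel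

theorem leafII0_274 : checkLeaf 9 nbII0 offII0 16 MII0
    ⟨(0, 3, 8), (1, 13, 32), (0, 7, 16)⟩ = true := by decide +kernel

end Vale.Agent.P252.General.Cert5.Trees
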