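import Vale.Agent.P252.Cert.PDCoef
import Vale.Agent.P252.Rigidity.General.Cert5.Flat.II0

/-! Leaves 352..362 of block II0, generated. -/

namespace Vale.Agent.P252.General.Cert5.Trees

open Vale.Agent.P252.PolyPSD Vale.Agent.P252.PDCoef

theorem leafII0_352 : checkLeaf 9 nbII0 offII0 16 MII0
    ⟨(3, 7, 8), (5, 13, 16), (3, 6, 8)⟩ = true := by decide +kernel

theorem leafII0_353 : checkLeaf 9 nbII0 offII0 16 MII0
    ⟨(1, 3, 4), (5, 12, 16), (5, 13, 16)⟩ = true := by decide +kernel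

theorem leafII0_354 : checkLeaf 9 nbII0 offII0 16 MII0
    ⟨(5, 12, 16), (3, 6, 8), (5, 13, 16)⟩ = true := by decide +kernel

theorem leafII0_355 : checkLeaf 9 nbII0 offII0 16 MII0
    ⟨(2, 3, 4), (7, 13, 16), (3, 6, 8)⟩ = true := by decide +kernel

theorem leafII0_356 : checkLeaf 9 nbII0 offII0 16 MII0
    ⟨(7, 13, 16), (3, 7, 8), (3, 6, 8)⟩ = true := by decide +kernel

theorem leafII0_357 : checkLeaf 9 nbII0 offII0 16 MII0
    ⟨(13, 7, 16), (25, 13, 32), (13, 6, 16)⟩ = true := by decide +kernel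

theorem leafII0_358 : checkLeaf 9 nbII0 offII0 16 MII0
    ⟨(25, 13, 32), (6, 3, 8), (13, 6, 16)⟩ = true := by decide +kernel

theorem leafII0_359 : checkLeaf 9 nbII0 offII0 16 MII0
    ⟨(13, 6, 16), (7, 3, 8), (13, 7, 16)⟩ = true := by decide +kernel

theorem leafII0_360 : checkLeaf 9 nbII0 offII0 16 MII0
    ⟨(3, 2, 4), (12, 7, 16), (13, 7, 16)⟩ = true := by decide +kernel

theorem leafII0_361 : checkLeaf 9 nbII0 offII0 16 MII0
    ⟨(6, 3, 8), (25, 13, 32), (12, 7, 16)⟩ = true := by decide +kernel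

theorem leafII0_362 : checkLeaf 9 nbII0 offII0 16 MII0
    ⟨(25, 13, 32), (13, 7, 16), (12, 7, 16)⟩ = true := by decide +kernel

end Vale.Agent.P252.General.Cert5.Trees
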