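import Vale.Agent.P252.Cert.PDCoef
import Vale.Agent.P252.Rigidity.General.Cert5.Flat.II0

/-! Leaves 88..98 of block II0, generated. -/

namespace Vale.Agent.P252.General.Cert5.Trees

open Vale.Agent.P252.PolyPSD Vale.Agent.P252.PDCoef

theorem leafII0_88 : checkLeaf 9 nbII0 offII0 16 MII0
    ⟨((-13), 0, 16), ((-3), 0, 4), ((-13), 1, 16)⟩ = true := by decide +kernel

theorem leafII0_89 : checkLeaf 9 nbII0 offII0 16 MII0
    ⟨((-7), 1, 8), ((-14), 1, 16), ((-13), 1, 16)⟩ = true := by decide +kernel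

theorem leafII0_90 : checkLeaf 9 nbII0 offII0 16 MII0
    ⟨((-7), 0, 8), ((-27), 1, 32), ((-14), 1, 16)⟩ = true := by decide +kernel

theorem leafII0_91 : checkLeaf 9 nbII0 offII0 16 MII0
    ⟨((-27), 1, 32), ((-13), 1, 16), ((-14), 1, 16)⟩ = true := by decide +kernel

theorem leafII0_92 : checkLeaf 9 nbII0 offII0 16 MII0
    ⟨((-5), 1, 8), ((-11), 1, 16), ((-5), 0, 8)⟩ = true := by decide +kernel

theorem leafII0_93 : checkLeaf 9 nbII0 offII0 16 MII0
    ⟨((-3), 0, 4), ((-11), 0, 16), ((-11), 1, 16)⟩ = true := by decide +kernel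

theorem leafII0_94 : checkLeaf 9 nbII0 offII0 16 MII0
    ⟨((-11), 0, 16), ((-5), 0, 8), ((-11), 1, 16)⟩ = true := by decide +kernel

theorem leafII0_95 : checkLeaf 9 nbII0 offII0 16 MII0
    ⟨((-5), 0, 8), ((-1), 0, 2), ((-5), 1, 8)⟩ = true := by decide +kernel

theorem leafII0_96 : checkLeaf 9 nbII0 offII0 16 MII0
    ⟨((-5), 1, 8), ((-3), 1, 4), ((-3), 0, 4)⟩ = true := by decide +kernel

theorem leafII0_97 : checkLeaf 9 nbII0 offII0 16 MII0
    ⟨((-1), 0, 2), ((-1), 0, 4), ((-1), 1, 4)⟩ = true := by decide +kernel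

theorem leafII0_98 : checkLeaf 9 nbII0 offII0 16 MII0
    ⟨((-1), 0, 8), ((-2), 1, 16), ((-3), 1, 16)⟩ = true := by decide +kernel

end Vale.Agent.P252.General.Cert5.Trees
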