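import Vale.Agent.P252.Cert.PDCoef
import Vale.Agent.P252.Rigidity.General.Cert5.Flat.II1

/-! Leaves 45..51 of block II1, generated. -/

namespace Vale.Agent.P252.General.Cert5.Trees

open Vale.Agent.P252.PolyPSD Vale.Agent.P252.PDCoef

theorem leafII1_45 : checkLeaf 5 nbII1 offII1 14 MII1
    ⟨(5, 3, 8), (3, 1, 4), (2, 1, 2)⟩ = true := by decide +kernel

theorem leafII1_46 : checkLeaf 5 nbII1 offII1 14 MII1
    ⟨(3, 1, 4), (1, 0, 1), (2, 1, 2)⟩ = true := by decide +kernel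

theorem leafII1_47 : checkLeaf 5 nbII1 offII1 14 MII1
    ⟨(1, 1, 1), (3, 3, 4), (2, 1, 2)⟩ = true := by decide +kernel

theorem leafII1_48 : checkLeaf 5 nbII1 offII1 14 MII1
    ⟨(1, 1, 2), (5, 4, 8), (3, 3, 4)⟩ = true := by decide +kernel

theorem leafII1_49 : checkLeaf 5 nbII1 offII1 14 MII1
    ⟨(3, 3, 4), (11, 10, 16), (3, 2, 4)⟩ = true := by decide +kernel

theorem leafII1_50 : checkLeaf 5 nbII1 offII1 14 MII1
    ⟨(11, 10, 16), (5, 4, 8), (3, 2, 4)⟩ = true := by decide +kernel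

theorem leafII1_51 : checkLeaf 5 nbII1 offII1 14 MII1
    ⟨(3, 2, 4), (2, 1, 2), (3, 3, 4)⟩ = true := by decide +kernel

end Vale.Agent.P252.General.Cert5.Trees
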