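import Vale.Agent.P252.Rigidity.General.Cert5.Trees.II1_0
import Vale.Agent.P252.Rigidity.General.Cert5.Trees.II1_1
import Vale.Agent.P252.Rigidity.General.Cert5.Trees.Glue

/-! Block II1 assembled from its leaves, generated. -/

namespace Vale.Agent.P252.General.Cert5.Trees

open Vale.Agent.P252.PolyPSD Vale.Agent.P252.PDCoef

theorem okII1 : blockOK 5 nbII1 offII1 14 MII1 = true := by decide +kernel

theorem nodeII1_0 : PosOn (matEx 5 offII1 14 MII1)
    ⟨((-65536), 0, 65536), ((-49152), 0, 65536), ((-32768), 32768, 65536)⟩ :=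
  posOn_node 1 (A := ⟨((-49152), 0, 65536), ((-40960), 16384, 65536), ((-65536), 0, 65536)⟩) (B := ⟨((-40960), 16384, 65536), ((-32768), 32768, 65536), ((-65536), 0, 65536)⟩) ⟨by decide +kernel, rfl, rfl⟩
    (h₁ := (posOn_smul 16384 8192 65536 rfl (posOn_of_leaf okII1 leafII1_1)))
    (h₂ := (posOn_smul 8192 32768 65536 rfl (posOn_of_leaf okII1 leafII1_2)))

theorem nodeII1_1 : PosOn (matEx 5 offII1 14 MII1)
    ⟨((-45056), 8192, 65536), ((-49152), 0, 65536), ((-40960), 0, 65536)⟩ :=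
  posOn_node 1 (A := ⟨((-49152), 0, 65536), ((-45056), 0, 65536), ((-45056), 8192, 65536)⟩) (B := ⟨((-45056), 0, 65536), ((-40960), 0, 65536), ((-45056), 8192, 65536)⟩) ⟨by decide +kernel, rfl, rfl⟩
    (h₁ := (posOn_smul 16384 4096 4096 rfl (posOn_of_leaf okII1 leafII1_5)))
    (h₂ := (posOn_smul 4096 8192 4096 rfl (posOn_of_leaf okII1 leafII1_6)))

theorem nodeII1_2 : PosOn (matEx 5 offII1 14 MII1)
    ⟨((-49152), 0, 65536), ((-40960), 0, 65536), ((-40960), 16384, 65536)⟩ :=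
  posOn_node 2 (A := ⟨((-40960), 16384, 65536), ((-45056), 8192, 65536), ((-40960), 0, 65536)⟩) (B := ⟨((-45056), 8192, 65536), ((-49152), 0, 65536), ((-40960), 0, 65536)⟩) ⟨by decide +kernel, rfl, rfl⟩
    (h₁ := (posOn_smul 8192 4096 8192 rfl (posOn_of_leaf okII1 leafII1_4)))
    (h₂ := nodeII1_1)

theorem nodeII1_3 : PosOn (matEx 5 offII1 14 MII1)
    ⟨((-40960), 16384, 65536), ((-49152), 0, 65536), ((-32768), 0, 65536)⟩ :=
  posOn_node 1 (A := ⟨((-49152), 0, 65536), ((-40960), 0, 65536), ((-40960), 16384, 65536)⟩) (B := ⟨((-40960), 0, 65536), ((-32768), 0, 65536), ((-40960), 16384, 65536)⟩) ⟨by decide +kernel, rfl, rfl⟩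
    (h₁ := nodeII1_2)
    (h₂ := (posOn_smul 8192 32768 8192 rfl (posOn_of_leaf okII1 leafII1_7)))

theorem nodeII1_4 : PosOn (matEx 5 offII1 14 MII1)
    ⟨((-49152), 0, 65536), ((-32768), 0, 65536), ((-32768), 32768, 65536)⟩ :=
  posOn_node 2 (A := ⟨((-32768), 32768, 65536), ((-40960), 16384, 65536), ((-32768), 0, 65536)⟩) (B := ⟨((-40960), 16384, 65536), ((-49152), 0, 65536), ((-32768), 0, 65536)⟩) ⟨by decide +kernel, rfl, rfl⟩
    (h₁ := (posOn_smul 32768 8192 32768 rfl (posOn_of_leaf okII1 leafII1_3)))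
    (h₂ := nodeII1_3)

theorem nodeII1_5 : PosOn (matEx 5 offII1 14 MII1)
    ⟨((-65536), 0, 65536), ((-32768), 0, 65536), ((-32768), 32768, 65536)⟩ :=
  posOn_node 0 (A := ⟨((-65536), 0, 65536), ((-49152), 0, 65536), ((-32768), 32768, 65536)⟩) (B := ⟨((-49152), 0, 65536), ((-32768), 0, 65536), ((-32768), 32768, 65536)⟩) ⟨by decide +kernel, rfl, rfl⟩
    (h₁ := nodeII1_0)
    (h₂ := nodeII1_4)

theorem nodeII1_6 : PosOn (matEx 5 offII1 14 MII1)
    ⟨((-32768), 32768, 65536), ((-65536), 0, 65536), (0, 0, 65536)⟩ :=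
  posOn_node 1 (A := ⟨((-65536), 0, 65536), ((-32768), 0, 65536), ((-32768), 32768, 65536)⟩) (B := ⟨((-32768), 0, 65536), (0, 0, 65536), ((-32768), 32768, 65536)⟩) ⟨by decide +kernel, rfl, rfl⟩
    (h₁ := nodeII1_5)
    (h₂ := (posOn_smul 32768 65536 32768 rfl (posOn_of_leaf okII1 leafII1_8)))

theorem nodeII1_7 : PosOn (matEx 5 offII1 14 MII1)
    ⟨((-65536), 0, 65536), (0, 0, 65536), (0, 65536, 65536)⟩ :=
  posOn_node 2 (A := ⟨(0, 65536, 65536), ((-32768), 32768, 65536), (0, 0, 65536)⟩) (B := ⟨((-32768), 32768, 65536), ((-65536), 0, 65536), (0, 0, 65536)⟩) ⟨by decide +kernel, rfl, rfl⟩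
    (h₁ := (posOn_smul 65536 32768 65536 rfl (posOn_of_leaf okII1 leafII1_0)))
    (h₂ := nodeII1_6)

theorem nodeII1_8 : PosOn (matEx 5 offII1 14 MII1)
    ⟨((-65536), 0, 65536), (0, 65536, 65536), ((-65536), 65536, 65536)⟩ :=
  posOn_node 0 (A := ⟨((-65536), 0, 65536), ((-32768), 32768, 65536), ((-65536), 65536, 65536)⟩) (B := ⟨((-32768), 32768, 65536), (0, 65536, 65536), ((-65536), 65536, 65536)⟩) ⟨by decide +kernel, rfl, rfl⟩
    (h₁ := (posOn_smul 65536 32768 65536 rfl (posOn_of_leaf okII1 leafII1_9)))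
    (h₂ := (posOn_smul 32768 65536 65536 rfl (posOn_of_leaf okII1 leafII1_10)))

theorem nodeII1_9 : PosOn (matEx 5 offII1 14 MII1)
    ⟨(8192, 8192, 65536), (0, 0, 65536), (16384, 0, 65536)⟩ :=
  posOn_node 1 (A := ⟨(0, 0, 65536), (8192, 0, 65536), (8192, 8192, 65536)⟩) (B := ⟨(8192, 0, 65536), (16384, 0, 65536), (8192, 8192, 65536)⟩) ⟨by decide +kernel, rfl, rfl⟩
    (h₁ := (posOn_smul 65536 8192 8192 rfl (posOn_of_leaf okII1 leafII1_13)))
    (h₂ := (posOn_smul 8192 16384 8192 rfl (posOn_of_leaf okII1 leafII1_14)))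

theorem nodeII1_10 : PosOn (matEx 5 offII1 14 MII1)
    ⟨(0, 0, 65536), (16384, 0, 65536), (16384, 16384, 65536)⟩ :=
  posOn_node 2 (A := ⟨(16384, 16384, 65536), (8192, 8192, 65536), (16384, 0, 65536)⟩) (B := ⟨(8192, 8192, 65536), (0, 0, 65536), (16384, 0, 65536)⟩) ⟨by decide +kernel, rfl, rfl⟩
    (h₁ := (posOn_smul 16384 8192 16384 rfl (posOn_of_leaf okII1 leafII1_12)))
    (h₂ := nodeII1_9)

theorem nodeII1_11 : PosOn (matEx 5 offII1 14 MII1)
    ⟨(16384, 16384, 65536), (0, 0, 65536), (32768, 0, 65536)⟩ :=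
  posOn_node 1 (A := ⟨(0, 0, 65536), (16384, 0, 65536), (16384, 16384, 65536)⟩) (B := ⟨(16384, 0, 65536), (32768, 0, 65536), (16384, 16384, 65536)⟩) ⟨by decide +kernel, rfl, rfl⟩
    (h₁ := nodeII1_10)
    (h₂ := (posOn_smul 16384 32768 16384 rfl (posOn_of_leaf okII1 leafII1_15)))

theorem nodeII1_12 : PosOn (matEx 5 offII1 14 MII1)
    ⟨(0, 0, 65536), (32768, 0, 65536), (32768, 32768, 65536)⟩ :=
  posOn_node 2 (A := ⟨(32768, 32768, 65536), (16384, 16384, 65536), (32768, 0, 65536)⟩) (B := ⟨(16384, 16384, 65536), (0, 0, 65536), (32768, 0, 65536)⟩) ⟨by decide +kernel, rfl, rfl⟩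
    (h₁ := (posOn_smul 32768 16384 32768 rfl (posOn_of_leaf okII1 leafII1_11)))
    (h₂ := nodeII1_11)

theorem nodeII1_13 : PosOn (matEx 5 offII1 14 MII1)
    ⟨(49152, 16384, 65536), (32768, 32768, 65536), (32768, 0, 65536)⟩ :=
  posOn_node 0 (A := ⟨(49152, 16384, 65536), (40960, 24576, 65536), (32768, 0, 65536)⟩) (B := ⟨(40960, 24576, 65536), (32768, 32768, 65536), (32768, 0, 65536)⟩) ⟨by decide +kernel, rfl, rfl⟩
    (h₁ := (posOn_smul 16384 8192 32768 rfl (posOn_of_leaf okII1 leafII1_17)))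
    (h₂ := (posOn_smul 8192 32768 32768 rfl (posOn_of_leaf okII1 leafII1_18)))

theorem nodeII1_14 : PosOn (matEx 5 offII1 14 MII1)
    ⟨(32768, 0, 65536), (65536, 0, 65536), (32768, 32768, 65536)⟩ :=
  posOn_node 1 (A := ⟨(65536, 0, 65536), (49152, 16384, 65536), (32768, 0, 65536)⟩) (B := ⟨(49152, 16384, 65536), (32768, 32768, 65536), (32768, 0, 65536)⟩) ⟨by decide +kernel, rfl, rfl⟩
    (h₁ := (posOn_smul 65536 16384 32768 rfl (posOn_of_leaf okII1 leafII1_16)))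
    (h₂ := nodeII1_13)

theorem nodeII1_15 : PosOn (matEx 5 offII1 14 MII1)
    ⟨(65536, 0, 65536), (32768, 32768, 65536), (0, 0, 65536)⟩ :=
  posOn_node 2 (A := ⟨(0, 0, 65536), (32768, 0, 65536), (32768, 32768, 65536)⟩) (B := ⟨(32768, 0, 65536), (65536, 0, 65536), (32768, 32768, 65536)⟩) ⟨by decide +kernel, rfl, rfl⟩
    (h₁ := nodeII1_12)
    (h₂ := nodeII1_14)

theorem nodeII1_16 : PosOn (matEx 5 offII1 14 MII1)
    ⟨(16384, 49152, 65536), (12288, 36864, 65536), (16384, 32768, 65536)⟩ :=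
  posOn_node 2 (A := ⟨(16384, 32768, 65536), (16384, 40960, 65536), (12288, 36864, 65536)⟩) (B := ⟨(16384, 40960, 65536), (16384, 49152, 65536), (12288, 36864, 65536)⟩) ⟨by decide +kernel, rfl, rfl⟩
    (h₁ := (posOn_smul 16384 8192 4096 rfl (posOn_of_leaf okII1 leafII1_20)))
    (h₂ := (posOn_smul 8192 16384 4096 rfl (posOn_of_leaf okII1 leafII1_21)))

theorem nodeII1_17 : PosOn (matEx 5 offII1 14 MII1)
    ⟨(16384, 32768, 65536), (16384, 49152, 65536), (8192, 24576, 65536)⟩ :=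
  posOn_node 1 (A := ⟨(16384, 49152, 65536), (12288, 36864, 65536), (16384, 32768, 65536)⟩) (B := ⟨(12288, 36864, 65536), (8192, 24576, 65536), (16384, 32768, 65536)⟩) ⟨by decide +kernel, rfl, rfl⟩
    (h₁ := nodeII1_16)
    (h₂ := (posOn_smul 4096 8192 16384 rfl (posOn_of_leaf okII1 leafII1_22)))

theorem nodeII1_18 : PosOn (matEx 5 offII1 14 MII1)
    ⟨(16384, 49152, 65536), (8192, 24576, 65536), (16384, 16384, 65536)⟩ :=
  posOn_node 2 (A := ⟨(16384, 16384, 65536), (16384, 32768, 65536), (8192, 24576, 65536)⟩) (B := ⟨(16384, 32768, 65536), (16384, 49152, 65536), (8192, 24576, 65536)⟩) ⟨by decide +kernel, rfl, rfl⟩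
    (h₁ := (posOn_smul 16384 16384 8192 rfl (posOn_of_leaf okII1 leafII1_19)))
    (h₂ := nodeII1_17)

theorem nodeII1_19 : PosOn (matEx 5 offII1 14 MII1)
    ⟨(8192, 24576, 65536), (0, 0, 65536), (16384, 16384, 65536)⟩ :=
  posOn_node 1 (A := ⟨(0, 0, 65536), (8192, 8192, 65536), (8192, 24576, 65536)⟩) (B := ⟨(8192, 8192, 65536), (16384, 16384, 65536), (8192, 24576, 65536)⟩) ⟨by decide +kernel, rfl, rfl⟩
    (h₁ := (posOn_smul 65536 8192 8192 rfl (posOn_of_leaf okII1 leafII1_23)))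
    (h₂ := (posOn_smul 8192 16384 8192 rfl (posOn_of_leaf okII1 leafII1_24)))

theorem nodeII1_20 : PosOn (matEx 5 offII1 14 MII1)
    ⟨(0, 0, 65536), (16384, 16384, 65536), (16384, 49152, 65536)⟩ :=
  posOn_node 2 (A := ⟨(16384, 49152, 65536), (8192, 24576, 65536), (16384, 16384, 65536)⟩) (B := ⟨(8192, 24576, 65536), (0, 0, 65536), (16384, 16384, 65536)⟩) ⟨by decide +kernel, rfl, rfl⟩
    (h₁ := nodeII1_18)
    (h₂ := nodeII1_19)

theorem nodeII1_21 : PosOn (matEx 5 offII1 14 MII1)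
    ⟨(24576, 40960, 65536), (16384, 49152, 65536), (16384, 32768, 65536)⟩ :=
  posOn_node 0 (A := ⟨(24576, 40960, 65536), (20480, 45056, 65536), (16384, 32768, 65536)⟩) (B := ⟨(20480, 45056, 65536), (16384, 49152, 65536), (16384, 32768, 65536)⟩) ⟨by decide +kernel, rfl, rfl⟩
    (h₁ := (posOn_smul 8192 4096 16384 rfl (posOn_of_leaf okII1 leafII1_26)))
    (h₂ := (posOn_smul 4096 16384 16384 rfl (posOn_of_leaf okII1 leafII1_27)))

theorem nodeII1_22 : PosOn (matEx 5 offII1 14 MII1)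
    ⟨(16384, 49152, 65536), (16384, 32768, 65536), (32768, 32768, 65536)⟩ :=
  posOn_node 2 (A := ⟨(32768, 32768, 65536), (24576, 40960, 65536), (16384, 32768, 65536)⟩) (B := ⟨(24576, 40960, 65536), (16384, 49152, 65536), (16384, 32768, 65536)⟩) ⟨by decide +kernel, rfl, rfl⟩
    (h₁ := (posOn_smul 32768 8192 16384 rfl (posOn_of_leaf okII1 leafII1_25)))
    (h₂ := nodeII1_21)

theorem nodeII1_23 : PosOn (matEx 5 offII1 14 MII1)
    ⟨(16384, 16384, 65536), (32768, 32768, 65536), (16384, 49152, 65536)⟩ :=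
  posOn_node 2 (A := ⟨(16384, 49152, 65536), (16384, 32768, 65536), (32768, 32768, 65536)⟩) (B := ⟨(16384, 32768, 65536), (16384, 16384, 65536), (32768, 32768, 65536)⟩) ⟨by decide +kernel, rfl, rfl⟩
    (h₁ := nodeII1_22)
    (h₂ := (posOn_smul 16384 16384 32768 rfl (posOn_of_leaf okII1 leafII1_28)))

theorem nodeII1_24 : PosOn (matEx 5 offII1 14 MII1)
    ⟨(32768, 32768, 65536), (16384, 49152, 65536), (0, 0, 65536)⟩ :=
  posOn_node 2 (A := ⟨(0, 0, 65536), (16384, 16384, 65536), (16384, 49152, 65536)⟩) (B := ⟨(16384, 16384, 65536), (32768, 32768, 65536), (16384, 49152, 65536)⟩) ⟨by decide +kernel, rfl, rfl⟩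
    (h₁ := nodeII1_20)
    (h₂ := nodeII1_23)

theorem nodeII1_25 : PosOn (matEx 5 offII1 14 MII1)
    ⟨(16384, 49152, 65536), (0, 65536, 65536), (0, 0, 65536)⟩ :=
  posOn_node 2 (A := ⟨(0, 0, 65536), (8192, 24576, 65536), (0, 65536, 65536)⟩) (B := ⟨(8192, 24576, 65536), (16384, 49152, 65536), (0, 65536, 65536)⟩) ⟨by decide +kernel, rfl, rfl⟩
    (h₁ := (posOn_smul 65536 8192 65536 rfl (posOn_of_leaf okII1 leafII1_29)))
    (h₂ := (posOn_smul 8192 16384 65536 rfl (posOn_of_leaf okII1 leafII1_30)))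

theorem nodeII1_26 : PosOn (matEx 5 offII1 14 MII1)
    ⟨(32768, 32768, 65536), (0, 65536, 65536), (0, 0, 65536)⟩ :=
  posOn_node 0 (A := ⟨(32768, 32768, 65536), (16384, 49152, 65536), (0, 0, 65536)⟩) (B := ⟨(16384, 49152, 65536), (0, 65536, 65536), (0, 0, 65536)⟩) ⟨by decide +kernel, rfl, rfl⟩
    (h₁ := nodeII1_24)
    (h₂ := nodeII1_25)

theorem nodeII1_27 : PosOn (matEx 5 offII1 14 MII1)
    ⟨(0, 0, 65536), (65536, 0, 65536), (0, 65536, 65536)⟩ :=
  posOn_node 1 (A := ⟨(65536, 0, 65536), (32768, 32768, 65536), (0, 0, 65536)⟩) (B := ⟨(32768, 32768, 65536), (0, 65536, 65536), (0, 0, 65536)⟩) ⟨by decide +kernel, rfl, rfl⟩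
    (h₁ := nodeII1_15)
    (h₂ := nodeII1_26)

theorem nodeII1_28 : PosOn (matEx 5 offII1 14 MII1)
    ⟨(65536, 65536, 65536), (32768, 65536, 65536), (32768, 32768, 65536)⟩ :=
  posOn_node 2 (A := ⟨(32768, 32768, 65536), (49152, 49152, 65536), (32768, 65536, 65536)⟩) (B := ⟨(49152, 49152, 65536), (65536, 65536, 65536), (32768, 65536, 65536)⟩) ⟨by decide +kernel, rfl, rfl⟩
    (h₁ := (posOn_smul 32768 16384 32768 rfl (posOn_of_leaf okII1 leafII1_31)))
    (h₂ := (posOn_smul 16384 65536 32768 rfl (posOn_of_leaf okII1 leafII1_32)))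

theorem nodeII1_29 : PosOn (matEx 5 offII1 14 MII1)
    ⟨(16384, 49152, 65536), (24576, 57344, 65536), (24576, 65536, 65536)⟩ :=
  posOn_node 2 (A := ⟨(24576, 65536, 65536), (20480, 57344, 65536), (24576, 57344, 65536)⟩) (B := ⟨(20480, 57344, 65536), (16384, 49152, 65536), (24576, 57344, 65536)⟩) ⟨by decide +kernel, rfl, rfl⟩
    (h₁ := (posOn_smul 8192 4096 8192 rfl (posOn_of_leaf okII1 leafII1_33)))
    (h₂ := (posOn_smul 4096 16384 8192 rfl (posOn_of_leaf okII1 leafII1_34)))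

theorem nodeII1_30 : PosOn (matEx 5 offII1 14 MII1)
    ⟨(32768, 65536, 65536), (24576, 65536, 65536), (16384, 49152, 65536)⟩ :=
  posOn_node 2 (A := ⟨(16384, 49152, 65536), (24576, 57344, 65536), (24576, 65536, 65536)⟩) (B := ⟨(24576, 57344, 65536), (32768, 65536, 65536), (24576, 65536, 65536)⟩) ⟨by decide +kernel, rfl, rfl⟩
    (h₁ := nodeII1_29)
    (h₂ := (posOn_smul 8192 32768 8192 rfl (posOn_of_leaf okII1 leafII1_35)))

theorem nodeII1_31 : PosOn (matEx 5 offII1 14 MII1)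
    ⟨(32768, 65536, 65536), (16384, 65536, 65536), (16384, 49152, 65536)⟩ :=
  posOn_node 0 (A := ⟨(32768, 65536, 65536), (24576, 65536, 65536), (16384, 49152, 65536)⟩) (B := ⟨(24576, 65536, 65536), (16384, 65536, 65536), (16384, 49152, 65536)⟩) ⟨by decide +kernel, rfl, rfl⟩
    (h₁ := nodeII1_30)
    (h₂ := (posOn_smul 8192 16384 16384 rfl (posOn_of_leaf okII1 leafII1_36)))

theorem nodeII1_32 : PosOn (matEx 5 offII1 14 MII1)
    ⟨(0, 65536, 65536), (16384, 49152, 65536), (32768, 65536, 65536)⟩ :=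
  posOn_node 2 (A := ⟨(32768, 65536, 65536), (16384, 65536, 65536), (16384, 49152, 65536)⟩) (B := ⟨(16384, 65536, 65536), (0, 65536, 65536), (16384, 49152, 65536)⟩) ⟨by decide +kernel, rfl, rfl⟩
    (h₁ := nodeII1_31)
    (h₂ := (posOn_smul 16384 65536 16384 rfl (posOn_of_leaf okII1 leafII1_37)))

theorem nodeII1_33 : PosOn (matEx 5 offII1 14 MII1)
    ⟨(16384, 49152, 65536), (24576, 40960, 65536), (24576, 57344, 65536)⟩ :=
  posOn_node 0 (A := ⟨(16384, 49152, 65536), (20480, 45056, 65536), (24576, 57344, 65536)⟩) (B := ⟨(20480, 45056, 65536), (24576, 40960, 65536), (24576, 57344, 65536)⟩) ⟨by decide +kernel, rfl, rfl⟩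
    (h₁ := (posOn_smul 16384 4096 8192 rfl (posOn_of_leaf okII1 leafII1_39)))
    (h₂ := (posOn_smul 4096 8192 8192 rfl (posOn_of_leaf okII1 leafII1_40)))

theorem nodeII1_34 : PosOn (matEx 5 offII1 14 MII1)
    ⟨(24576, 57344, 65536), (16384, 49152, 65536), (32768, 32768, 65536)⟩ :=
  posOn_node 1 (A := ⟨(16384, 49152, 65536), (24576, 40960, 65536), (24576, 57344, 65536)⟩) (B := ⟨(24576, 40960, 65536), (32768, 32768, 65536), (24576, 57344, 65536)⟩) ⟨by decide +kernel, rfl, rfl⟩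
    (h₁ := nodeII1_33)
    (h₂ := (posOn_smul 8192 32768 8192 rfl (posOn_of_leaf okII1 leafII1_41)))

theorem nodeII1_35 : PosOn (matEx 5 offII1 14 MII1)
    ⟨(16384, 49152, 65536), (32768, 32768, 65536), (32768, 65536, 65536)⟩ :=
  posOn_node 2 (A := ⟨(32768, 65536, 65536), (24576, 57344, 65536), (32768, 32768, 65536)⟩) (B := ⟨(24576, 57344, 65536), (16384, 49152, 65536), (32768, 32768, 65536)⟩) ⟨by decide +kernel, rfl, rfl⟩
    (h₁ := (posOn_smul 32768 8192 32768 rfl (posOn_of_leaf okII1 leafII1_38)))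
    (h₂ := nodeII1_34)

theorem nodeII1_36 : PosOn (matEx 5 offII1 14 MII1)
    ⟨(32768, 65536, 65536), (0, 65536, 65536), (32768, 32768, 65536)⟩ :=
  posOn_node 1 (A := ⟨(0, 65536, 65536), (16384, 49152, 65536), (32768, 65536, 65536)⟩) (B := ⟨(16384, 49152, 65536), (32768, 32768, 65536), (32768, 65536, 65536)⟩) ⟨by decide +kernel, rfl, rfl⟩
    (h₁ := nodeII1_32)
    (h₂ := nodeII1_35)

theorem nodeII1_37 : PosOn (matEx 5 offII1 14 MII1)
    ⟨(0, 65536, 65536), (32768, 32768, 65536), (65536, 65536, 65536)⟩ :=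
  posOn_node 2 (A := ⟨(65536, 65536, 65536), (32768, 65536, 65536), (32768, 32768, 65536)⟩) (B := ⟨(32768, 65536, 65536), (0, 65536, 65536), (32768, 32768, 65536)⟩) ⟨by decide +kernel, rfl, rfl⟩
    (h₁ := nodeII1_28)
    (h₂ := nodeII1_36)

theorem nodeII1_38 : PosOn (matEx 5 offII1 14 MII1)
    ⟨(49152, 32768, 65536), (32768, 32768, 65536), (40960, 24576, 65536)⟩ :=
  posOn_node 0 (A := ⟨(49152, 32768, 65536), (40960, 32768, 65536), (40960, 24576, 65536)⟩) (B := ⟨(40960, 32768, 65536), (32768, 32768, 65536), (40960, 24576, 65536)⟩) ⟨by decide +kernel, rfl, rfl⟩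
    (h₁ := (posOn_smul 16384 8192 8192 rfl (posOn_of_leaf okII1 leafII1_43)))
    (h₂ := (posOn_smul 8192 32768 8192 rfl (posOn_of_leaf okII1 leafII1_44)))

theorem nodeII1_39 : PosOn (matEx 5 offII1 14 MII1)
    ⟨(32768, 32768, 65536), (40960, 24576, 65536), (65536, 32768, 65536)⟩ :=
  posOn_node 2 (A := ⟨(65536, 32768, 65536), (49152, 32768, 65536), (40960, 24576, 65536)⟩) (B := ⟨(49152, 32768, 65536), (32768, 32768, 65536), (40960, 24576, 65536)⟩) ⟨by decide +kernel, rfl, rfl⟩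
    (h₁ := (posOn_smul 32768 16384 8192 rfl (posOn_of_leaf okII1 leafII1_42)))
    (h₂ := nodeII1_38)

theorem nodeII1_40 : PosOn (matEx 5 offII1 14 MII1)
    ⟨(32768, 32768, 65536), (49152, 16384, 65536), (65536, 32768, 65536)⟩ :=
  posOn_node 0 (A := ⟨(32768, 32768, 65536), (40960, 24576, 65536), (65536, 32768, 65536)⟩) (B := ⟨(40960, 24576, 65536), (49152, 16384, 65536), (65536, 32768, 65536)⟩) ⟨by decide +kernel, rfl, rfl⟩
    (h₁ := nodeII1_39)
    (h₂ := (posOn_smul 8192 16384 32768 rfl (posOn_of_leaf okII1 leafII1_45)))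

theorem nodeII1_41 : PosOn (matEx 5 offII1 14 MII1)
    ⟨(65536, 0, 65536), (65536, 32768, 65536), (32768, 32768, 65536)⟩ :=
  posOn_node 2 (A := ⟨(32768, 32768, 65536), (49152, 16384, 65536), (65536, 32768, 65536)⟩) (B := ⟨(49152, 16384, 65536), (65536, 0, 65536), (65536, 32768, 65536)⟩) ⟨by decide +kernel, rfl, rfl⟩
    (h₁ := nodeII1_40)
    (h₂ := (posOn_smul 16384 65536 32768 rfl (posOn_of_leaf okII1 leafII1_46)))

theorem nodeII1_42 : PosOn (matEx 5 offII1 14 MII1)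
    ⟨(40960, 32768, 65536), (49152, 32768, 65536), (49152, 49152, 65536)⟩ :=
  posOn_node 2 (A := ⟨(49152, 49152, 65536), (45056, 40960, 65536), (49152, 32768, 65536)⟩) (B := ⟨(45056, 40960, 65536), (40960, 32768, 65536), (49152, 32768, 65536)⟩) ⟨by decide +kernel, rfl, rfl⟩
    (h₁ := (posOn_smul 16384 4096 16384 rfl (posOn_of_leaf okII1 leafII1_49)))
    (h₂ := (posOn_smul 4096 8192 16384 rfl (posOn_of_leaf okII1 leafII1_50)))

theorem nodeII1_43 : PosOn (matEx 5 offII1 14 MII1)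
    ⟨(32768, 32768, 65536), (49152, 32768, 65536), (49152, 49152, 65536)⟩ :=
  posOn_node 0 (A := ⟨(32768, 32768, 65536), (40960, 32768, 65536), (49152, 49152, 65536)⟩) (B := ⟨(40960, 32768, 65536), (49152, 32768, 65536), (49152, 49152, 65536)⟩) ⟨by decide +kernel, rfl, rfl⟩
    (h₁ := (posOn_smul 32768 8192 16384 rfl (posOn_of_leaf okII1 leafII1_48)))
    (h₂ := nodeII1_42)

theorem nodeII1_44 : PosOn (matEx 5 offII1 14 MII1)
    ⟨(49152, 49152, 65536), (32768, 32768, 65536), (65536, 32768, 65536)⟩ :=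
  posOn_node 1 (A := ⟨(32768, 32768, 65536), (49152, 32768, 65536), (49152, 49152, 65536)⟩) (B := ⟨(49152, 32768, 65536), (65536, 32768, 65536), (49152, 49152, 65536)⟩) ⟨by decide +kernel, rfl, rfl⟩
    (h₁ := nodeII1_43)
    (h₂ := (posOn_smul 16384 32768 16384 rfl (posOn_of_leaf okII1 leafII1_51)))

theorem nodeII1_45 : PosOn (matEx 5 offII1 14 MII1)
    ⟨(65536, 32768, 65536), (65536, 65536, 65536), (32768, 32768, 65536)⟩ :=
  posOn_node 1 (A := ⟨(65536, 65536, 65536), (49152, 49152, 65536), (65536, 32768, 65536)⟩) (B := ⟨(49152, 49152, 65536), (32768, 32768, 65536), (65536, 32768, 65536)⟩) ⟨by decide +kernel, rfl, rfl⟩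
    (h₁ := (posOn_smul 65536 16384 32768 rfl (posOn_of_leaf okII1 leafII1_47)))
    (h₂ := nodeII1_44)

theorem nodeII1_46 : PosOn (matEx 5 offII1 14 MII1)
    ⟨(32768, 32768, 65536), (65536, 0, 65536), (65536, 65536, 65536)⟩ :=
  posOn_node 1 (A := ⟨(65536, 0, 65536), (65536, 32768, 65536), (32768, 32768, 65536)⟩) (B := ⟨(65536, 32768, 65536), (65536, 65536, 65536), (32768, 32768, 65536)⟩) ⟨by decide +kernel, rfl, rfl⟩
    (h₁ := nodeII1_41)
    (h₂ := nodeII1_45)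

theorem nodeII1_47 : PosOn (matEx 5 offII1 14 MII1)
    ⟨(65536, 0, 65536), (65536, 65536, 65536), (0, 65536, 65536)⟩ :=
  posOn_node 2 (A := ⟨(0, 65536, 65536), (32768, 32768, 65536), (65536, 65536, 65536)⟩) (B := ⟨(32768, 32768, 65536), (65536, 0, 65536), (65536, 65536, 65536)⟩) ⟨by decide +kernel, rfl, rfl⟩
    (h₁ := nodeII1_37)
    (h₂ := nodeII1_46)

/-- Block II1 is nonnegative on root 0. -/
theorem posOnII1_0 : PosOn (matEx 5 offII1 14 MII1)
    ⟨((-65536), 0, 65536), (0, 0, 65536), ((-65536), 65536, 65536)⟩ :=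
  (posOn_cyc (posOn_cyc (posOn_flip (p₀ := ((-65536), 65536, 65536)) (p₁ := ((-65536), 0, 65536)) (p₂ := (0, 0, 65536)) (p₃ := (0, 65536, 65536)) (by decide) (posOn_cyc nodeII1_8) nodeII1_7)))

/-- Block II1 is nonnegative on root 1. -/
theorem posOnII1_1 : PosOn (matEx 5 offII1 14 MII1)
    ⟨(0, 0, 65536), (0, 65536, 65536), ((-65536), 65536, 65536)⟩ :=
  (posOn_flip (p₀ := (0, 0, 65536)) (p₁ := (0, 65536, 65536)) (p₂ := ((-65536), 65536, 65536)) (p₃ := ((-65536), 0, 65536)) (by decide) (posOn_cyc (posOn_cyc nodeII1_7)) (posOn_cyc (posOn_cyc nodeII1_8)))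

/-- Block II1 is nonnegative on root 2. -/
theorem posOnII1_2 : PosOn (matEx 5 offII1 14 MII1)
    ⟨(0, 0, 65536), (65536, 0, 65536), (65536, 65536, 65536)⟩ :=
  (posOn_flip (p₀ := (0, 0, 65536)) (p₁ := (65536, 0, 65536)) (p₂ := (65536, 65536, 65536)) (p₃ := (0, 65536, 65536)) (by decide) nodeII1_27 nodeII1_47)

/-- Block II1 is nonnegative on root 3. -/
theorem posOnII1_3 : PosOn (matEx 5 offII1 14 MII1)
    ⟨(0, 0, 65536), (65536, 65536, 65536), (0, 65536, 65536)⟩ :=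
  (posOn_cyc (posOn_flip (p₀ := (65536, 65536, 65536)) (p₁ := (0, 65536, 65536)) (p₂ := (0, 0, 65536)) (p₃ := (65536, 0, 65536)) (by decide) (posOn_cyc (posOn_cyc nodeII1_47)) (posOn_cyc nodeII1_27)))

end Vale.Agent.P252.General.Cert5.Trees
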