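import Vale.Agent.P252.Rigidity.General.Cert5.Trees.II2_0
import Vale.Agent.P252.Rigidity.General.Cert5.Trees.Glue

/-! Block II2 assembled from its leaves, generated. -/

namespace Vale.Agent.P252.General.Cert5.Trees

open Vale.Agent.P252.PolyPSD Vale.Agent.P252.PDCoef

theorem okII2 : blockOK 3 nbII2 offII2 14 MII2 = true := by decide +kernel

theorem nodeII2_0 : PosOn (matEx 3 offII2 14 MII2)
    ⟨((-40960), 0, 65536), ((-45056), 16384, 65536), ((-49152), 0, 65536)⟩ :=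
  posOn_node 2 (A := ⟨((-49152), 0, 65536), ((-45056), 0, 65536), ((-45056), 16384, 65536)⟩) (B := ⟨((-45056), 0, 65536), ((-40960), 0, 65536), ((-45056), 16384, 65536)⟩) ⟨by decide +kernel, rfl, rfl⟩
    (h₁ := (posOn_smul 16384 4096 4096 rfl (posOn_of_leaf okII2 leafII2_1)))
    (h₂ := (posOn_smul 4096 8192 4096 rfl (posOn_of_leaf okII2 leafII2_2)))

theorem nodeII2_1 : PosOn (matEx 3 offII2 14 MII2)
    ⟨((-49152), 0, 65536), ((-40960), 0, 65536), ((-49152), 32768, 65536)⟩ :=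
  posOn_node 1 (A := ⟨((-40960), 0, 65536), ((-45056), 16384, 65536), ((-49152), 0, 65536)⟩) (B := ⟨((-45056), 16384, 65536), ((-49152), 32768, 65536), ((-49152), 0, 65536)⟩) ⟨by decide +kernel, rfl, rfl⟩
    (h₁ := nodeII2_0)
    (h₂ := (posOn_smul 4096 16384 16384 rfl (posOn_of_leaf okII2 leafII2_3)))

theorem nodeII2_2 : PosOn (matEx 3 offII2 14 MII2)
    ⟨((-32768), 0, 65536), ((-49152), 32768, 65536), ((-49152), 0, 65536)⟩ :=
  posOn_node 2 (A := ⟨((-49152), 0, 65536), ((-40960), 0, 65536), ((-49152), 32768, 65536)⟩) (B := ⟨((-40960), 0, 65536), ((-32768), 0, 65536), ((-49152), 32768, 65536)⟩) ⟨by decide +kernel, rfl, rfl⟩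
    (h₁ := nodeII2_1)
    (h₂ := (posOn_smul 8192 32768 16384 rfl (posOn_of_leaf okII2 leafII2_4)))

theorem nodeII2_3 : PosOn (matEx 3 offII2 14 MII2)
    ⟨((-49152), 0, 65536), ((-32768), 0, 65536), ((-65536), 65536, 65536)⟩ :=
  posOn_node 1 (A := ⟨((-32768), 0, 65536), ((-49152), 32768, 65536), ((-49152), 0, 65536)⟩) (B := ⟨((-49152), 32768, 65536), ((-65536), 65536, 65536), ((-49152), 0, 65536)⟩) ⟨by decide +kernel, rfl, rfl⟩
    (h₁ := nodeII2_2)
    (h₂ := (posOn_smul 16384 65536 16384 rfl (posOn_of_leaf okII2 leafII2_5)))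

theorem nodeII2_4 : PosOn (matEx 3 offII2 14 MII2)
    ⟨((-65536), 0, 65536), ((-32768), 0, 65536), ((-65536), 65536, 65536)⟩ :=
  posOn_node 0 (A := ⟨((-65536), 0, 65536), ((-49152), 0, 65536), ((-65536), 65536, 65536)⟩) (B := ⟨((-49152), 0, 65536), ((-32768), 0, 65536), ((-65536), 65536, 65536)⟩) ⟨by decide +kernel, rfl, rfl⟩
    (h₁ := (posOn_smul 65536 16384 65536 rfl (posOn_of_leaf okII2 leafII2_0)))
    (h₂ := nodeII2_3)

theorem nodeII2_5 : PosOn (matEx 3 offII2 14 MII2)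
    ⟨((-65536), 0, 65536), (0, 0, 65536), ((-65536), 65536, 65536)⟩ :=
  posOn_node 0 (A := ⟨((-65536), 0, 65536), ((-32768), 0, 65536), ((-65536), 65536, 65536)⟩) (B := ⟨((-32768), 0, 65536), (0, 0, 65536), ((-65536), 65536, 65536)⟩) ⟨by decide +kernel, rfl, rfl⟩
    (h₁ := nodeII2_4)
    (h₂ := (posOn_smul 32768 65536 65536 rfl (posOn_of_leaf okII2 leafII2_6)))

theorem nodeII2_6 : PosOn (matEx 3 offII2 14 MII2)
    ⟨(0, 0, 65536), (8192, 0, 65536), (16384, 16384, 65536)⟩ :=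
  posOn_node 2 (A := ⟨(16384, 16384, 65536), (8192, 8192, 65536), (8192, 0, 65536)⟩) (B := ⟨(8192, 8192, 65536), (0, 0, 65536), (8192, 0, 65536)⟩) ⟨by decide +kernel, rfl, rfl⟩
    (h₁ := (posOn_smul 16384 8192 8192 rfl (posOn_of_leaf okII2 leafII2_10)))
    (h₂ := (posOn_smul 8192 65536 8192 rfl (posOn_of_leaf okII2 leafII2_11)))

theorem nodeII2_7 : PosOn (matEx 3 offII2 14 MII2)
    ⟨(0, 0, 65536), (16384, 0, 65536), (16384, 16384, 65536)⟩ :=
  posOn_node 0 (A := ⟨(0, 0, 65536), (8192, 0, 65536), (16384, 16384, 65536)⟩) (B := ⟨(8192, 0, 65536), (16384, 0, 65536), (16384, 16384, 65536)⟩) ⟨by decide +kernel, rfl, rfl⟩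
    (h₁ := nodeII2_6)
    (h₂ := (posOn_smul 8192 16384 16384 rfl (posOn_of_leaf okII2 leafII2_12)))

theorem nodeII2_8 : PosOn (matEx 3 offII2 14 MII2)
    ⟨(16384, 16384, 65536), (0, 0, 65536), (32768, 0, 65536)⟩ :=
  posOn_node 1 (A := ⟨(0, 0, 65536), (16384, 0, 65536), (16384, 16384, 65536)⟩) (B := ⟨(16384, 0, 65536), (32768, 0, 65536), (16384, 16384, 65536)⟩) ⟨by decide +kernel, rfl, rfl⟩
    (h₁ := nodeII2_7)
    (h₂ := (posOn_smul 16384 32768 16384 rfl (posOn_of_leaf okII2 leafII2_13)))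

theorem nodeII2_9 : PosOn (matEx 3 offII2 14 MII2)
    ⟨(32768, 32768, 65536), (0, 0, 65536), (32768, 0, 65536)⟩ :=
  posOn_node 0 (A := ⟨(32768, 32768, 65536), (16384, 16384, 65536), (32768, 0, 65536)⟩) (B := ⟨(16384, 16384, 65536), (0, 0, 65536), (32768, 0, 65536)⟩) ⟨by decide +kernel, rfl, rfl⟩
    (h₁ := (posOn_smul 32768 16384 32768 rfl (posOn_of_leaf okII2 leafII2_9)))
    (h₂ := nodeII2_8)

theorem nodeII2_10 : PosOn (matEx 3 offII2 14 MII2)
    ⟨(0, 0, 65536), (32768, 0, 65536), (65536, 65536, 65536)⟩ :=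
  posOn_node 2 (A := ⟨(65536, 65536, 65536), (32768, 32768, 65536), (32768, 0, 65536)⟩) (B := ⟨(32768, 32768, 65536), (0, 0, 65536), (32768, 0, 65536)⟩) ⟨by decide +kernel, rfl, rfl⟩
    (h₁ := (posOn_smul 65536 32768 32768 rfl (posOn_of_leaf okII2 leafII2_8)))
    (h₂ := nodeII2_9)

theorem nodeII2_11 : PosOn (matEx 3 offII2 14 MII2)
    ⟨(0, 0, 65536), (65536, 0, 65536), (65536, 65536, 65536)⟩ :=
  posOn_node 0 (A := ⟨(0, 0, 65536), (32768, 0, 65536), (65536, 65536, 65536)⟩) (B := ⟨(32768, 0, 65536), (65536, 0, 65536), (65536, 65536, 65536)⟩) ⟨by decide +kernel, rfl, rfl⟩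
    (h₁ := nodeII2_10)
    (h₂ := (posOn_smul 32768 65536 65536 rfl (posOn_of_leaf okII2 leafII2_14)))

theorem nodeII2_12 : PosOn (matEx 3 offII2 14 MII2)
    ⟨(0, 0, 65536), (32768, 32768, 65536), (0, 65536, 65536)⟩ :=
  posOn_node 0 (A := ⟨(0, 0, 65536), (16384, 16384, 65536), (0, 65536, 65536)⟩) (B := ⟨(16384, 16384, 65536), (32768, 32768, 65536), (0, 65536, 65536)⟩) ⟨by decide +kernel, rfl, rfl⟩
    (h₁ := (posOn_smul 65536 16384 65536 rfl (posOn_of_leaf okII2 leafII2_15)))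
    (h₂ := (posOn_smul 16384 32768 65536 rfl (posOn_of_leaf okII2 leafII2_16)))

theorem nodeII2_13 : PosOn (matEx 3 offII2 14 MII2)
    ⟨(32768, 32768, 65536), (65536, 65536, 65536), (0, 65536, 65536)⟩ :=
  posOn_node 1 (A := ⟨(65536, 65536, 65536), (32768, 65536, 65536), (32768, 32768, 65536)⟩) (B := ⟨(32768, 65536, 65536), (0, 65536, 65536), (32768, 32768, 65536)⟩) ⟨by decide +kernel, rfl, rfl⟩
    (h₁ := (posOn_smul 65536 32768 32768 rfl (posOn_of_leaf okII2 leafII2_17)))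
    (h₂ := (posOn_smul 32768 65536 32768 rfl (posOn_of_leaf okII2 leafII2_18)))

theorem nodeII2_14 : PosOn (matEx 3 offII2 14 MII2)
    ⟨(0, 0, 65536), (65536, 65536, 65536), (0, 65536, 65536)⟩ :=
  posOn_node 0 (A := ⟨(0, 0, 65536), (32768, 32768, 65536), (0, 65536, 65536)⟩) (B := ⟨(32768, 32768, 65536), (65536, 65536, 65536), (0, 65536, 65536)⟩) ⟨by decide +kernel, rfl, rfl⟩
    (h₁ := nodeII2_12)
    (h₂ := nodeII2_13)

/-- Block II2 is nonnegative on root 0. -/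
theorem posOnII2_0 : PosOn (matEx 3 offII2 14 MII2)
    ⟨((-65536), 0, 65536), (0, 0, 65536), ((-65536), 65536, 65536)⟩ :=
  nodeII2_5

/-- Block II2 is nonnegative on root 1. -/
theorem posOnII2_1 : PosOn (matEx 3 offII2 14 MII2)
    ⟨(0, 0, 65536), (0, 65536, 65536), ((-65536), 65536, 65536)⟩ :=
  (posOn_smul 65536 65536 65536 rfl (posOn_of_leaf okII2 leafII2_7))

/-- Block II2 is nonnegative on root 2. -/
theorem posOnII2_2 : PosOn (matEx 3 offII2 14 MII2)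
    ⟨(0, 0, 65536), (65536, 0, 65536), (65536, 65536, 65536)⟩ :=
  nodeII2_11

/-- Block II2 is nonnegative on root 3. -/
theorem posOnII2_3 : PosOn (matEx 3 offII2 14 MII2)
    ⟨(0, 0, 65536), (65536, 65536, 65536), (0, 65536, 65536)⟩ :=
  nodeII2_14

end Vale.Agent.P252.General.Cert5.Trees
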