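import Vale.Agent.P252.Cert.PDCoef
import Vale.Agent.P252.Rigidity.General.Cert5.Flat.II2

/-! Leaves 0..18 of block II2, generated. -/

namespace Vale.Agent.P252.General.Cert5.Trees

open Vale.Agent.P252.PolyPSD Vale.Agent.P252.PDCoef

theorem leafII2_0 : checkLeaf 3 nbII2 offII2 14 MII2
    ⟨((-1), 0, 1), ((-3), 0, 4), ((-1), 1, 1)⟩ = true := by decide +kernel

theorem leafII2_1 : checkLeaf 3 nbII2 offII2 14 MII2
    ⟨((-3), 0, 4), ((-11), 0, 16), ((-11), 4, 16)⟩ = true := by decide +kernel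

theorem leafII2_2 : checkLeaf 3 nbII2 offII2 14 MII2
    ⟨((-11), 0, 16), ((-5), 0, 8), ((-11), 4, 16)⟩ = true := by decide +kernel

theorem leafII2_3 : checkLeaf 3 nbII2 offII2 14 MII2
    ⟨((-11), 4, 16), ((-3), 2, 4), ((-3), 0, 4)⟩ = true := by decide +kernel

theorem leafII2_4 : checkLeaf 3 nbII2 offII2 14 MII2
    ⟨((-5), 0, 8), ((-1), 0, 2), ((-3), 2, 4)⟩ = true := by decide +kernel

theorem leafII2_5 : checkLeaf 3 nbII2 offII2 14 MII2
    ⟨((-3), 2, 4), ((-1), 1, 1), ((-3), 0, 4)⟩ = true := by decide +kernel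

theorem leafII2_6 : checkLeaf 3 nbII2 offII2 14 MII2
    ⟨((-1), 0, 2), (0, 0, 1), ((-1), 1, 1)⟩ = true := by decide +kernel

theorem leafII2_7 : checkLeaf 3 nbII2 offII2 14 MII2
    ⟨(0, 0, 1), (0, 1, 1), ((-1), 1, 1)⟩ = true := by decide +kernel

theorem leafII2_8 : checkLeaf 3 nbII2 offII2 14 MII2
    ⟨(1, 1, 1), (1, 1, 2), (1, 0, 2)⟩ = true := by decide +kernel

theorem leafII2_9 : checkLeaf 3 nbII2 offII2 14 MII2
    ⟨(1, 1, 2), (1, 1, 4), (1, 0, 2)⟩ = true := by decide +kernel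

theorem leafII2_10 : checkLeaf 3 nbII2 offII2 14 MII2
    ⟨(1, 1, 4), (1, 1, 8), (1, 0, 8)⟩ = true := by decide +kernel

theorem leafII2_11 : checkLeaf 3 nbII2 offII2 14 MII2
    ⟨(1, 1, 8), (0, 0, 1), (1, 0, 8)⟩ = true := by decide +kernel

theorem leafII2_12 : checkLeaf 3 nbII2 offII2 14 MII2
    ⟨(1, 0, 8), (1, 0, 4), (1, 1, 4)⟩ = true := by decide +kernel

theorem leafII2_13 : checkLeaf 3 nbII2 offII2 14 MII2
    ⟨(1, 0, 4), (1, 0, 2), (1, 1, 4)⟩ = true := by decide +kernel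

theorem leafII2_14 : checkLeaf 3 nbII2 offII2 14 MII2
    ⟨(1, 0, 2), (1, 0, 1), (1, 1, 1)⟩ = true := by decide +kernel

theorem leafII2_15 : checkLeaf 3 nbII2 offII2 14 MII2
    ⟨(0, 0, 1), (1, 1, 4), (0, 1, 1)⟩ = true := by decide +kernel

theorem leafII2_16 : checkLeaf 3 nbII2 offII2 14 MII2
    ⟨(1, 1, 4), (1, 1, 2), (0, 1, 1)⟩ = true := by decide +kernel

theorem leafII2_17 : checkLeaf 3 nbII2 offII2 14 MII2
    ⟨(1, 1, 1), (1, 2, 2), (1, 1, 2)⟩ = true := by decide +kernel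

theorem leafII2_18 : checkLeaf 3 nbII2 offII2 14 MII2
    ⟨(1, 2, 2), (0, 1, 1), (1, 1, 2)⟩ = true := by decide +kernel

end Vale.Agent.P252.General.Cert5.Trees
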